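import Vale.Agent.P146.H694.El1Sk
import Vale.Agent.P146.H266.Brm1
import Vale.Agent.P146.H339.Sign

/-!
# P146, block 12b-BRMOD: the cubic equation in `L¹` for the modulated SK system

`e1_sk` = the hypothesis `hE_i` of `H317.br_ex` at `K = Kset S BL FL`, all errors explicit.
-/

open MeasureTheory ProbabilityTheory

namespace Vale.Agent.P146.H694

open Vale.Agent.P157.Lv Vale.Agent.P146.H196 Vale.Agent.P146.H646 Vale.Agent.P146.H615
  Vale.Agent.P146.H347 Vale.Agent.P146.H475 Vale.Agent.P146.H161 Vale.Agent.P146.H816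
  Vale.Agent.P146.H325

set_option linter.all false

variable {n : ℕ} {LB LF : Type} [Fintype LB] [DecidableEq LB] [Fintype LF] [DecidableEq LF]

/-- the conditional mean of the observable `Θ i1`. -/
noncomputable def ks (n : ℕ) (b : ℝ) (cB : LB → ℝ) (cF : LF → ℝ) (s η lam c x : ℝ)
    (S : Finset (Fin n)) (BL : Finset LB) (FL : Finset LF)
    (Θ : Fin n → (Co n LB LF → ℝ) → ℝ) (i1 : Fin n) : (Co n LB LF → ℝ) → ℝ :=
  cxS n b cB cF s η lam c x (Kset S BL FL) (Θ i1)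

/-- the coefficient of `Q`. -/
noncomputable def tau (n : ℕ) (b kp : ℝ) (cB : LB → ℝ) (S : Finset (Fin n)) (BL : Finset LB) :
    ℝ := n / S.card - kp ^ 2 * b ^ 2 * ∑ l ∈ BL, cB l ^ 2

/-- increment of `ex |M|²` in one step -/
noncomputable def incM (n : ℕ) (b : ℝ) (cB : LB → ℝ) (cF : LF → ℝ) (s η lam c x : ℝ)
    (S : Finset (Fin n)) (BL : Finset LB) (FL : Finset LF) (i0 : Fin n) : ℝ :=
  H266.Brm.incM b cB cF s η lam c x (Kset S BL FL) (Kset (insert i0 S) BL FL) S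

/-- increment of `ex κ²` in one step -/
noncomputable def incK (n : ℕ) (b : ℝ) (cB : LB → ℝ) (cF : LF → ℝ) (s η lam c x : ℝ)
    (S : Finset (Fin n)) (BL : Finset LB) (FL : Finset LF) (i0 : Fin n)
    (Θ : Fin n → (Co n LB LF → ℝ) → ℝ) (i1 : Fin n) : ℝ :=
  H266.Brm.incK b cB cF s η lam c x (Kset S BL FL) (Kset (insert i0 S) BL FL) Θ i1

/-- error of the step -/
noncomputable def rE2 (n : ℕ) (b : ℝ) (cB : LB → ℝ) (cF : LF → ℝ) (s η lam c x : ℝ)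
    (S : Finset (Fin n)) (BL : Finset LB) (FL : Finset LF) (i0 : Fin n)
    (Θ : Fin n → (Co n LB LF → ℝ) → ℝ) (i1 : Fin n) (L : Fin 2 → ℝ) : ℝ :=
  incM n b cB cF s η lam c x S BL FL i0 / S.card +
    2 * ((L 0 / √n * √(incM n b cB cF s η lam c x S BL FL i0 +
        exS n b cB cF s η lam c x (fun z => Ns n b cB cF s η lam c x S BL FL i0 z ^ 2)) +
      L 1 * √(incK n b cB cF s η lam c x S BL FL i0 Θ i1)) *
      √(exS n b cB cF s η lam c x (fun z => Ns n b cB cF s η lam c x S BL FL i0 z ^ 4)))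

section main

variable {b : ℝ} {cB : LB → ℝ} {cF : LF → ℝ} {s η lam c x r0 : ℝ}
  {S S1 : Finset (Fin n)} {BL : Finset LB} {FL : Finset LF} {i0 i1 : Fin n}
  {Θ : Fin n → (Co n LB LF → ℝ) → ℝ}

lemma Qs_nonneg (z : Co n LB LF → ℝ) : 0 ≤ Qs n b cB cF s η lam c x S BL FL z := by
  unfold Qs
  exact div_nonneg (m2_nonneg z) (Nat.cast_nonneg n)

lemma dep_Qs : H646.Dep (Kset S BL FL) (Qs n b cB cF s η lam c x S BL FL) := by
  have h : H646.Dep (Kset S BL FL) (m2 S (Mj n b cB cF s η lam c x S BL FL)) :=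
    Dep.sum S fun j _ => Dep.sq (dep_Mj j)
  intro z z'
  show m2 S (Mj n b cB cF s η lam c x S BL FL) (glue (Kset S BL FL) z z') / (n : ℝ) =
    m2 S (Mj n b cB cF s η lam c x S BL FL) z / n
  rw [h z z']

lemma dep_ks : H646.Dep (Kset S BL FL) (ks n b cB cF s η lam c x S BL FL Θ i1) := dep_cx _

lemma Ys_eq (hn : 0 < n) (z : Co n LB LF → ℝ) : Ys n b cB cF s η lam c x S BL FL z =
    b ^ 2 * (∑ l ∈ BL, cB l ^ 2) * Qs n b cB cF s η lam c x S BL FL z + vf cF FL := by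
  have : (n : ℝ) ≠ 0 := by exact_mod_cast hn.ne'
  unfold Ys Yf Qs ta
  field_simp

variable (hl : 0 < lam) (hη : 0 ≤ η)
include hl hη

lemma bm_Qs : BM (Qs n b cB cF s η lam c x S BL FL) :=
  bm_div (BM.sum S fun j _ => bsq (bm_Mj hl hη j)) n

lemma bm_Ys : BM (Ys n b cB cF s η lam c x S BL FL) := by
  unfold Ys Yf
  exact (bcm _ (BM.sum S fun j _ => bsq (bm_Mj hl hη j))).add (BM.const _)

lemma bm_ks (hΘ : BM (Θ i1)) : BM (ks n b cB cF s η lam c x S BL FL Θ i1) :=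
  (wt_sk hl hη).bm_cx _ hΘ

lemma abs_Mj_le (j : Fin n) (z : Co n LB LF → ℝ) :
    |Mj n b cB cF s η lam c x S BL FL j z| ≤ 1 + η := by
  have hw := wt_sk (n := n) (LB := LB) (LF := LF) (b := b) (cB := cB) (cF := cF) (s := s)
    (c := c) (x := x) hl hη
  have hG := gmA (n := n) b cB cF s hl hη c
  refine hw.abs_cx_le _ (bm_aj hl hη j) (fun z => ?_) z
  refine hG.abs_av_le 1 ((bm_of_al (n := n) hη).mul (bm_sp j)).1 (fun w => ?_) z
  have h1 := al_mem hη w.1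
  have h2 := abs_sp_le w.2 j
  rw [abs_mul]
  have h3 : |al η w.1| ≤ 1 + η := by rw [abs_le]; constructor <;> linarith [h1.1, h1.2]
  calc |al η w.1| * |sp w.2 j| ≤ (1 + η) * 1 := mul_le_mul h3 h2 (abs_nonneg _) (by linarith)
    _ = 1 + η := mul_one _

lemma Qs_le (z : Co n LB LF → ℝ) :
    Qs n b cB cF s η lam c x S BL FL z ≤ (1 + η) ^ 2 := by
  rcases Nat.eq_zero_or_pos n with h | hn
  · subst h
    unfold Qs
    simp only [Nat.cast_zero, div_zero]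
    positivity
  have hn' : (0 : ℝ) < n := Nat.cast_pos.2 hn
  unfold Qs
  rw [div_le_iff₀ hn']
  unfold m2
  calc ∑ j ∈ S, Mj n b cB cF s η lam c x S BL FL j z ^ 2 ≤ ∑ j ∈ S, (1 + η) ^ 2 := by
        refine Finset.sum_le_sum fun j _ => ?_
        rw [← sq_abs]
        exact pow_le_pow_left₀ (abs_nonneg _) (abs_Mj_le hl hη j z) 2
    _ = S.card * (1 + η) ^ 2 := by rw [Finset.sum_const, nsmul_eq_mul]
    _ ≤ (n : ℝ) * (1 + η) ^ 2 := by
        refine mul_le_mul_of_nonneg_right ?_ (sq_nonneg _)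
        have := Finset.card_le_univ S
        rw [Fintype.card_fin] at this
        exact_mod_cast this
    _ = (1 + η) ^ 2 * n := mul_comm _ _

/-- crude bound of the cubic polynomial. -/
lemma gq_crude {a τ v C k Q : ℝ} (ha : 0 ≤ a) (hv : 0 ≤ v) (hk : |k| ≤ C) (hQ0 : 0 ≤ Q)
    (hQ : Q ≤ (1 + η) ^ 2) :
    |k ^ 2 * Q ^ 3 - a * Q ^ 2 - τ * Q + v| ≤
      C ^ 2 * (1 + η) ^ 6 + a * (1 + η) ^ 4 + |τ| * (1 + η) ^ 2 + v := by
  have h1 : k ^ 2 * Q ^ 3 ≤ C ^ 2 * (1 + η) ^ 6 := by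
    have h2 : k ^ 2 ≤ C ^ 2 := by rw [← sq_abs]; exact pow_le_pow_left₀ (abs_nonneg _) hk 2
    have h3 : Q ^ 3 ≤ ((1 + η) ^ 2) ^ 3 := pow_le_pow_left₀ hQ0 hQ 3
    calc k ^ 2 * Q ^ 3 ≤ C ^ 2 * ((1 + η) ^ 2) ^ 3 :=
          mul_le_mul h2 h3 (by positivity) (by positivity)
      _ = _ := by ring
  have h2 : a * Q ^ 2 ≤ a * (1 + η) ^ 4 := by
    have h3 : Q ^ 2 ≤ ((1 + η) ^ 2) ^ 2 := pow_le_pow_left₀ hQ0 hQ 2
    calc a * Q ^ 2 ≤ a * ((1 + η) ^ 2) ^ 2 := mul_le_mul_of_nonneg_left h3 ha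
      _ = _ := by ring
  have h3 : |τ * Q| ≤ |τ| * (1 + η) ^ 2 := by
    rw [abs_mul, abs_of_nonneg hQ0]
    exact mul_le_mul_of_nonneg_left hQ (abs_nonneg _)
  have h4 : 0 ≤ k ^ 2 * Q ^ 3 := by positivity
  have h5 : 0 ≤ a * Q ^ 2 := by positivity
  rw [abs_le] at h3 ⊢
  constructor <;> linarith [h3.1, h3.2]

/-- **The cubic equation in `L¹`** (`hE` of `br_ex`). -/
theorem e1_sk (hs : s ≠ 0) (hx0 : 0 ≤ x) (hx1 : x < 1)
    (hc : c = s ^ 2 * n * (1 - (1 - x) * r0)) (hk : 0 ≤ 1 - (1 - x) * r0)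
    (ht1 : ∑ l ∈ BL, cB l ^ 2 ≤ 1)
    (hS0 : S.Nonempty) (hS : S ⊆ S1) (hi0 : i0 ∉ S) (hne : (S1 \ S).Nonempty)
    (hi1 : i1 ∉ insert i0 S) (hΘb : ∀ i, BM (Θ i)) (hΘ : Eq1 Θ) {C : ℝ} (hC0 : 0 ≤ C)
    (hC : ∀ z, |Θ i1 z| ≤ C)
    {m1 Y2 DV Y2m Ym2 q1 q2 R3 δ R : ℝ} (hδ : 0 < δ) (hR : 0 ≤ R)
    (hm1 : exS n b cB cF s η lam c x (m2 S (Mj n b cB cF s η lam c x S BL FL)) ≤ m1)
    (hY2 : exS n b cB cF s η lam c x (fun z => Ys n b cB cF s η lam c x S BL FL z ^ 2) ≤ Y2)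
    (hDV : ta n b cB BL ^ 2 * exS n b cB cF s η lam c x (Vs n b cB cF s η lam c x S BL FL) ≤ DV)
    (hY2m : exS n b cB cF s η lam c x (fun z => Ys n b cB cF s η lam c x S BL FL z ^ 2 *
      m2 S (Mj n b cB cF s η lam c x S BL FL) z) ≤ Y2m)
    (hYm2 : exS n b cB cF s η lam c x (fun z => (Ys n b cB cF s η lam c x S BL FL z *
      m2 S (Mj n b cB cF s η lam c x S BL FL) z) ^ 2) ≤ Ym2)
    (hC3 : exS n b cB cF s η lam c x (fun z =>
      |Ts n b cB cF s η lam c x S BL FL (1 - (1 - x) * r0) i0 z -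
        ks n b cB cF s η lam c x S BL FL Θ i1 z ^ 2 *
          Qs n b cB cF s η lam c x S BL FL z ^ 3|) ≤ R3)
    (hq1 : exS n b cB cF s η lam c x (Qs n b cB cF s η lam c x S BL FL) ≤ q1)
    (hq2 : exS n b cB cF s η lam c x (fun z => Qs n b cB cF s η lam c x S BL FL z ^ 2) ≤ q2) :
    exS n b cB cF s η lam c x (fun z =>
      |ks n b cB cF s η lam c x S BL FL Θ i1 z ^ 2 * Qs n b cB cF s η lam c x S BL FL z ^ 3 -
        x * (1 - (1 - x) * r0) ^ 3 * b ^ 4 * Qs n b cB cF s η lam c x S BL FL z ^ 2 -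
        tau n b (1 - (1 - x) * r0) cB S BL * Qs n b cB cF s η lam c x S BL FL z +
        (1 - (1 - x) * r0) ^ 2 * vf cF FL|) ≤
      δ + (3 * RA (1 - (1 - x) * r0) (ta n b cB BL) (vf cF FL)
          (d0 n b cB cF s η lam c x r0 (Kset S BL FL) (Kset S1 BL FL) (S1 \ S).card)
          (d0f n b cB cF s η lam c x r0 (S1 \ S).card) x η m1 Y2 DV Y2m Ym2 +
        rE2 n b cB cF s η lam c x S BL FL i0 Θ i1
          (H339.Sg.Lx 1 (x * (1 - (1 - x) * r0) ^ 3 * b ^ 4)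
            (tau n b (1 - (1 - x) * r0) cB S BL) R C δ) + R3 +
        x * (1 - (1 - x) * r0) ^ 3 * (2 * b ^ 4 * (1 - ∑ l ∈ BL, cB l ^ 2) * q2 +
          2 * b ^ 2 * vf cF FL * q1 + vf cF FL ^ 2)) +
      2 * ((C ^ 2 * (1 + η) ^ 6 + x * (1 - (1 - x) * r0) ^ 3 * b ^ 4 * (1 + η) ^ 4 +
          |tau n b (1 - (1 - x) * r0) cB S BL| * (1 + η) ^ 2 +
          (1 - (1 - x) * r0) ^ 2 * vf cF FL) *
        exS n b cB cF s η lam c x (fun z =>
          if R < √(Qs n b cB cF s η lam c x S BL FL z) then (1 : ℝ) else 0)) := by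
  have hw := wt_sk (n := n) (LB := LB) (LF := LF) (b := b) (cB := cB) (cF := cF) (s := s)
    (c := c) (x := x) hl hη
  have hn : 0 < n := (Fin.pos_iff_nonempty.2 ⟨i0⟩)
  obtain ⟨kp, hkp⟩ : ∃ kp, kp = 1 - (1 - x) * r0 := ⟨_, rfl⟩
  have hrow := fun ψ hψ hψb hψ1 => row_sk (n := n) (LB := LB) (LF := LF) (b := b) (cB := cB)
    (cF := cF) (s := s) (r0 := r0) (BL := BL) (FL := FL) hl hη hs hx0 hx1 hc hk hS hi0 hne hm1
    hY2 hDV hY2m hYm2 (ψ := ψ) hψ hψb hψ1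
  rw [← hkp] at hk hC3 ⊢
  rw [← hkp] at hrow
  set Q := Qs n b cB cF s η lam c x S BL FL with hQ
  set k := ks n b cB cF s η lam c x S BL FL Θ i1 with hkd
  set τ := tau n b kp cB S BL with hτ
  set a := x * kp ^ 3 * b ^ 4 with ha
  set v := vf cF FL with hv
  have hv0 : 0 ≤ v := vf_nonneg
  have ha0 : 0 ≤ a := by positivity
  have bQ : BM Q := bm_Qs hl hη
  have br : BM fun z => √(Q z) := bm_sqrt bQ
  have bk : BM k := bm_ks hl hη (hΘb i1)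
  have hkC : ∀ z, |k z| ≤ C := fun z => hw.abs_cx_le _ (hΘb i1) hC z
  have hQ0 : ∀ z, 0 ≤ Q z := fun z => Qs_nonneg z
  have e0 : ∀ z, H339.Sg.gq 1 a τ (kp ^ 2 * v) (√(Q z)) (k z) =
      k z ^ 2 * Q z ^ 3 - a * Q z ^ 2 - τ * Q z + kp ^ 2 * v := by
    intro z
    unfold H339.Sg.gq
    have h1 := Real.sq_sqrt (hQ0 z)
    have h2 : √(Q z) ^ 4 = Q z ^ 2 := by
      calc √(Q z) ^ 4 = (√(Q z) ^ 2) ^ 2 := by ring
        _ = _ := by rw [h1]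
    have h3 : √(Q z) ^ 6 = Q z ^ 3 := by
      calc √(Q z) ^ 6 = (√(Q z) ^ 2) ^ 3 := by ring
        _ = _ := by rw [h1]
    rw [h1, h2, h3]
    ring
  have h1 := H339.Sg.l1_of_test (a := a) (c := 1) (τ := τ) (v := kp ^ 2 * v) (R := R) (C := C)
    hw hδ br bk (fun z => Real.sqrt_nonneg _) hkC
  have h2 := H339.Sg.out_le (a := a) (c := 1) (τ := τ) (v := kp ^ 2 * v) (R := R)
    (B := C ^ 2 * (1 + η) ^ 6 + a * (1 + η) ^ 4 + |τ| * (1 + η) ^ 2 + kp ^ 2 * v) hw br bk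
    (fun z => by
      rw [e0 z]
      exact gq_crude hl hη ha0 (by positivity) (hkC z) (hQ0 z) (Qs_le hl hη z))
  set ψ : (Co n LB LF → ℝ) → ℝ := fun z =>
    H339.Sg.Gs 1 a τ (kp ^ 2 * v) R C δ ![√(Q z), k z] with hψd
  have bψ : BM ψ := H339.Sg.bm_Gs hδ br bk
  have dψ : H646.Dep (Kset S BL FL) ψ := by
    have dQ : H646.Dep (Kset S BL FL) Q := dep_Qs
    have dk : H646.Dep (Kset S BL FL) k := dep_ks
    intro z z'
    simp only [hψd]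
    rw [dQ z z', dk z z']
  have hψ1 : ∀ z, |ψ z| ≤ 1 := fun z => H339.Sg.abs_Gs_le hδ _
  have h3 := H266.Brm.e2v b cB cF s η hl hη c x hn hS0 hi0 hi1 BL FL hΘb hΘ
    (G := H339.Sg.Gs 1 a τ (kp ^ 2 * v) R C δ) (H339.Sg.continuous_Gs hδ).measurable
    (P0 := 1) (L := H339.Sg.Lx 1 a τ R C δ) (fun v => H339.Sg.abs_Gs_le hδ v)
    (fun i => H339.Sg.Lx_nonneg zero_le_one ha0 hR hC0 hδ i)
    (fun v v' => H339.Sg.Gs_lip zero_le_one ha0 hR hC0 hδ v v')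
  have hE2 : |exS n b cB cF s η lam c x (fun z => ψ z * Ns n b cB cF s η lam c x S BL FL i0 z ^ 2)
      - n / S.card * exS n b cB cF s η lam c x (fun z => ψ z * Q z)| ≤
      rE2 n b cB cF s η lam c x S BL FL i0 Θ i1 (H339.Sg.Lx 1 a τ R C δ) := by
    refine h3.trans (le_of_eq ?_)
    rw [one_mul]
    rfl
  have h4 := el1 (x := x) (b := b) (kp := kp) hw (bm_Ns hl hη i0) (bm_Ts hl hη hi0 kp) bk bQ
    (bm_Ys hl hη) bψ hψ1 hQ0 (Finset.sum_nonneg fun _ _ => sq_nonneg _) ht1 hv0 hx0 hk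
    (Ys_eq hn) (hrow ψ dψ bψ hψ1) hE2 hC3 hq1 hq2
  have e1 : (fun z => |H339.Sg.gq 1 a τ (kp ^ 2 * v) (√(Q z)) (k z)|) =
      fun z => |k z ^ 2 * Q z ^ 3 - a * Q z ^ 2 - τ * Q z + kp ^ 2 * v| := by
    funext z; rw [e0]
  have e2 : (fun z => H339.Sg.Gs 1 a τ (kp ^ 2 * v) R C δ ![√(Q z), k z] *
      H339.Sg.gq 1 a τ (kp ^ 2 * v) (√(Q z)) (k z)) =
      fun z => ψ z * (k z ^ 2 * Q z ^ 3 - x * kp ^ 3 * b ^ 4 * Q z ^ 2 -
        (n / S.card - kp ^ 2 * b ^ 2 * ∑ l ∈ BL, cB l ^ 2) * Q z + kp ^ 2 * v) := by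
    funext z; rw [e0]; rfl
  rw [e1, e2] at h1
  have h5 := (le_abs_self _).trans h4
  refine h1.trans ?_
  refine add_le_add (add_le_add le_rfl h5) (mul_le_mul_of_nonneg_left h2 (by norm_num))

end main

end Vale.Agent.P146.H694
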