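import Vale.Agent.P146.H694.K6c

/-!
# P146, K6: exclusion of the big root, `n`-level theorem

`br_n`: at some point `(t2, u, m)` of the windows the probability of `Lc ≤ Q` is small, all numbers
explicit, from the error of the last equation `C3` at the typical point.
-/

open MeasureTheory ProbabilityTheory

namespace Vale.Agent.P146.H694

open Vale.Agent.P157.Lv hiding Dep
open Vale.Agent.P146.H425 Vale.Agent.P146.H646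
open Vale.Agent.P146.H325 hiding cb cf
open Vale.Agent.P146.H196 Vale.Agent.P146.H246 Vale.Agent.P146.H347
  Vale.Agent.P146.H816 Vale.Agent.P146.H119 Vale.Agent.P146.H475 Vale.Agent.P146.H418
  Vale.Agent.P146.H615 Vale.Agent.P146.H320 Vale.Agent.P146.H161

set_option linter.all false

/-- the bound of the probability -/
noncomputable def PBn (C g ξ ηt Lc k p2 e : ℝ) : ℝ :=
  (1 + C ^ 2 / g) * (34 * k / (ξ ^ 2 * Lc) + p2 + 5 * e / (ηt * Lc ^ 2))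

lemma pb_num {C g ξ ηt Lc k p2 e n rk1 rk2 e1 e2 : ℝ} (hg : 0 < g) (hξ0 : 0 < ξ) (hξ : ξ ≤ 1 / 2)
    (hηt : 0 < ηt) (hL : 0 < Lc) (hn : 0 < n) (hk : 0 ≤ k) (h1 : rk1 ≤ n * k) (h2 : rk2 ≤ n * k)
    (he0 : 0 ≤ e) (he1 : e1 ≤ e) (he2 : e2 ≤ e) :
    (1 + C ^ 2 / g) * ((32 / (ξ ^ 2 * (Lc * n)) * rk2 + 1 / (Lc * n) * (rk1 + rk2)) + p2 +
        e1 / (ηt * ((1 - ξ) * Lc) ^ 2) + e2 / (ηt * Lc ^ 2)) ≤ PBn C g ξ ηt Lc k p2 e := by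
  unfold PBn
  have hc : 0 ≤ 1 + C ^ 2 / g := by positivity
  refine mul_le_mul_of_nonneg_left ?_ hc
  have hx1 : ξ ^ 2 ≤ 1 := pow_le_one₀ hξ0.le (by linarith)
  have a1 : 32 / (ξ ^ 2 * (Lc * n)) * rk2 ≤ 32 * k / (ξ ^ 2 * Lc) := by
    calc 32 / (ξ ^ 2 * (Lc * n)) * rk2 ≤ 32 / (ξ ^ 2 * (Lc * n)) * (n * k) :=
          mul_le_mul_of_nonneg_left h2 (by positivity)
      _ = _ := by field_simp
  have a2 : 1 / (Lc * n) * (rk1 + rk2) ≤ 2 * k / (ξ ^ 2 * Lc) := by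
    calc 1 / (Lc * n) * (rk1 + rk2) ≤ 1 / (Lc * n) * (2 * (n * k)) :=
          mul_le_mul_of_nonneg_left (by linarith) (by positivity)
      _ = 2 * k / (1 * Lc) := by field_simp
      _ ≤ 2 * k / (ξ ^ 2 * Lc) := by gcongr
  have a3 : e1 / (ηt * ((1 - ξ) * Lc) ^ 2) ≤ 4 * e / (ηt * Lc ^ 2) := by
    have h3 : 1 / 4 * Lc ^ 2 ≤ ((1 - ξ) * Lc) ^ 2 := by
      rw [mul_pow]
      refine mul_le_mul_of_nonneg_right ?_ (sq_nonneg _)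
      nlinarith
    calc e1 / (ηt * ((1 - ξ) * Lc) ^ 2) ≤ e / (ηt * (1 / 4 * Lc ^ 2)) := by gcongr
      _ = _ := by field_simp
  have a4 : e2 / (ηt * Lc ^ 2) ≤ e / (ηt * Lc ^ 2) := by gcongr
  have e5 : 34 * k / (ξ ^ 2 * Lc) + p2 + 5 * e / (ηt * Lc ^ 2) =
      32 * k / (ξ ^ 2 * Lc) + 2 * k / (ξ ^ 2 * Lc) + p2 + 4 * e / (ηt * Lc ^ 2) +
        e / (ηt * Lc ^ 2) := by ring
  rw [e5]
  linarith only [a1, a2, a3, a4]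

/-- the mean error of the last equation in the system with three levels -/
noncomputable def D3 (L : Law) (kp t2 t1 u : ℝ) (m : ℕ) (BL : Finset (Fin 3))
    (Θ : Fin L.n → (Co L.n (Fin 3) Bool → ℝ) → ℝ) (i0 i1 : Fin L.n) : ℝ :=
  exS L.n L.b (c3 t2 t1) (H418.cf L.vp u) L.s L.η L.lam L.c L.x (fun z =>
    |Ts L.n L.b (c3 t2 t1) (H418.cf L.vp u) L.s L.η L.lam L.c L.x (Sn L.n m) BL {true} kp i0 z -
      ks L.n L.b (c3 t2 t1) (H418.cf L.vp u) L.s L.η L.lam L.c L.x (Sn L.n m) BL {true} Θ i1 z ^ 2 *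
        Qs L.n L.b (c3 t2 t1) (H418.cf L.vp u) L.s L.η L.lam L.c L.x (Sn L.n m) BL {true} z ^ 3|)

/-- the rank number -/
noncomputable def kN (L : Law) (U du : ℝ) : ℝ := √(14 * U / (L.n * L.x ^ 2 * L.vp * du))

/-- the number of the steps -/
noncomputable def jN (m1 m2 : ℕ) : ℝ := √(14 / ((m2 : ℝ) - m1 + 1))

lemma rk_kN {L : Law} (h : Adm L) (hx0 : 0 < L.x) {U du rk ff : ℝ} (hU : 0 ≤ U) (hdu : 0 < du)
    (hff : ff ≤ L.n * U) (hrk : L.x ^ 2 * L.vp * du * rk ≤ 14 * ff) :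
    rk ≤ (L.n * kN L U du) ^ 2 := by
  have hn : (0 : ℝ) < L.n := by exact_mod_cast h.n0
  have hv := h.vp0
  have hp : 0 < L.x ^ 2 * L.vp * du := by positivity
  unfold kN
  rw [mul_pow, Real.sq_sqrt (by positivity)]
  have h1 : rk ≤ 14 * (L.n * U) / (L.x ^ 2 * L.vp * du) := by
    rw [le_div_iff₀ hp]
    linarith
  refine h1.trans (le_of_eq ?_)
  field_simp

/-- the numbers which hold at all the shares `t ≤ tm` -/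
structure Nums (L : Law) (tm U p pR : ℝ) : Prop where
  m4 : ∀ (S : Finset (Fin L.n)) (t u : ℝ), 0 ≤ t → t ≤ tm → 0 ≤ u → u ≤ 1 →
    L.ex' t u (fun z => L.Q S t u z ^ 4) ≤ U ^ 4
  cc : ∀ (S : Finset (Fin L.n)) (t u : ℝ), 0 ≤ t → t ≤ tm → 0 ≤ u → u ≤ 1 →
    L.ex' t u (H412.CC L S t u) ≤ U ^ 2
  ps : ∀ t u : ℝ, 0 ≤ t → t ≤ tm → 0 ≤ u → u ≤ 1 → PstL L t u ≤ p ^ 2
  tl : ∀ (S : Finset (Fin L.n)) (t u : ℝ), 0 ≤ t → t ≤ tm → 0 ≤ u → u ≤ 1 →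
    L.ex' t u (H317.ind U (L.Q S t u)) ≤ pR

section nums

variable {L : Law} {tm U p pR : ℝ}

lemma Nums.q1 (h : Adm L) (hU : 0 < U) (hN : Nums L tm U p pR) (S : Finset (Fin L.n)) {t u : ℝ}
    (ht0 : 0 ≤ t) (ht : t ≤ tm) (hu0 : 0 ≤ u) (hu : u ≤ 1) :
    L.ex' t u (L.Q S t u) ≤ U := by
  have hw := H412.wtL (L := L) h.lam0 h.η0 t u
  exact (mom_lower hw (H412.bm_Q h.lam0 h.η0 S t u) (fun z => H412.Q_nonneg S t u z) hU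
    (hN.m4 S t u ht0 ht hu0 hu)).1

lemma Nums.f1 (h : Adm L) (hU : 0 < U) (hN : Nums L tm U p pR) (S : Finset (Fin L.n)) {t u : ℝ}
    (ht0 : 0 ≤ t) (ht : t ≤ tm) (hu0 : 0 ≤ u) (hu : u ≤ 1) :
    L.ff S t u ≤ L.n * U := by
  have hw := H412.wtL (L := L) h.lam0 h.η0 t u
  have hn : (0 : ℝ) < L.n := by exact_mod_cast h.n0
  have bC := H412.bm_CC (L := L) h.lam0 h.η0 S t u
  have b0 := H412.bm_Q0 (L := L) h.lam0 h.η0 S t u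
  have e : L.ff S t u = L.n * L.ex' t u (L.Q0 S t u) := by
    unfold Law.ff Law.ex'
    rw [← ex_cmul]
    congr 1
    funext z
    unfold Law.Q0
    field_simp
  rw [e]
  refine mul_le_mul_of_nonneg_left ?_ hn.le
  have h1 : L.ex' t u (L.Q0 S t u) ≤ L.ex' t u (fun z => √(H412.CC L S t u z)) :=
    ex_mono hw b0 (bm_sqrt bC) fun z => H412.Q0_le h.lam0 h.η0 h.n0 S t u z
  refine h1.trans ((ex_sqrt_le hw bC fun z => H412.CC_nonneg h.lam0 h.η0 S t u z).trans ?_)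
  refine (Real.sqrt_le_sqrt (hN.cc S t u ht0 ht hu0 hu)).trans (le_of_eq ?_)
  exact Real.sqrt_sq hU.le

lemma Nums.t4 (h : Adm L) (hU : 0 < U) (hN : Nums L tm U p pR) (S : Finset (Fin L.n)) {t u : ℝ}
    (ht0 : 0 ≤ t) (ht : t ≤ tm) (hu0 : 0 ≤ u) (hu : u ≤ 1) :
    L.ex' t u (H317.ind (4 * U) (L.Q S t u)) ≤ pR := by
  have hw := H412.wtL (L := L) h.lam0 h.η0 t u
  have bQ := H412.bm_Q (L := L) h.lam0 h.η0 S t u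
  refine le_trans (ex_mono hw (H317.bm_ind bQ.meas _) (H317.bm_ind bQ.meas _) fun z => ?_)
    (hN.tl S t u ht0 ht hu0 hu)
  unfold H317.ind
  by_cases h1 : 4 * U < L.Q S t u z
  · rw [if_pos h1, if_pos (by linarith)]
  · rw [if_neg h1]
    split_ifs <;> norm_num

end nums

section main

/-- one system of the two -/
lemma e1_pt {L : Law} (h : Adm L) (hη1 : L.η ≤ 1 / 2) (hs0 : L.s ≠ 0)
    (hx0 : 0 < L.x) (hx1 : L.x < 1) {r0 kp : ℝ} (hkp : kp = 1 - (1 - L.x) * r0)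
    (hc : L.c = L.s ^ 2 * L.n * kp) (hk0 : 0 ≤ kp) (hk1 : kp ≤ 1) (hr0 : |r0| ≤ 1)
    (hb : 1 ≤ L.b) (hx2 : L.x ^ 2 * (L.b ^ 2 + L.vp) ≤ 1 / 4)
    {m1 m2 : ℕ} (hm1 : 2 ≤ m1) (h12 : m1 ≤ m2) (hmn : 2 * m2 ≤ L.n)
    {t2 t1 u a0 a1 u0 u1 t : ℝ} {BL : Finset (Fin 3)}
    (hs : Sh (c3 t2 t1) (H418.cf L.vp u) BL {true} 1 (√L.vp) t u)
    (ht0 : 0 ≤ t) (hta : t ≤ a1) (ha0 : 0 ≤ a1) (ha1 : a1 ≤ 1) (hu0 : 0 ≤ u) (huu : u ≤ 1)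
    (hua : u0 < u1) (hu1 : u1 ≤ 1) (hu00 : 0 ≤ u0) {m : ℕ} (hm : m ∈ Finset.Icc m1 m2)
    {i0 i1 : Fin L.n} (hi0 : i0.1 + m = L.n) (hi1 : i1.1 + 1 = L.n)
    {Θ : Fin L.n → (Co L.n (Fin 3) Bool → ℝ) → ℝ} (hΘb : ∀ i, BM (Θ i))
    (hΘ : Eq1 Θ) {C : ℝ} (hC0 : 0 ≤ C) (hC : ∀ i z, |Θ i z| ≤ C)
    {U g p δ T tm pR R3 : ℝ} (hU0 : 0 < U) (hU1 : U ≤ 1) (hxU : L.x ≤ U)
    (hT : 1 - t ≤ T) (hvU : L.vp ≤ L.b ^ 2 * U) (hτU : |tauL L kp m t| ≤ U ^ 2)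
    (hg : L.lam / (L.s ^ 2 * L.n) ≤ g) (hp : 0 ≤ p) (hδ : 0 < δ)
    (hN : Nums L tm U p pR) (hatm : a1 ≤ tm)
    (hTyp : Typ L (c3 t2 t1) (H418.cf L.vp u) a1 u1 (a1 - a0) (u1 - u0) 14
      ((m2 : ℝ) - m1 + 1) m BL {true})
    (hdK : dK L t2 t1 u BL (Θ i1) m ≤ 14 * C ^ 2 / ((m2 : ℝ) - m1 + 1))
    (hD3 : D3 L kp t2 t1 u m BL Θ i0 i1 ≤ R3) :
    exS L.n L.b (c3 t2 t1) (H418.cf L.vp u) L.s L.η L.lam L.c L.x (fun z =>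
      |ks L.n L.b (c3 t2 t1) (H418.cf L.vp u) L.s L.η L.lam L.c L.x (Sn L.n m) BL {true} Θ i1 z ^ 2 *
          Qs L.n L.b (c3 t2 t1) (H418.cf L.vp u) L.s L.η L.lam L.c L.x (Sn L.n m) BL {true} z ^ 3 -
        L.x * kp ^ 3 * L.b ^ 4 *
          Qs L.n L.b (c3 t2 t1) (H418.cf L.vp u) L.s L.η L.lam L.c L.x (Sn L.n m) BL {true} z ^ 2 -
        tau L.n L.b kp (c3 t2 t1) (Sn L.n m) BL *
          Qs L.n L.b (c3 t2 t1) (H418.cf L.vp u) L.s L.η L.lam L.c L.x (Sn L.n m) BL {true} z +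
        kp ^ 2 * vf (H418.cf L.vp u) {true}|) ≤
      E1n L.b C U (1 / √(m1 : ℝ)) g L.vp L.η L.x (kN L U (u1 - u0)) p (jN m1 m2) δ T pR R3 := by
  obtain ⟨hm1', hm2'⟩ := Finset.mem_Icc.1 hm
  have hn : (0 : ℝ) < L.n := by exact_mod_cast h.n0
  have hm10 : (0 : ℝ) < m1 := by
    have : 0 < m1 := by omega
    exact_mod_cast this
  have hmm : (m1 : ℝ) ≤ m := by exact_mod_cast hm1'
  have h12' : (m1 : ℝ) ≤ m2 := by exact_mod_cast h12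
  have hM : 0 < (m2 : ℝ) - m1 + 1 := by linarith
  have htm : t ≤ tm := hta.trans hatm
  have hj2 : jN m1 m2 ^ 2 = 14 / ((m2 : ℝ) - m1 + 1) := by
    unfold jN
    rw [Real.sq_sqrt (by positivity)]
  subst hkp
  refine e1_can h hη1 hs0 hx1 hc hk0 hk1 hr0 hb hs ht0 (hta.trans ha1) hu0 huu hx2
    (hm1.trans hm1') (by omega) hi0 hi1 hΘb hΘ hC0 (hC i1) hU0 hU1 hxU hT hvU hτU ?_ hg
    (Real.sqrt_nonneg _) hp (Real.sqrt_nonneg _) hδ (hN.m4 _ t u ht0 htm hu0 huu)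
    (hN.cc _ t u ht0 htm hu0 huu) ?_ (hN.ps t u ht0 htm hu0 huu) ?_ ?_ hD3
    (hN.t4 h hU0 _ ht0 htm hu0 huu)
  · exact one_div_le_one_div_of_le (Real.sqrt_pos.2 hm10) (Real.sqrt_le_sqrt hmm)
  · exact rk_kN h hx0 hU0.le (by linarith)
      (hN.f1 h hU0 Finset.univ ha0 hatm (by linarith) hu1) (hTyp.rk _ (Or.inl rfl))
  · refine (hTyp.inc i0 hi0).trans ?_
    have h1 := hN.q1 h hU0 Finset.univ ha0 hatm (by linarith : 0 ≤ u1) hu1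
    rw [hj2]
    calc 14 * (L.n * L.ex' a1 u1 (L.Q Finset.univ a1 u1)) / ((m2 : ℝ) - m1 + 1)
        ≤ 14 * (L.n * U) / ((m2 : ℝ) - m1 + 1) := by gcongr
      _ = _ := by ring
  · rw [incK_dK (by omega) hi0, hj2]
    refine hdK.trans (le_of_eq ?_)
    ring

/-- **Exclusion of the big root, `n`-level.** -/
theorem br_n {L : Law} (h : Adm L) (hη : 0 < L.η) (hη1 : L.η ≤ 1 / 2) (hs0 : L.s ≠ 0)
    (hx0 : 0 < L.x) (hx1 : L.x < 1) {r0 kp : ℝ} (hkp : kp = 1 - (1 - L.x) * r0)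
    (hc : L.c = L.s ^ 2 * L.n * kp) (hk0 : 0 ≤ kp) (hk1 : kp ≤ 1) (hr0 : |r0| ≤ 1)
    (hb : 1 ≤ L.b) (hx2 : L.x ^ 2 * (L.b ^ 2 + L.vp) ≤ 1 / 4)
    {m1 m2 : ℕ} (hm1 : 2 ≤ m1) (h12 : m1 ≤ m2) (hmn : 2 * m2 ≤ L.n)
    {q0 q1 p0 p1 u0 u1 : ℝ} (hq0 : 0 ≤ q0) (hq : q0 ≤ q1) (hqp : q1 ≤ p0) (hp : p0 ≤ p1)
    (hp1 : p1 ≤ 1) (hu0 : 0 ≤ u0) (hu : u0 < u1) (hu1 : u1 ≤ 1)
    (Θ : ℝ → ℝ → ℝ → Fin L.n → (Co L.n (Fin 3) Bool → ℝ) → ℝ)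
    (hΘb : ∀ t2 t1 u i, BM (Θ t2 t1 u i)) (hΘ : ∀ t2 t1 u, Eq1 (Θ t2 t1 u)) {C : ℝ}
    (hC0 : 0 ≤ C) (hΘC : ∀ t2 t1 u i z, |Θ t2 t1 u i z| ≤ C)
    {U g p δ T pR R3 ξ ηt Lc γ τm τn e : ℝ} (hU0 : 0 < U) (hU1 : U ≤ 1) (hxU : L.x ≤ U)
    (hT : 1 - q0 ≤ T) (hvU : L.vp ≤ L.b ^ 2 * U)
    (hτ : ∀ m ∈ Finset.Icc m1 m2, ∀ t ∈ Set.Icc q0 p1, |tauL L kp m t| ≤ τm)
    (hτU : τm ≤ U ^ 2)
    (hτn : ∀ m ∈ Finset.Icc m1 m2, ∀ t ∈ Set.Icc q0 p1, -tauL L kp m t ≤ τn) (hτn0 : 0 ≤ τn)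
    (hg : L.lam / (L.s ^ 2 * L.n) ≤ g) (hp' : 0 ≤ p) (hδ : 0 < δ)
    (hN : Nums L p1 U p pR)
    (hC3 : ∀ t2 ∈ Set.Icc q0 q1, ∀ t1 ∈ Set.Icc p0 p1, ∀ u ∈ Set.Icc u0 u1,
      ∀ m ∈ Finset.Icc m1 m2,
      Typ L (c3 t2 t1) (H418.cf L.vp u) p1 u1 (p1 - p0) (u1 - u0) 14 ((m2 : ℝ) - m1 + 1) m
        {0, 1} {true} →
      Typ L (c3 t2 t1) (H418.cf L.vp u) q1 u1 (q1 - q0) (u1 - u0) 14 ((m2 : ℝ) - m1 + 1) m
        {0} {true} →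
      ∀ i0 i1 : Fin L.n, i0.1 + m = L.n → i1.1 + 1 = L.n →
      D3 L kp t2 t1 u m {0, 1} (Θ t2 t1 u) i0 i1 ≤ R3 ∧
        D3 L kp t2 t1 u m {0} (Θ t2 t1 u) i0 i1 ≤ R3)
    (hL : 0 < Lc) (hηξ : 16 * L.η ≤ ξ) (hξ : ξ ≤ 1 / 2) (hηt : 0 < ηt)
    (hreg : 2 * τn * ((1 - ξ) * Lc) + 3 * (kp ^ 2 * L.vp) ≤
      L.x * kp ^ 3 * L.b ^ 4 * ((1 - ξ) * Lc) ^ 2)
    (hγ : 0 < γ)
    (hgap : γ ≤ kp ^ 2 * L.b ^ 2 * (p0 - q1) / U ^ 2 -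
      4 * (L.x * kp ^ 3 * L.b ^ 4) * ξ / Lc - 8 * τm * ξ / Lc ^ 2 - 3 * ηt / Lc)
    (he0 : 0 ≤ e)
    (he : E1n L.b C U (1 / √(m1 : ℝ)) g L.vp L.η L.x (kN L U (u1 - u0)) p (jN m1 m2) δ T pR R3 ≤
      e) :
    ∃ t2 ∈ Set.Icc q0 q1, ∃ u ∈ Set.Icc u0 u1, ∃ m ∈ Finset.Icc m1 m2,
      L.ex' t2 u (H762.big Lc (L.Q (Sn L.n m) t2 u)) ≤
        PBn C γ ξ ηt Lc (kN L U (u1 - u0)) pR e := by
  have hn : (0 : ℝ) < L.n := by exact_mod_cast h.n0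
  have hi1p : L.n - 1 < L.n := Nat.sub_lt h.n0 one_pos
  obtain ⟨i1, hi1⟩ : ∃ i1 : Fin L.n, i1.1 + 1 = L.n :=
    ⟨⟨L.n - 1, hi1p⟩, Nat.sub_add_cancel h.n0⟩
  obtain ⟨t2, t1, u, ⟨ht2, ht1, hut⟩, m, hm, T1, T2, d1, d2⟩ := pt3 h (by omega : 1 ≤ m1) h12
    hq0 hq hqp hp hp1 hu0 hu.le hu1 (fun t2 t1 u => Θ t2 t1 u i1)
    (fun t2 t1 u => hΘb t2 t1 u i1) (fun t2 t1 u z => hΘC t2 t1 u i1 z)
  obtain ⟨hm1', hm2'⟩ := Finset.mem_Icc.1 hm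
  obtain ⟨i0, hi0⟩ : ∃ i0 : Fin L.n, i0.1 + m = L.n :=
    ⟨⟨L.n - m, Nat.sub_lt h.n0 (by omega)⟩, Nat.sub_add_cancel (by omega)⟩
  obtain ⟨c1, c2⟩ := hC3 t2 ht2 t1 ht1 u hut m hm T1 T2 i0 i1 hi0 hi1
  have h21 : t2 ≤ t1 := ht2.2.trans (hqp.trans ht1.1)
  have t20 : 0 ≤ t2 := hq0.trans ht2.1
  have t10 : 0 ≤ t1 := t20.trans h21
  have t11 : t1 ≤ 1 := ht1.2.trans hp1
  have u00 : 0 ≤ u := hu0.trans hut.1
  have u11 : u ≤ 1 := hut.2.trans hu1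
  have q1p : q1 ≤ p1 := hqp.trans hp
  have s1 := sh_1 (v := L.vp) t20 h21 t11 u00 u11
  have s2 := sh_2 (v := L.vp) t20 h21 t11 u00 u11
  have hml : m ≤ L.n := by omega
  have E1 := e1_pt (T := T) h hη1 hs0 hx0 hx1 hkp hc hk0 hk1 hr0 hb hx2 hm1 h12 hmn s1 t10 ht1.2
    (t10.trans ht1.2) hp1 u00 u11 hu hu1 hu0 hm hi0 hi1 (hΘb t2 t1 u) (hΘ t2 t1 u) hC0
    (hΘC t2 t1 u) hU0 hU1 hxU (by linarith [ht2.1]) hvU
    ((hτ m hm t1 ⟨ht2.1.trans h21, ht1.2⟩).trans hτU) hg hp' hδ hN le_rfl T1 d1 c1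
  have E2 := e1_pt (T := T) h hη1 hs0 hx0 hx1 hkp hc hk0 hk1 hr0 hb hx2 hm1 h12 hmn s2 t20 ht2.2
    (t20.trans ht2.2) (q1p.trans hp1) u00 u11 hu hu1 hu0 hm hi0 hi1 (hΘb t2 t1 u)
    (hΘ t2 t1 u) hC0 (hΘC t2 t1 u) hU0 hU1 hxU (by linarith [ht2.1]) hvU
    ((hτ m hm t2 ⟨ht2.1, ht2.2.trans q1p⟩).trans hτU) hg hp' hδ hN q1p T2 d2 c2
  have hkN : 0 ≤ kN L U (u1 - u0) := Real.sqrt_nonneg _
  have r1 : exS L.n L.b (c3 t2 t1) (H418.cf L.vp u) L.s L.η L.lam L.c L.x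
      (fun z => √(rks L.n L.b (c3 t2 t1) (H418.cf L.vp u) L.s L.η L.lam L.c L.x (Sn L.n m)
        {0, 1} {true} z)) ≤ L.n * kN L U (u1 - u0) := by
    refine (rks_rkL h (Sn L.n m)).trans ?_
    rw [Real.sqrt_le_left (by positivity)]
    exact rk_kN h hx0 hU0.le (by linarith) (hN.f1 h hU0 Finset.univ (t10.trans ht1.2) le_rfl
      (by linarith) hu1) (T1.rk _ (Or.inl rfl))
  have r2 : exS L.n L.b (c3 t2 t1) (H418.cf L.vp u) L.s L.η L.lam L.c L.x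
      (fun z => √(rks L.n L.b (c3 t2 t1) (H418.cf L.vp u) L.s L.η L.lam L.c L.x (Sn L.n m)
        {0} {true} z)) ≤ L.n * kN L U (u1 - u0) := by
    refine (rks_rkL h (Sn L.n m)).trans ?_
    rw [Real.sqrt_le_left (by positivity)]
    exact rk_kN h hx0 hU0.le (by linarith) (hN.f1 h hU0 Finset.univ (t20.trans ht2.2) q1p
      (by linarith) hu1) (T2.rk _ (Or.inl rfl))
  have hU' : exS L.n L.b (c3 t2 t1) (H418.cf L.vp u) L.s L.η L.lam L.c L.x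
      (H317.ind U (Qs L.n L.b (c3 t2 t1) (H418.cf L.vp u) L.s L.η L.lam L.c L.x (Sn L.n m)
        {0, 1} {true})) ≤ pR := by
    have e4 := Q_can h s1 t10 t11 u00 u11 (Sn L.n m)
      (φ := fun q => if U < q then (1 : ℝ) else 0)
      (Measurable.ite (measurableSet_lt measurable_const measurable_id) measurable_const
        measurable_const) fun C => ⟨1, fun v _ => by split_ifs <;> norm_num⟩
    exact (le_of_eq e4).trans (hN.tl _ t1 u t10 ht1.2 u00 u11)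
  have τ1 : tau L.n L.b kp (c3 t2 t1) (Sn L.n m) {0, 1} = tauL L kp m t1 := tau_sh s1 kp hml
  have τ2 : tau L.n L.b kp (c3 t2 t1) (Sn L.n m) {0} = tauL L kp m t2 := tau_sh s2 kp hml
  have hvf : vf (H418.cf L.vp u) ({true} : Finset Bool) = u * L.vp := vf_sh h s1
  have hτ2 := hτ m hm t2 ⟨ht2.1, ht2.2.trans q1p⟩
  have hτ2' := abs_le.1 hτ2
  have hτm0 : 0 ≤ τm := (abs_nonneg _).trans hτ2
  have hξ0 : 0 < ξ := by linarith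
  have hLξ : 0 < (1 - ξ) * Lc := mul_pos (by linarith) hL
  have hx0' := h.x0
  have huv : u * L.vp ≤ L.vp := mul_le_of_le_one_left h.vp0.le u11
  subst hkp
  have key := br_sk (n := L.n) (b := L.b) (cB := c3 t2 t1) (cF := H418.cf L.vp u) (s := L.s)
    (η := L.η) (lam := L.lam) (c := L.c) (x := L.x) (r0 := r0) (S := Sn L.n m) (BL1 := {0, 1})
    (BL2 := {0}) (FL1 := {true}) (FL2 := {true}) (i1 := i1) (Θ := Θ t2 t1 u) (C := C)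
    (L := Lc) (ξ := ξ) (ηt := ηt) (U := U) (g := γ) h.lam0 hη h.x0 hk0 h.n0 (by decide)
    (Finset.Subset.refl _) (hΘb t2 t1 u i1) (hΘC t2 t1 u i1) hL hηξ hξ hηt
    (by
      rw [τ2, hvf]
      refine le_trans ?_ hreg
      have h1 : max (-tauL L (1 - (1 - L.x) * r0) m t2) 0 ≤ τn :=
        max_le (hτn m hm t2 ⟨ht2.1, ht2.2.trans q1p⟩) hτn0
      have h2 : (1 - (1 - L.x) * r0) ^ 2 * (u * L.vp) ≤ (1 - (1 - L.x) * r0) ^ 2 * L.vp :=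
        mul_le_mul_of_nonneg_left huv (sq_nonneg _)
      have h3 := mul_le_mul_of_nonneg_right h1 hLξ.le
      linarith) hγ
    (by
      rw [τ1, τ2, sub_self, zero_div, add_zero]
      refine hgap.trans ?_
      have h1 : max (tauL L (1 - (1 - L.x) * r0) m t2) 0 ≤ τm := max_le hτ2'.2 hτm0
      have h2 : (1 - (1 - L.x) * r0) ^ 2 * L.b ^ 2 * (p0 - q1) ≤
          tauL L (1 - (1 - L.x) * r0) m t2 - tauL L (1 - (1 - L.x) * r0) m t1 := by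
        unfold tauL
        have h3 : p0 - q1 ≤ t1 - t2 := by linarith [ht1.1, ht2.2]
        have h4 := mul_le_mul_of_nonneg_left h3
          (show 0 ≤ (1 - (1 - L.x) * r0) ^ 2 * L.b ^ 2 by positivity)
        linarith
      have h5 : (1 - (1 - L.x) * r0) ^ 2 * L.b ^ 2 * (p0 - q1) / U ^ 2 ≤
          (tauL L (1 - (1 - L.x) * r0) m t2 - tauL L (1 - (1 - L.x) * r0) m t1) / U ^ 2 := by
        gcongr
      have h6 : 8 * max (tauL L (1 - (1 - L.x) * r0) m t2) 0 * ξ / Lc ^ 2 ≤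
          8 * τm * ξ / Lc ^ 2 := by gcongr
      linarith) r1 r2 hU' E1 E2
  have hfin := key.trans (pb_num (C := C) (p2 := pR) (ηt := ηt) hγ hξ0 hξ hηt hL hn hkN le_rfl
    le_rfl he0 he he)
  refine ⟨t2, ht2, u, hut, m, hm, ?_⟩
  have e4 := Q_can h s2 t20 (h21.trans t11) u00 u11 (Sn L.n m)
    (φ := fun q => if Lc ≤ q then (1 : ℝ) else 0)
    (Measurable.ite (measurableSet_le measurable_const measurable_id) measurable_const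
      measurable_const) fun C => ⟨1, fun v _ => by split_ifs <;> norm_num⟩
  rw [H762.big_eq] at hfin
  exact (le_of_eq e4.symm).trans hfin

end main

end Vale.Agent.P146.H694
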