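import Vale.Agent.P146.H694.E1Sk
import Vale.Agent.P146.H792.Q12a
import Vale.Agent.P146.H585.ExBridge2

/-!
# P146, block 12b-BRMOD: exclusion of the big root for the modulated SK system

`K_i = Kset S BL_i FL_i`, `BL_2 ⊆ BL_1`, `FL_2 ⊆ FL_1`; `hE_i` is the conclusion of `e1_sk`.
-/

open MeasureTheory ProbabilityTheory

namespace Vale.Agent.P146.H694

open Vale.Agent.P157.Lv Vale.Agent.P146.H196 Vale.Agent.P146.H646 Vale.Agent.P146.H615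
  Vale.Agent.P146.H347 Vale.Agent.P146.H475 Vale.Agent.P146.H161 Vale.Agent.P146.H816
  Vale.Agent.P146.H325

set_option linter.all false

variable {n : ℕ} {LB LF : Type} [Fintype LB] [DecidableEq LB] [Fintype LF] [DecidableEq LF]

/-- the Frobenius norm of the conditional covariance of the spins (not normalised) -/
noncomputable def rks (n : ℕ) (b : ℝ) (cB : LB → ℝ) (cF : LF → ℝ) (s η lam c x : ℝ)
    (S : Finset (Fin n)) (BL : Finset LB) (FL : Finset LF) : (Co n LB LF → ℝ) → ℝ :=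
  H792.rk (g1 (Co n LB LF)) (Kset S BL FL) (wS n b cB cF s η lam c x)
    (avS b cB cF s η lam c) S (fun (j : Fin n) (w : ℝ × Xs n) => sp w.2 j)

section main

variable {b : ℝ} {cB : LB → ℝ} {cF : LF → ℝ} {s η lam c x r0 : ℝ}
  {S : Finset (Fin n)} {BL1 BL2 : Finset LB} {FL1 FL2 : Finset LF} {i1 : Fin n}
  {Θ : Fin n → (Co n LB LF → ℝ) → ℝ}

lemma tau_mono {kp : ℝ} (hBL : BL2 ⊆ BL1) :
    tau n b kp cB S BL1 ≤ tau n b kp cB S BL2 := by
  unfold tau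
  have h1 : ∑ l ∈ BL2, cB l ^ 2 ≤ ∑ l ∈ BL1, cB l ^ 2 :=
    Finset.sum_le_sum_of_subset_of_nonneg hBL fun _ _ _ => sq_nonneg _
  have h2 : 0 ≤ kp ^ 2 * b ^ 2 := by positivity
  have := mul_le_mul_of_nonneg_left h1 h2
  linarith

lemma vf_mono (hFL : FL2 ⊆ FL1) : vf cF FL2 ≤ vf cF FL1 :=
  Finset.sum_le_sum_of_subset_of_nonneg hFL fun _ _ _ => sq_nonneg _

/-- **Exclusion of the big root for the modulated SK system.** -/
theorem br_sk (hl : 0 < lam) (hη0 : 0 < η) (hx0 : 0 ≤ x) (hk : 0 ≤ 1 - (1 - x) * r0)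
    (hn : 0 < n) (hBL : BL2 ⊆ BL1) (hFL : FL2 ⊆ FL1) (hΘb : BM (Θ i1)) {C : ℝ}
    (hC : ∀ z, |Θ i1 z| ≤ C)
    {L ξ ηt U g p2 e1 e2 rk1 rk2 : ℝ}
    (hL : 0 < L) (hηξ : 16 * η ≤ ξ) (hξ : ξ ≤ 1 / 2) (hηt : 0 < ηt)
    (hreg : 2 * max (-(tau n b (1 - (1 - x) * r0) cB S BL2)) 0 * ((1 - ξ) * L) +
      3 * ((1 - (1 - x) * r0) ^ 2 * vf cF FL2) ≤
        x * (1 - (1 - x) * r0) ^ 3 * b ^ 4 * ((1 - ξ) * L) ^ 2)
    (hg : 0 < g)
    (hgap : g ≤ (tau n b (1 - (1 - x) * r0) cB S BL2 -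
        tau n b (1 - (1 - x) * r0) cB S BL1) / U ^ 2 +
      ((1 - (1 - x) * r0) ^ 2 * vf cF FL1 - (1 - (1 - x) * r0) ^ 2 * vf cF FL2) / U ^ 3 -
      4 * (x * (1 - (1 - x) * r0) ^ 3 * b ^ 4) * ξ / L -
      8 * max (tau n b (1 - (1 - x) * r0) cB S BL2) 0 * ξ / L ^ 2 - 3 * ηt / L)
    (hrk1 : exS n b cB cF s η lam c x (fun z => √(rks n b cB cF s η lam c x S BL1 FL1 z)) ≤ rk1)
    (hrk2 : exS n b cB cF s η lam c x (fun z => √(rks n b cB cF s η lam c x S BL2 FL2 z)) ≤ rk2)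
    (hU : exS n b cB cF s η lam c x (H317.ind U (Qs n b cB cF s η lam c x S BL1 FL1)) ≤ p2)
    (hE1 : exS n b cB cF s η lam c x (fun z =>
      |ks n b cB cF s η lam c x S BL1 FL1 Θ i1 z ^ 2 *
          Qs n b cB cF s η lam c x S BL1 FL1 z ^ 3 -
        x * (1 - (1 - x) * r0) ^ 3 * b ^ 4 * Qs n b cB cF s η lam c x S BL1 FL1 z ^ 2 -
        tau n b (1 - (1 - x) * r0) cB S BL1 * Qs n b cB cF s η lam c x S BL1 FL1 z +
        (1 - (1 - x) * r0) ^ 2 * vf cF FL1|) ≤ e1)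
    (hE2 : exS n b cB cF s η lam c x (fun z =>
      |ks n b cB cF s η lam c x S BL2 FL2 Θ i1 z ^ 2 *
          Qs n b cB cF s η lam c x S BL2 FL2 z ^ 3 -
        x * (1 - (1 - x) * r0) ^ 3 * b ^ 4 * Qs n b cB cF s η lam c x S BL2 FL2 z ^ 2 -
        tau n b (1 - (1 - x) * r0) cB S BL2 * Qs n b cB cF s η lam c x S BL2 FL2 z +
        (1 - (1 - x) * r0) ^ 2 * vf cF FL2|) ≤ e2) :
    exS n b cB cF s η lam c x
        ({z | L ≤ Qs n b cB cF s η lam c x S BL2 FL2 z}.indicator 1) ≤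
      (1 + C ^ 2 / g) * ((32 / (ξ ^ 2 * (L * n)) * rk2 + 1 / (L * n) * (rk1 + rk2)) + p2 +
        e1 / (ηt * ((1 - ξ) * L) ^ 2) + e2 / (ηt * L ^ 2)) := by
  have hη := hη0.le
  have hw := wt_sk (n := n) (LB := LB) (LF := LF) (b := b) (cB := cB) (cF := cF) (s := s)
    (c := c) (x := x) hl hη
  have hG := gmA (n := n) b cB cF s hl hη c
  have hA := av_avm hG 1
  have hn' : (0 : ℝ) < n := Nat.cast_pos.2 hn
  have hKK : Kset S BL2 FL2 ⊆ Kset S BL1 FL1 := Kset_mono (Finset.Subset.refl _) hBL hFL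
  have h12 := H792.h12_amp (S := S) (s := fun (j : Fin n) (w : ℝ × Xs n) => sp w.2 j)
    (a := fun w : ℝ × Xs n => al η w.1) hw hA (fun j => bm_sp j) (bm_of_al hη)
    (fun w => abs_al_sub hη w.1) hη0 hKK hn' hL hηξ hξ
  have hξ0 : 0 < ξ := by linarith
  have h12' : exS n b cB cF s η lam c x
      ({z | L ≤ Qs n b cB cF s η lam c x S BL2 FL2 z ∧
        Qs n b cB cF s η lam c x S BL1 FL1 z <
          (1 - ξ) * Qs n b cB cF s η lam c x S BL2 FL2 z}.indicator 1) ≤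
      32 / (ξ ^ 2 * (L * n)) * rk2 + 1 / (L * n) * (rk1 + rk2) := by
    refine h12.trans ?_
    have f1 : 0 ≤ 32 / (ξ ^ 2 * (L * n)) := by positivity
    have f2 : 0 ≤ 1 / (L * n) := by positivity
    exact add_le_add (mul_le_mul_of_nonneg_left hrk2 f1)
      (mul_le_mul_of_nonneg_left (add_le_add hrk1 hrk2) f2)
  have ha0 : 0 ≤ x * (1 - (1 - x) * r0) ^ 3 * b ^ 4 := by positivity
  have hv0 : 0 ≤ (1 - (1 - x) * r0) ^ 2 * vf cF FL2 := mul_nonneg (sq_nonneg _) vf_nonneg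
  exact H585.br_ex2 hw hKK ha0 hv0 hL hξ0.le hξ hηt (tau_mono hBL)
    (mul_le_mul_of_nonneg_left (vf_mono hFL) (sq_nonneg _)) hreg hg hgap hΘb hC
    (bm_Qs hl hη) (bm_Qs hl hη) dep_Qs h12' hU hE1 hE2

end main

end Vale.Agent.P146.H694
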