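import Vale.Agent.P146.H694.K6b
import Vale.Agent.P146.H694.BrSk
import Vale.Agent.P146.H615.ErSk
import Vale.Agent.P146.H762.CoarseS
import Vale.Agent.P146.H320.TypJ

/-!
# P146, K6: the numbers of a level system in terms of the canonical ones

`e1_can`, `br_can`: the cubic equation and the exclusion of the big root with the numbers of
`H418.Skel`.
-/

open MeasureTheory ProbabilityTheory

namespace Vale.Agent.P146.H694

open Vale.Agent.P157.Lv hiding Dep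
open Vale.Agent.P146.H425 Vale.Agent.P146.H646
open Vale.Agent.P146.H325 hiding cb cf
open Vale.Agent.P146.H196 Vale.Agent.P146.H246 Vale.Agent.P146.H347
  Vale.Agent.P146.H816 Vale.Agent.P146.H119 Vale.Agent.P146.H475 Vale.Agent.P146.H418
  Vale.Agent.P146.H615 Vale.Agent.P146.H320 Vale.Agent.P146.H161

set_option linter.all false

section sh

/-- three levels of bonds -/
noncomputable def c3 (t2 t1 : ℝ) : Fin 3 → ℝ := ![√t2, √(t1 - t2), √(1 - t1)]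

lemma c3_sq {t2 t1 : ℝ} (h2 : 0 ≤ t2) (h21 : t2 ≤ t1) (h1 : t1 ≤ 1) (l : Fin 3) :
    c3 t2 t1 l ^ 2 = ![t2, t1 - t2, 1 - t1] l := by
  fin_cases l
  · exact Real.sq_sqrt h2
  · exact Real.sq_sqrt (by linarith)
  · exact Real.sq_sqrt (by linarith)

lemma sum_c3 {t2 t1 : ℝ} (h2 : 0 ≤ t2) (h21 : t2 ≤ t1) (h1 : t1 ≤ 1) :
    ∑ l, c3 t2 t1 l ^ 2 = 1 := by
  simp only [c3_sq h2 h21 h1, Fin.sum_univ_three]
  simp

lemma sum_c3_1 {t2 t1 : ℝ} (h2 : 0 ≤ t2) (h21 : t2 ≤ t1) (h1 : t1 ≤ 1) :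
    ∑ l ∈ ({0, 1} : Finset (Fin 3)), c3 t2 t1 l ^ 2 = t1 := by
  simp only [c3_sq h2 h21 h1]
  rw [Finset.sum_pair (by decide)]
  simp

lemma sum_c3_2 {t2 t1 : ℝ} (h2 : 0 ≤ t2) (h21 : t2 ≤ t1) (h1 : t1 ≤ 1) :
    ∑ l ∈ ({0} : Finset (Fin 3)), c3 t2 t1 l ^ 2 = t2 := by
  simp only [c3_sq h2 h21 h1, Finset.sum_singleton]
  simp

lemma sh_1 {v t2 t1 u : ℝ} (h2 : 0 ≤ t2) (h21 : t2 ≤ t1) (h1 : t1 ≤ 1) (hu0 : 0 ≤ u)
    (hu1 : u ≤ 1) : Sh (c3 t2 t1) (H418.cf v u) {0, 1} {true} 1 (√v) t1 u := by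
  have h := H762.sh_law v (t := t1) (h2.trans h21) h1 hu0 hu1
  refine ⟨?_, h.2, ?_, h.4⟩
  · rw [sum_c3 h2 h21 h1, one_pow]
  · rw [sum_c3_1 h2 h21 h1, one_pow, mul_one]

lemma sh_2 {v t2 t1 u : ℝ} (h2 : 0 ≤ t2) (h21 : t2 ≤ t1) (h1 : t1 ≤ 1) (hu0 : 0 ≤ u)
    (hu1 : u ≤ 1) : Sh (c3 t2 t1) (H418.cf v u) {0} {true} 1 (√v) t2 u := by
  have h := H762.sh_law v (t := t1) (h2.trans h21) h1 hu0 hu1
  refine ⟨?_, h.2, ?_, h.4⟩
  · rw [sum_c3 h2 h21 h1, one_pow]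
  · rw [sum_c3_2 h2 h21 h1, one_pow, mul_one]

end sh

section can

variable {L : Law} {LB LF : Type} [Fintype LB] [DecidableEq LB] [Fintype LF] [DecidableEq LF]
  {cB : LB → ℝ} {cF : LF → ℝ} {BL : Finset LB} {FL : Finset LF} {t u : ℝ}

/-- functions of the overlap -/
lemma Q_can (h : Adm L) (hs : Sh cB cF BL FL 1 (√L.vp) t u) (ht0 : 0 ≤ t) (ht1 : t ≤ 1)
    (hu0 : 0 ≤ u) (hu1 : u ≤ 1) (S : Finset (Fin L.n)) {φ : ℝ → ℝ} (hφ : Measurable φ)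
    (hφC : ∀ C, ∃ C', ∀ v : ℝ, |v| ≤ C → |φ v| ≤ C') :
    exS L.n L.b cB cF L.s L.η L.lam L.c L.x
      (fun z => φ (Qs L.n L.b cB cF L.s L.η L.lam L.c L.x S BL FL z)) =
      L.ex' t u (fun z => φ (L.Q S t u z)) :=
  H9.sk_congr (b := L.b) (s := L.s) (η := L.η) (A := Fin L.n) (gmb h)
    one_pos (sqv h) hs (sh_can h ht0 ht1 hu0 hu1) S L.x
    (f := H762.fA L.n L.η) (fun i => H762.bm_fA L.n h.η0 i)
    (Φ := fun v => φ (H762.qs S (L.n : ℝ) v))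
    (hφ.comp (H762.meas_qs S (L.n : ℝ))) fun C => by
      obtain ⟨C1, h1⟩ := H762.qs_bd S (L.n : ℝ) 1 C
      obtain ⟨C2, h2⟩ := hφC C1
      refine ⟨C2, fun v hv => h2 _ ?_⟩
      simpa using h1 v hv

/-- the second moment of the overlap over all the sites -/
lemma R2_can (h : Adm L) (hs : Sh cB cF BL FL 1 (√L.vp) t u) (ht0 : 0 ≤ t) (ht1 : t ≤ 1)
    (hu0 : 0 ≤ u) (hu1 : u ≤ 1) :
    R2 L.n L.b cB cF L.s L.η L.lam L.c L.x (Kset Finset.univ BL FL) =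
      (L.n : ℝ) ^ 2 * L.ex' t u (H412.CC L Finset.univ t u) := by
  have hn : (L.n : ℝ) ≠ 0 := by exact_mod_cast h.n0.ne'
  rw [R2_ex h.lam0 h.η0]
  have h1 := H9.sk_congr (b := L.b) (s := L.s) (η := L.η) (A := Fin L.n × Fin L.n) (gmb h)
    one_pos (sqv h) hs (sh_can h ht0 ht1 hu0 hu1) Finset.univ L.x
    (f := fun a w => sp w.2 a.1 * sp w.2 a.2) (fun a => (bm_sp a.1).mul (bm_sp a.2))
    (Φ := fun v => ∑ a ∈ (Finset.univ : Finset (Fin L.n × Fin L.n)), v a ^ 2)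
    (by fun_prop) fun C => ⟨∑ _a ∈ (Finset.univ : Finset (Fin L.n × Fin L.n)), C ^ 2,
      fun v hv => by
        rw [abs_of_nonneg (Finset.sum_nonneg fun _ _ => sq_nonneg _)]
        refine Finset.sum_le_sum fun a _ => ?_
        rw [← sq_abs]
        exact pow_le_pow_left₀ (abs_nonneg _) (hv a) 2⟩
  refine Eq.trans h1 ?_
  have e : H412.CC L Finset.univ t u = fun z => ((L.n : ℝ) ^ 2)⁻¹ *
      ∑ a ∈ (Finset.univ : Finset (Fin L.n × Fin L.n)),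
        L.cx' Finset.univ t u (fun w => sp w.2 a.1 * sp w.2 a.2) z ^ 2 := by
    funext z
    unfold H412.CC
    rw [div_eq_inv_mul, ← Finset.sum_product']
    rfl
  rw [e]
  unfold Law.ex'
  rw [ex_cmul, ← mul_assoc, mul_inv_cancel₀ (by positivity), one_mul]
  rfl

/-- the probability that the amplitude is stuck -/
lemma Pst_can (h : Adm L) (hs : Sh cB cF BL FL 1 (√L.vp) t u) (ht0 : 0 ≤ t) (ht1 : t ≤ 1)
    (hu0 : 0 ≤ u) (hu1 : u ≤ 1) :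
    Pst L.n L.b cB cF L.s L.η L.lam L.c L.x = PstL L t u := by
  have bin : Bm fun w : ℝ × Xs L.n => ins L.η w.1 := by
    refine Bm.of ((measurable_ins L.η).comp measurable_fst) (C := 1) fun w => ?_
    show |ins L.η w.1| ≤ 1
    rw [abs_of_nonneg (ins_nonneg _ _)]
    exact ins_le _ _
  have bf : Bm fun w : ℝ × Xs L.n => 1 - ins L.η w.1 := (Bm.const 1).sub bin
  have h1 := H9.sk_congr (b := L.b) (s := L.s) (η := L.η) (A := Unit) (gmb h)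
    one_pos (sqv h) hs (sh_can h ht0 ht1 hu0 hu1) Finset.univ L.x
    (f := fun _ w => 1 - ins L.η w.1) (fun a => bf)
    (Φ := fun v => v ()) (by fun_prop) fun C => ⟨C, fun v hv => hv ()⟩
  have h2 : ∀ {LB LF : Type} [Fintype LB] [DecidableEq LB] [Fintype LF] [DecidableEq LF]
      (cB : LB → ℝ) (cF : LF → ℝ) (K : Finset (Co L.n LB LF)),
      exS L.n L.b cB cF L.s L.η L.lam L.c L.x (cxS L.n L.b cB cF L.s L.η L.lam L.c L.x K
        (avS L.b cB cF L.s L.η L.lam L.c (fun w => 1 - ins L.η w.1))) =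
      Pst L.n L.b cB cF L.s L.η L.lam L.c L.x := by
    intro LB LF _ _ _ _ cB cF K
    have hw := wt_sk (n := L.n) (LB := LB) (LF := LF) (b := L.b) (cB := cB) (cF := cF)
      (s := L.s) (c := L.c) (x := L.x) h.lam0 h.η0
    have hG := gmA (n := L.n) L.b cB cF L.s h.lam0 h.η0 L.c
    exact ex_cx' hw (hG.bm_avm 1 bf)
  have e1 := h2 cB cF (Kset Finset.univ BL FL)
  have e2 := h2 (H418.cb t) (H418.cf L.vp u) (Kset Finset.univ {true} {true})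
  rw [← e1]
  unfold PstL
  rw [← e2]
  exact h1

/-- the rank one number -/
lemma RKg_rkL (S : Finset (Fin L.n)) :
    exS L.n L.b cB cF L.s L.η L.lam L.c L.x (RKg (muA (Xs L.n) L.lam L.η L.c)
      (Sm L.b cB cF L.s L.η) L.x (Kset S BL FL) (fun (j : Fin L.n) (w : ℝ × Xs L.n) =>
        sp w.2 j) S) = rkL L cB cF S (Kset S BL FL) := rfl

lemma incM_incL (S : Finset (Fin L.n)) (i0 : Fin L.n) :
    incM L.n L.b cB cF L.s L.η L.lam L.c L.x S BL FL i0 =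
      incL L cB cF S (Kset S BL FL) (Kset (insert i0 S) BL FL) := rfl

lemma rks_rkL (h : Adm L) (S : Finset (Fin L.n)) :
    exS L.n L.b cB cF L.s L.η L.lam L.c L.x
      (fun z => √(rks L.n L.b cB cF L.s L.η L.lam L.c L.x S BL FL z)) ≤
      √(rkL L cB cF S (Kset S BL FL)) := by
  have hw := wt_sk (n := L.n) (LB := LB) (LF := LF) (b := L.b) (cB := cB) (cF := cF)
    (s := L.s) (c := L.c) (x := L.x) h.lam0 h.η0
  have hG := gmA (n := L.n) L.b cB cF L.s h.lam0 h.η0 L.c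
  have b1 : ∀ f : ℝ × Xs L.n → ℝ, Bm f → BM (cxS L.n L.b cB cF L.s L.η L.lam L.c L.x
      (Kset S BL FL) (avS L.b cB cF L.s L.η L.lam L.c f)) := fun f hf =>
    hw.bm_cx _ (hG.bm_avm 1 hf)
  have b2 : BM (rks L.n L.b cB cF L.s L.η L.lam L.c L.x S BL FL) := by
    refine BM.sum S fun i _ => BM.sum S fun j _ => bsq ?_
    exact (b1 _ ((bm_sp i).mul (bm_sp j))).sub ((b1 _ (bm_sp i)).mul (b1 _ (bm_sp j)))
  exact ex_sqrt_le hw b2 fun z => Finset.sum_nonneg fun _ _ => Finset.sum_nonneg fun _ _ =>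
    sq_nonneg _

end can

section e1

/-- the error of the cubic equation -/
noncomputable def E1n (b C U hh g v η x k p j δ T pR R3 : ℝ) : ℝ :=
  δ + CE b C * (U * (hh + g) + v * η + x * η * U ^ 2 + x * U * k + p + U * j ^ 2 +
    U ^ 4 * (j + hh) / δ + x * (T * U ^ 2 + v * U + v ^ 2) + pR) + R3

/-- the coefficient of the linear term -/
noncomputable def tauL (L : Law) (kp : ℝ) (m : ℕ) (t : ℝ) : ℝ :=
  L.n / (L.n - m) - kp ^ 2 * L.b ^ 2 * t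

variable {L : Law} {LB LF : Type} [Fintype LB] [DecidableEq LB] [Fintype LF] [DecidableEq LF]
  {cB : LB → ℝ} {cF : LF → ℝ} {BL : Finset LB} {FL : Finset LF} {t u : ℝ}

lemma vf_sh (h : Adm L) (hs : Sh cB cF BL FL 1 (√L.vp) t u) : vf cF FL = u * L.vp := by
  have h1 : vf cF FL = ∑ l ∈ FL, cF l ^ 2 := rfl
  rw [h1, hs.shF, Real.sq_sqrt h.vp0.le]

lemma tau_sh (hs : Sh cB cF BL FL 1 (√L.vp) t u) (kp : ℝ) {m : ℕ} (hm : m ≤ L.n) :
    tau L.n L.b kp cB (Sn L.n m) BL = tauL L kp m t := by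
  unfold tau tauL
  rw [card_vis hm, hs.shB, one_pow, mul_one]

/-- **the cubic equation, canonical numbers** -/
theorem e1_can (h : Adm L) (hη1 : L.η ≤ 1 / 2) (hs0 : L.s ≠ 0) (hx1 : L.x < 1) {r0 : ℝ}
    (hc : L.c = L.s ^ 2 * L.n * (1 - (1 - L.x) * r0)) (hk0 : 0 ≤ 1 - (1 - L.x) * r0)
    (hk1 : 1 - (1 - L.x) * r0 ≤ 1) (hr0 : |r0| ≤ 1) (hb : 1 ≤ L.b)
    (hs : Sh cB cF BL FL 1 (√L.vp) t u) (ht0 : 0 ≤ t) (ht1 : t ≤ 1) (hu0 : 0 ≤ u)
    (hu1 : u ≤ 1) (hx2 : L.x ^ 2 * (L.b ^ 2 + L.vp) ≤ 1 / 4) {m : ℕ} (hm : 2 ≤ m)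
    (hmn : 2 * m ≤ L.n) {i0 i1 : Fin L.n} (hi0 : i0.1 + m = L.n) (hi1 : i1.1 + 1 = L.n)
    {Θ : Fin L.n → (Co L.n LB LF → ℝ) → ℝ} (hΘb : ∀ i, BM (Θ i)) (hΘ : Eq1 Θ) {C : ℝ}
    (hC0 : 0 ≤ C) (hC : ∀ z, |Θ i1 z| ≤ C)
    {U hh g k p j δ T pR R3 : ℝ} (hU0 : 0 < U) (hU1 : U ≤ 1) (hxU : L.x ≤ U)
    (hT : 1 - t ≤ T) (hvU : L.vp ≤ L.b ^ 2 * U) (hτU : |tauL L (1 - (1 - L.x) * r0) m t| ≤ U ^ 2)
    (hh1 : 1 / √(m : ℝ) ≤ hh) (hg : L.lam / (L.s ^ 2 * L.n) ≤ g) (hk : 0 ≤ k) (hp : 0 ≤ p)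
    (hj : 0 ≤ j) (hδ : 0 < δ)
    (hQ4 : L.ex' t u (fun z => L.Q (Sn L.n m) t u z ^ 4) ≤ U ^ 4)
    (hCC : L.ex' t u (H412.CC L Finset.univ t u) ≤ U ^ 2)
    (hrk : rkL L cB cF (Sn L.n m) (Kset (Sn L.n m) BL FL) ≤ (L.n * k) ^ 2)
    (hPst : PstL L t u ≤ p ^ 2)
    (hI : incL L cB cF (Sn L.n m) (Kset (Sn L.n m) BL FL)
      (Kset (insert i0 (Sn L.n m)) BL FL) ≤ L.n * U * j ^ 2)
    (hIK : incK L.n L.b cB cF L.s L.η L.lam L.c L.x (Sn L.n m) BL FL i0 Θ i1 ≤ C ^ 2 * j ^ 2)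
    (hC3 : exS L.n L.b cB cF L.s L.η L.lam L.c L.x (fun z =>
      |Ts L.n L.b cB cF L.s L.η L.lam L.c L.x (Sn L.n m) BL FL (1 - (1 - L.x) * r0) i0 z -
        ks L.n L.b cB cF L.s L.η L.lam L.c L.x (Sn L.n m) BL FL Θ i1 z ^ 2 *
          Qs L.n L.b cB cF L.s L.η L.lam L.c L.x (Sn L.n m) BL FL z ^ 3|) ≤ R3)
    (hpR : L.ex' t u (H317.ind (4 * U) (L.Q (Sn L.n m) t u)) ≤ pR) :
    exS L.n L.b cB cF L.s L.η L.lam L.c L.x (fun z =>
      |ks L.n L.b cB cF L.s L.η L.lam L.c L.x (Sn L.n m) BL FL Θ i1 z ^ 2 *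
          Qs L.n L.b cB cF L.s L.η L.lam L.c L.x (Sn L.n m) BL FL z ^ 3 -
        L.x * (1 - (1 - L.x) * r0) ^ 3 * L.b ^ 4 *
          Qs L.n L.b cB cF L.s L.η L.lam L.c L.x (Sn L.n m) BL FL z ^ 2 -
        tau L.n L.b (1 - (1 - L.x) * r0) cB (Sn L.n m) BL *
          Qs L.n L.b cB cF L.s L.η L.lam L.c L.x (Sn L.n m) BL FL z +
        (1 - (1 - L.x) * r0) ^ 2 * vf cF FL|) ≤
      E1n L.b C U hh g L.vp L.η L.x k p j δ T pR R3 := by
  have hml : m ≤ L.n := by omega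
  have hvf := vf_sh h hs
  have hcB : ∑ l ∈ BL, cB l ^ 2 = t := by rw [hs.shB, one_pow, mul_one]
  have hcF : ∑ l ∈ FL, cF l ^ 2 = u * L.vp := by rw [hs.shF, Real.sq_sqrt h.vp0.le]
  have hcard := card_hidden hml
  have huv : u * L.vp ≤ L.vp := mul_le_of_le_one_left h.vp0.le hu1
  have hi0' : i0 ∉ Sn L.n m := by
    simp only [Sn, Finset.mem_filter, Finset.mem_univ, true_and]
    omega
  have hi1' : i1 ∉ insert i0 (Sn L.n m) := by
    simp only [Sn, Finset.mem_insert, Finset.mem_filter, Finset.mem_univ, true_and, not_or]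
    refine ⟨fun h1 => ?_, by omega⟩
    rw [h1] at hi1
    omega
  have hne : (Finset.univ \ Sn L.n m).Nonempty := by
    rw [← Finset.card_pos, hcard]
    omega
  have hS2 : (L.n : ℝ) ≤ 2 * (Sn L.n m).card := by
    rw [card_vis hml]
    have : (2 * m : ℝ) ≤ L.n := by exact_mod_cast hmn
    linarith
  have hpR' : exS L.n L.b cB cF L.s L.η L.lam L.c L.x (fun z =>
      if 2 * √U < √(Qs L.n L.b cB cF L.s L.η L.lam L.c L.x (Sn L.n m) BL FL z) then (1 : ℝ)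
      else 0) ≤ pR := by
    have e1 : ∀ q : ℝ, (if 2 * √U < √q then (1 : ℝ) else 0) = if 4 * U < q then 1 else 0 := by
      intro q
      have e2 : 2 * √U = √(4 * U) := by
        rw [Real.sqrt_mul (by norm_num), show (4 : ℝ) = 2 ^ 2 by norm_num,
          Real.sqrt_sq (by norm_num)]
      have e3 : 2 * √U < √q ↔ 4 * U < q := by
        rw [e2]
        exact Real.sqrt_lt_sqrt_iff (by positivity)
      simp only [e3]
    simp only [e1]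
    have e4 := Q_can h hs ht0 ht1 hu0 hu1 (Sn L.n m)
      (φ := fun q => if 4 * U < q then (1 : ℝ) else 0)
      (Measurable.ite (measurableSet_lt measurable_const measurable_id) measurable_const
        measurable_const) fun C => ⟨1, fun v _ => by split_ifs <;> norm_num⟩
    refine (le_of_eq e4).trans ?_
    exact hpR
  have hQ4' : exS L.n L.b cB cF L.s L.η L.lam L.c L.x (fun z =>
      Qs L.n L.b cB cF L.s L.η L.lam L.c L.x (Sn L.n m) BL FL z ^ 4) ≤ U ^ 4 := by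
    have e4 := Q_can h hs ht0 ht1 hu0 hu1 (Sn L.n m) (φ := fun q => q ^ 4) (by fun_prop)
      fun C => ⟨C ^ 4, fun v hv => by
        rw [abs_pow]
        exact pow_le_pow_left₀ (abs_nonneg _) hv 4⟩
    exact (le_of_eq e4).trans hQ4
  have key := e1_num (n := L.n) (b := L.b) (cB := cB) (cF := cF) (s := L.s) (η := L.η)
    (lam := L.lam) (c := L.c) (x := L.x) (r0 := r0) (S := Sn L.n m) (S1 := Finset.univ)
    (BL := BL) (FL := FL) (i0 := i0) (i1 := i1) (Θ := Θ) (C := C) (U := U) (h := hh) (g := g)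
    (k := k) (p := p) (j := j) (δ := δ) (pR := pR) (R3 := R3)
    h.lam0 h.η0 hη1 hs0 h.x0 hx1 hc hk0 hk1 hr0 hb (by rw [hcB]; exact ht1)
    (by
      rw [hcB, hcF]
      refine le_trans (mul_le_mul_of_nonneg_left ?_ (sq_nonneg _)) hx2
      have : L.b ^ 2 * t ≤ L.b ^ 2 := mul_le_of_le_one_right (sq_nonneg _) ht1
      linarith) hS2 (Finset.subset_univ _) hi0' hne hi1' hΘb hΘ hC0 hC hU0 hU1 hxU
    (by rw [hvf]; exact huv.trans hvU) (by rw [tau_sh hs _ hml]; exact hτU)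
    (by rw [hcard]; exact hh1) hg hk hp hj hδ hQ4'
    (by
      rw [R2_can h hs ht0 ht1 hu0 hu1, mul_pow]
      exact mul_le_mul_of_nonneg_left hCC (by positivity))
    hrk (by rw [Pst_can h hs ht0 ht1 hu0 hu1]; exact hPst) hI hIK hC3 hpR'
  rw [hcB] at key
  refine key.trans ?_
  unfold E1n
  rw [hvf]
  have hCE := (CE_pos (C := C) hb).le
  have hu' : 0 ≤ u * L.vp := mul_nonneg hu0 h.vp0.le
  have hhh : 0 ≤ hh := le_trans (by positivity) hh1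
  have := h.η0
  have := h.x0
  have := hU0.le
  gcongr

end e1

section pt

/-- the increment of the mean of the square of the observable when the number of hidden sites
decreases from `m` to `m - 1` -/
noncomputable def dK (L : Law) (t2 t1 u : ℝ) (BL : Finset (Fin 3))
    (Ψ : (Co L.n (Fin 3) Bool → ℝ) → ℝ) (m : ℕ) : ℝ :=
  exL L (c3 t2 t1) (H418.cf L.vp u) (fun z => cx (g1 _) (Kset (Sn L.n (m - 1)) BL {true})
      (wS L.n L.b (c3 t2 t1) (H418.cf L.vp u) L.s L.η L.lam L.c L.x) Ψ z ^ 2) -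
    exL L (c3 t2 t1) (H418.cf L.vp u) (fun z => cx (g1 _) (Kset (Sn L.n m) BL {true})
      (wS L.n L.b (c3 t2 t1) (H418.cf L.vp u) L.s L.η L.lam L.c L.x) Ψ z ^ 2)

lemma Sn_insert {n m : ℕ} (h1 : 1 ≤ m) {i0 : Fin n} (hi : i0.1 + m = n) :
    insert i0 (Sn n m) = Sn n (m - 1) := SN_insert h1 hi

lemma incK_dK {L : Law} {t2 t1 u : ℝ} {BL : Finset (Fin 3)} {m : ℕ} (h1 : 1 ≤ m)
    {i0 i1 : Fin L.n} (hi : i0.1 + m = L.n)
    (Θ : Fin L.n → (Co L.n (Fin 3) Bool → ℝ) → ℝ) :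
    incK L.n L.b (c3 t2 t1) (H418.cf L.vp u) L.s L.η L.lam L.c L.x (Sn L.n m) BL {true} i0 Θ i1 =
      dK L t2 t1 u BL (Θ i1) m := by
  unfold incK
  rw [Sn_insert h1 hi]
  rfl

lemma dK_nonneg {L : Law} (h : Adm L) {t2 t1 u : ℝ} {BL : Finset (Fin 3)}
    {Ψ : (Co L.n (Fin 3) Bool → ℝ) → ℝ} (hΨ : BM Ψ) (m : ℕ) : 0 ≤ dK L t2 t1 u BL Ψ m := by
  have hw := wt_sk (n := L.n) (LB := Fin 3) (LF := Bool) (b := L.b) (cB := c3 t2 t1)
    (cF := H418.cf L.vp u) (s := L.s) (c := L.c) (x := L.x) h.lam0 h.η0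
  refine sub_nonneg.2 ?_
  exact ex_cx_sq_mono hw (Kset_mono (SN_anti (Nat.sub_le m 1)) (Finset.Subset.refl _)
    (Finset.Subset.refl _)) hΨ

lemma sum_dK {L : Law} (h : Adm L) {t2 t1 u : ℝ} {BL : Finset (Fin 3)}
    {Ψ : (Co L.n (Fin 3) Bool → ℝ) → ℝ} (hΨ : BM Ψ) {C : ℝ} (hC : ∀ z, |Ψ z| ≤ C) {m1 m2 : ℕ}
    (h12 : m1 ≤ m2) : ∑ m ∈ Finset.Icc m1 m2, dK L t2 t1 u BL Ψ m ≤ C ^ 2 := by
  have hw := wt_sk (n := L.n) (LB := Fin 3) (LF := Bool) (b := L.b) (cB := c3 t2 t1)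
    (cF := H418.cf L.vp u) (s := L.s) (c := L.c) (x := L.x) h.lam0 h.η0
  exact sum_theta hw hΨ hC (fun m => Kset (Sn L.n m) BL {true}) h12

/-- **the typical point of the system with three levels of bonds** -/
theorem pt3 {L : Law} (h : Adm L) {m1 m2 : ℕ} (h1 : 1 ≤ m1) (h12 : m1 ≤ m2)
    {q0 q1 p0 p1 u0 u1 : ℝ} (hq0 : 0 ≤ q0) (hq : q0 ≤ q1) (hqp : q1 ≤ p0) (hp : p0 ≤ p1)
    (hp1 : p1 ≤ 1) (hu0 : 0 ≤ u0) (hu : u0 ≤ u1) (hu1 : u1 ≤ 1)
    (Θ : ℝ → ℝ → ℝ → (Co L.n (Fin 3) Bool → ℝ) → ℝ) (hΘb : ∀ t2 t1 u, BM (Θ t2 t1 u)) {C : ℝ}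
    (hΘC : ∀ t2 t1 u z, |Θ t2 t1 u z| ≤ C) :
    ∃ t2 t1 u : ℝ, (t2 ∈ Set.Icc q0 q1 ∧ t1 ∈ Set.Icc p0 p1 ∧ u ∈ Set.Icc u0 u1) ∧
      ∃ m ∈ Finset.Icc m1 m2,
      Typ L (c3 t2 t1) (H418.cf L.vp u) p1 u1 (p1 - p0) (u1 - u0) 14 ((m2 : ℝ) - m1 + 1) m {0, 1}
        {true} ∧
      Typ L (c3 t2 t1) (H418.cf L.vp u) q1 u1 (q1 - q0) (u1 - u0) 14 ((m2 : ℝ) - m1 + 1) m {0}
        {true} ∧
      dK L t2 t1 u {0, 1} (Θ t2 t1 u) m ≤ 14 * C ^ 2 / ((m2 : ℝ) - m1 + 1) ∧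
      dK L t2 t1 u {0} (Θ t2 t1 u) m ≤ 14 * C ^ 2 / ((m2 : ℝ) - m1 + 1) := by
  classical
  have hcomb : ∀ {a c : ℝ} (hac : a ≤ c) {r : ℝ}, r ∈ Set.Icc (0 : ℝ) 1 →
      a + r * (c - a) ∈ Set.Icc a c := by
    intro a c hac r hr
    have h2 : 0 ≤ r * (c - a) := mul_nonneg hr.1 (by linarith)
    have h3 : r * (c - a) ≤ c - a := mul_le_of_le_one_left (by linarith) hr.2
    exact ⟨by linarith, by linarith⟩
  obtain ⟨r, hrI, m, hm, hA, hE⟩ := typJ h h1 h12 (W := Unit) (J := Bool) (fun _ => ())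
    (t0 := fun j => if j then p0 else q0) (t1 := fun j => if j then p1 else q1)
    (u0 := fun _ => u0) (u1 := fun _ => u1)
    (fun j => by split_ifs; exacts [hq0.trans (hq.trans hqp), hq0])
    (fun j => by split_ifs; exacts [hp, hq])
    (fun j => by split_ifs; exacts [hp1, (hqp.trans hp).trans hp1])
    (fun _ => hu0) (fun _ => hu) (fun _ => hu1)
    (Finset.univ : Finset Bool)
    (g := fun e r m => dK L (q0 + r () * (q1 - q0)) (p0 + r () * (p1 - p0))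
      (u0 + r () * (u1 - u0)) (if e then {0, 1} else {0})
      (Θ (q0 + r () * (q1 - q0)) (p0 + r () * (p1 - p0)) (u0 + r () * (u1 - u0))) m)
    (C := fun _ => C ^ 2)
    (fun e _ r hr m hm => dK_nonneg h (hΘb _ _ _) m)
    (fun e _ r hr => sum_dK h (hΘb _ _ _) (hΘC _ _ _) h12)
  have hr := hrI ()
  refine ⟨q0 + r () * (q1 - q0), p0 + r () * (p1 - p0), u0 + r () * (u1 - u0),
    ⟨hcomb hq hr, hcomb hp hr, hcomb hu hr⟩, m, hm, ?_, ?_, ?_, ?_⟩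
  · have h2 := hcomb hq hr
    have h3 := hcomb hp hr
    have h4 := hcomb hu hr
    have h5 := hA true (Fin 3) Bool (c3 (q0 + r () * (q1 - q0)) (p0 + r () * (p1 - p0)))
      (H418.cf L.vp (u0 + r () * (u1 - u0))) {0, 1} {true}
      (sh_1 (hq0.trans h2.1) ((h2.2.trans hqp).trans h3.1) (h3.2.trans hp1)
        (hu0.trans h4.1) (h4.2.trans hu1))
    have e : (6 * (Fintype.card Bool : ℝ) + (Finset.univ : Finset Bool).card) = 14 := by
      rw [Finset.card_univ, Fintype.card_bool]; norm_num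
    rw [e] at h5
    exact h5
  · have h2 := hcomb hq hr
    have h3 := hcomb hp hr
    have h4 := hcomb hu hr
    have h5 := hA false (Fin 3) Bool (c3 (q0 + r () * (q1 - q0)) (p0 + r () * (p1 - p0)))
      (H418.cf L.vp (u0 + r () * (u1 - u0))) {0} {true}
      (sh_2 (hq0.trans h2.1) ((h2.2.trans hqp).trans h3.1) (h3.2.trans hp1)
        (hu0.trans h4.1) (h4.2.trans hu1))
    have e : (6 * (Fintype.card Bool : ℝ) + (Finset.univ : Finset Bool).card) = 14 := by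
      rw [Finset.card_univ, Fintype.card_bool]; norm_num
    rw [e] at h5
    exact h5
  · have h5 := hE true (Finset.mem_univ _)
    have e : (6 * (Fintype.card Bool : ℝ) + (Finset.univ : Finset Bool).card) = 14 := by
      rw [Finset.card_univ, Fintype.card_bool]; norm_num
    rw [e] at h5
    exact h5
  · have h5 := hE false (Finset.mem_univ _)
    have e : (6 * (Fintype.card Bool : ℝ) + (Finset.univ : Finset Bool).card) = 14 := by
      rw [Finset.card_univ, Fintype.card_bool]; norm_num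
    rw [e] at h5
    exact h5

end pt

end Vale.Agent.P146.H694
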