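import Vale.Agent.P146.H615.Easm2
import Vale.Agent.P146.H317.ExBridge

/-!
# P146, block 12b-BRMOD: the row equation tested with a signed bounded weight

From `H615.easm2` (weights `1` and `1 + ψ`), the step `i ↦ new site`, and the third order term in
`L¹`, the tested cubic equation `ex (ψ (k² Q³ - a Q² - τ Q + v))` is small for every `|ψ| ≤ 1`.
-/

open MeasureTheory

namespace Vale.Agent.P146.H694

open Vale.Agent.P146.H646 Vale.Agent.P146.H615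

set_option linter.unusedSectionVars false

variable {κ : Type*} [Fintype κ] [DecidableEq κ] {μ : κ → Measure ℝ}
  [∀ e, IsProbabilityMeasure (μ e)] {w : (κ → ℝ) → ℝ} {K : Finset κ}
  {Ω : Type*} [MeasurableSpace Ω] {I : Type*}
  {av : (Ω → ℝ) → (κ → ℝ) → ℝ} {S : Finset I} {M : I → (κ → ℝ) → ℝ} {s : I → Ω → ℝ}
  {s0 a : Ω → ℝ} {x τ v η : ℝ}

/-- The error of the row equation for weights bounded by one. -/
noncomputable def RA (kp τ v d0 d0f x η m1 Y2 DV Y2m Ym2 : ℝ) : ℝ :=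
  2 * kp * (τ * (d0 * √m1) + v * d0f) +
    x * kp ^ 2 * (10 * η * (Y2 + DV) + 2 * DV + 2 * (τ * (d0 * √Y2m)) + v * (d0f * √Y2) +
      τ * (d0f * √Ym2))

lemma bm_one_add {ψ : (κ → ℝ) → ℝ} (h : BM ψ) : BM (fun z => 1 + ψ z) := (BM.const 1).add h

/-- an expectation with a squared weight. -/
lemma sqrt_wt_le (hw : Wt μ w) {φ f : (κ → ℝ) → ℝ} (hφb : BM φ) (hf : BM f) (hf0 : ∀ z, 0 ≤ f z)
    {P0 : ℝ} (hP : 0 ≤ P0) (hφ : ∀ z, |φ z| ≤ P0) :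
    √(ex μ w (fun z => φ z ^ 2 * f z)) ≤ P0 * √(ex μ w f) := by
  have h1 : ex μ w (fun z => φ z ^ 2 * f z) ≤ P0 ^ 2 * ex μ w f := by
    rw [← ex_cmul]
    refine ex_mono hw ((bsq hφb).mul hf) (bcm _ hf) fun z => ?_
    refine mul_le_mul_of_nonneg_right ?_ (hf0 z)
    rw [← sq_abs]
    exact pow_le_pow_left₀ (abs_nonneg _) (hφ z) 2
  calc √(ex μ w (fun z => φ z ^ 2 * f z)) ≤ √(P0 ^ 2 * ex μ w f) := Real.sqrt_le_sqrt h1
    _ = P0 * √(ex μ w f) := by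
      rw [Real.sqrt_mul (sq_nonneg _), Real.sqrt_sq hP]

/-- The row equation for a nonnegative weight bounded by `P0`. -/
theorem row_wt (hw : Wt μ w) (hA : Av av) (hs : ∀ j, Bd (s j)) (hM : ∀ j, BM (M j))
    (hMd : ∀ j, Dep K (M j)) (ha : Bd a) (haη : ∀ ω, |a ω - 1| ≤ η) (hη : 0 ≤ η) (hτ : 0 ≤ τ)
    (hv : 0 ≤ v) (hs0 : Bd s0) (hs1 : ∀ ω, |s0 ω| ≤ 1)
    (hMc : ∀ j, ∀ g : (κ → ℝ) → ℝ, Dep K g → BM g →
      ex μ w (fun z => g z * av (fun ω => a ω * s j ω) z) = ex μ w (fun z => g z * M j z))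
    (hx0 : 0 ≤ x) (hx1 : x ≤ 1) {kp d0 d0f : ℝ} (hk : 0 ≤ kp) (hd0 : 0 ≤ d0) (hd0f : 0 ≤ d0f)
    (hI2 : ∀ g : (κ → ℝ) → ℝ, Dep K g → BM g →
      |ex μ w (fun z => g z * ∑ j ∈ S, M j z * Th av x a s0 s j z) -
        kp * ex μ w (fun z => g z * m2 S M z)| ≤ d0 * √(ex μ w (fun z => g z ^ 2 * m2 S M z)))
    (hI2f : ∀ g : (κ → ℝ) → ℝ, Dep K g → BM g →
      |ex μ w (fun z => g z * Tf av x a s0 z) - kp * ex μ w g| ≤
        d0f * √(ex μ w (fun z => g z ^ 2)))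
    {φ : (κ → ℝ) → ℝ} (hφ : Dep K φ) (hφb : BM φ) (hφ0 : ∀ z, 0 ≤ φ z) {P0 : ℝ} (hP : 0 ≤ P0)
    (hφP : ∀ z, φ z ≤ P0) {nN c3 m1 Y2 DV Y2m Ym2 : ℝ}
    (hm1 : ex μ w (m2 S M) ≤ m1)
    (hY2 : ex μ w (fun z => Yf S M τ v z ^ 2) ≤ Y2)
    (hDV : τ ^ 2 * ex μ w (Vt av S M s) ≤ DV)
    (hY2m : ex μ w (fun z => Yf S M τ v z ^ 2 * m2 S M z) ≤ Y2m)
    (hYm2 : ex μ w (fun z => (Yf S M τ v z * m2 S M z) ^ 2) ≤ Ym2)
    (hstar : nN = 2 * kp * (τ * ex μ w (fun z => φ z * ∑ j ∈ S, M j z * Th av x a s0 s j z) +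
        v * ex μ w (fun z => φ z * Tf av x a s0 z)) -
      kp ^ 2 * ex μ w (fun z => φ z * Yf S M τ v z) -
      x * kp ^ 2 * (ex μ w (fun z => φ z * Pt av S M s τ v z) -
        (1 - x) * ex μ w (fun z => φ z * Rt av S M s0 s τ v z ^ 2)) + c3) :
    |nN - (kp ^ 2 * ex μ w (fun z => φ z * Yf S M τ v z) -
        x * kp ^ 3 * ex μ w (fun z => φ z * Yf S M τ v z ^ 2) + c3)| ≤
      P0 * RA kp τ v d0 d0f x η m1 Y2 DV Y2m Ym2 := by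
  have bY := bm_Y (S := S) hA hs hM τ v
  have bV := bm_Vt (S := S) hA hs hM
  have bm := bm_m2 (S := S) hA hs hM
  have hY := Y_nonneg (S := S) (M := M) hτ hv
  have hφa : ∀ z, |φ z| ≤ P0 := fun z => by rw [abs_of_nonneg (hφ0 z)]; exact hφP z
  have h0 := easm2 (S := S) hw hA hs hM hMd ha haη hη hτ hv hs0 hs1 hMc hx0 hx1 hk hI2 hI2f hφ
    hφb hφ0 rfl rfl hstar
  refine h0.trans ?_
  -- the pieces
  have c1 : √(ex μ w (fun z => φ z ^ 2 * m2 S M z)) ≤ P0 * √m1 :=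
    (sqrt_wt_le hw hφb bm m2_nonneg hP hφa).trans
      (mul_le_mul_of_nonneg_left (Real.sqrt_le_sqrt hm1) hP)
  have c2 : √(ex μ w (fun z => φ z ^ 2)) ≤ P0 := by
    have h1 := sqrt_wt_le hw hφb (BM.const 1) (fun _ => zero_le_one) hP hφa
    rw [ex_const hw, Real.sqrt_one, mul_one] at h1
    simpa only [mul_one] using h1
  have c3' : ex μ w (fun z => φ z * Yf S M τ v z ^ 2) ≤ P0 * Y2 := by
    have h1 : ex μ w (fun z => φ z * Yf S M τ v z ^ 2) ≤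
        ex μ w (fun z => P0 * Yf S M τ v z ^ 2) :=
      ex_mono hw (hφb.mul (bsq bY)) (bcm _ (bsq bY)) fun z =>
        mul_le_mul_of_nonneg_right (hφP z) (sq_nonneg _)
    rw [ex_cmul] at h1
    exact h1.trans (mul_le_mul_of_nonneg_left hY2 hP)
  have c4 : τ ^ 2 * ex μ w (fun z => φ z * Vt av S M s z) ≤ P0 * DV := by
    have h1 : ex μ w (fun z => φ z * Vt av S M s z) ≤ ex μ w (fun z => P0 * Vt av S M s z) :=
      ex_mono hw (hφb.mul bV) (bcm _ bV) fun z =>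
        mul_le_mul_of_nonneg_right (hφP z) (Vt_nonneg (S := S) (M := M) hA hs z)
    rw [ex_cmul] at h1
    calc τ ^ 2 * ex μ w (fun z => φ z * Vt av S M s z)
        ≤ τ ^ 2 * (P0 * ex μ w (fun z => Vt av S M s z)) :=
          mul_le_mul_of_nonneg_left h1 (sq_nonneg _)
      _ = P0 * (τ ^ 2 * ex μ w (Vt av S M s)) := by ring
      _ ≤ P0 * DV := mul_le_mul_of_nonneg_left hDV hP
  have c5 : √(ex μ w (fun z => (φ z * Yf S M τ v z) ^ 2 * m2 S M z)) ≤ P0 * √Y2m := by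
    have e : (fun z => (φ z * Yf S M τ v z) ^ 2 * m2 S M z) =
        fun z => φ z ^ 2 * (Yf S M τ v z ^ 2 * m2 S M z) := by funext z; ring
    rw [e]
    exact (sqrt_wt_le hw hφb ((bsq bY).mul bm) (fun z => mul_nonneg (sq_nonneg _)
      (m2_nonneg z)) hP hφa).trans (mul_le_mul_of_nonneg_left (Real.sqrt_le_sqrt hY2m) hP)
  have c6 : √(ex μ w (fun z => (φ z * Yf S M τ v z) ^ 2)) ≤ P0 * √Y2 := by
    have e : (fun z => (φ z * Yf S M τ v z) ^ 2) =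
        fun z => φ z ^ 2 * Yf S M τ v z ^ 2 := by funext z; ring
    rw [e]
    exact (sqrt_wt_le hw hφb (bsq bY) (fun z => sq_nonneg _) hP hφa).trans
      (mul_le_mul_of_nonneg_left (Real.sqrt_le_sqrt hY2) hP)
  have c7 : √(ex μ w (fun z => (φ z * Yf S M τ v z * m2 S M z) ^ 2)) ≤ P0 * √Ym2 := by
    have e : (fun z => (φ z * Yf S M τ v z * m2 S M z) ^ 2) =
        fun z => φ z ^ 2 * (Yf S M τ v z * m2 S M z) ^ 2 := by funext z; ring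
    rw [e]
    exact (sqrt_wt_le hw hφb (bsq (bY.mul bm)) (fun z => sq_nonneg _) hP hφa).trans
      (mul_le_mul_of_nonneg_left (Real.sqrt_le_sqrt hYm2) hP)
  set q1 := √(ex μ w (fun z => φ z ^ 2 * m2 S M z))
  set q2 := √(ex μ w (fun z => φ z ^ 2))
  set q3 := ex μ w (fun z => φ z * Yf S M τ v z ^ 2)
  set q4 := τ ^ 2 * ex μ w (fun z => φ z * Vt av S M s z)
  set q5 := √(ex μ w (fun z => (φ z * Yf S M τ v z) ^ 2 * m2 S M z))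
  set q6 := √(ex μ w (fun z => (φ z * Yf S M τ v z) ^ 2))
  set q7 := √(ex μ w (fun z => (φ z * Yf S M τ v z * m2 S M z) ^ 2))
  have hxk : 0 ≤ x * kp ^ 2 := mul_nonneg hx0 (sq_nonneg _)
  have t1 : τ * (d0 * q1) ≤ τ * (d0 * (P0 * √m1)) :=
    mul_le_mul_of_nonneg_left (mul_le_mul_of_nonneg_left c1 hd0) hτ
  have t2 : v * (d0f * q2) ≤ v * (d0f * P0) :=
    mul_le_mul_of_nonneg_left (mul_le_mul_of_nonneg_left c2 hd0f) hv
  have t3 : 10 * η * (q3 + q4) ≤ 10 * η * (P0 * Y2 + P0 * DV) :=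
    mul_le_mul_of_nonneg_left (add_le_add c3' c4) (by positivity)
  have t5 : τ * (d0 * q5) ≤ τ * (d0 * (P0 * √Y2m)) :=
    mul_le_mul_of_nonneg_left (mul_le_mul_of_nonneg_left c5 hd0) hτ
  have t6 : v * (d0f * q6) ≤ v * (d0f * (P0 * √Y2)) :=
    mul_le_mul_of_nonneg_left (mul_le_mul_of_nonneg_left c6 hd0f) hv
  have t7 : τ * (d0f * q7) ≤ τ * (d0f * (P0 * √Ym2)) :=
    mul_le_mul_of_nonneg_left (mul_le_mul_of_nonneg_left c7 hd0f) hτ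
  calc 2 * kp * (τ * (d0 * q1) + v * (d0f * q2)) +
        x * kp ^ 2 * (10 * η * (q3 + q4) + 2 * q4 + 2 * (τ * (d0 * q5)) + v * (d0f * q6) +
          τ * (d0f * q7))
      ≤ 2 * kp * (τ * (d0 * (P0 * √m1)) + v * (d0f * P0)) +
        x * kp ^ 2 * (10 * η * (P0 * Y2 + P0 * DV) + 2 * (P0 * DV) +
          2 * (τ * (d0 * (P0 * √Y2m))) + v * (d0f * (P0 * √Y2)) +
          τ * (d0f * (P0 * √Ym2))) := by
        refine add_le_add (mul_le_mul_of_nonneg_left (add_le_add t1 t2) (by positivity))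
          (mul_le_mul_of_nonneg_left ?_ hxk)
        linarith
    _ = P0 * RA kp τ v d0 d0f x η m1 Y2 DV Y2m Ym2 := by unfold RA; ring

/-- The row equation for a signed weight bounded by one. -/
theorem row_signed (hw : Wt μ w) (hA : Av av) (hs : ∀ j, Bd (s j)) (hM : ∀ j, BM (M j))
    (hMd : ∀ j, Dep K (M j)) (ha : Bd a) (haη : ∀ ω, |a ω - 1| ≤ η) (hη : 0 ≤ η)
    (hτ0 : 0 ≤ τ) (hv : 0 ≤ v) (hs0 : Bd s0) (hs1 : ∀ ω, |s0 ω| ≤ 1)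
    (hMc : ∀ j, ∀ g : (κ → ℝ) → ℝ, Dep K g → BM g →
      ex μ w (fun z => g z * av (fun ω => a ω * s j ω) z) = ex μ w (fun z => g z * M j z))
    (hx0 : 0 ≤ x) (hx1 : x ≤ 1) {kp d0 d0f : ℝ} (hk : 0 ≤ kp) (hd0 : 0 ≤ d0) (hd0f : 0 ≤ d0f)
    (hI2 : ∀ g : (κ → ℝ) → ℝ, Dep K g → BM g →
      |ex μ w (fun z => g z * ∑ j ∈ S, M j z * Th av x a s0 s j z) -
        kp * ex μ w (fun z => g z * m2 S M z)| ≤ d0 * √(ex μ w (fun z => g z ^ 2 * m2 S M z)))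
    (hI2f : ∀ g : (κ → ℝ) → ℝ, Dep K g → BM g →
      |ex μ w (fun z => g z * Tf av x a s0 z) - kp * ex μ w g| ≤
        d0f * √(ex μ w (fun z => g z ^ 2)))
    {N T : (κ → ℝ) → ℝ} (hN : BM N) (hT : BM T)
    {m1 Y2 DV Y2m Ym2 : ℝ}
    (hm1 : ex μ w (m2 S M) ≤ m1)
    (hY2 : ex μ w (fun z => Yf S M τ v z ^ 2) ≤ Y2)
    (hDV : τ ^ 2 * ex μ w (Vt av S M s) ≤ DV)
    (hY2m : ex μ w (fun z => Yf S M τ v z ^ 2 * m2 S M z) ≤ Y2m)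
    (hYm2 : ex μ w (fun z => (Yf S M τ v z * m2 S M z) ^ 2) ≤ Ym2)
    (hstar : ∀ φ : (κ → ℝ) → ℝ, Dep K φ → BM φ → ex μ w (fun z => φ z * N z ^ 2) =
      2 * kp * (τ * ex μ w (fun z => φ z * ∑ j ∈ S, M j z * Th av x a s0 s j z) +
        v * ex μ w (fun z => φ z * Tf av x a s0 z)) -
      kp ^ 2 * ex μ w (fun z => φ z * Yf S M τ v z) -
      x * kp ^ 2 * (ex μ w (fun z => φ z * Pt av S M s τ v z) -
        (1 - x) * ex μ w (fun z => φ z * Rt av S M s0 s τ v z ^ 2)) +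
      ex μ w (fun z => φ z * T z))
    {ψ : (κ → ℝ) → ℝ} (hψ : Dep K ψ) (hψb : BM ψ) (hψ1 : ∀ z, |ψ z| ≤ 1) :
    |ex μ w (fun z => ψ z * N z ^ 2) - (kp ^ 2 * ex μ w (fun z => ψ z * Yf S M τ v z) -
      x * kp ^ 3 * ex μ w (fun z => ψ z * Yf S M τ v z ^ 2) + ex μ w (fun z => ψ z * T z))| ≤
      3 * RA kp τ v d0 d0f x η m1 Y2 DV Y2m Ym2 := by
  have bY := bm_Y (S := S) hA hs hM τ v
  set rA := RA kp τ v d0 d0f x η m1 Y2 DV Y2m Ym2 with hrA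
  have w1 := row_wt (S := S) hw hA hs hM hMd ha haη hη hτ0 hv hs0 hs1 hMc hx0 hx1 hk hd0 hd0f
      hI2 hI2f (Dep.const (1 : ℝ)) (BM.const 1) (fun _ => zero_le_one) zero_le_one
      (fun _ => le_refl (1 : ℝ)) hm1 hY2 hDV hY2m hYm2 (hstar _ (Dep.const 1) (BM.const 1))
  have dψ : Dep K (fun z => 1 + ψ z) := Dep.add (Dep.const 1) hψ
  have w2 := row_wt (S := S) hw hA hs hM hMd ha haη hη hτ0 hv hs0 hs1 hMc hx0 hx1 hk hd0 hd0f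
      hI2 hI2f dψ (bm_one_add hψb) (fun z => by
        have := (abs_le.1 (hψ1 z)).1; linarith) (by norm_num : (0 : ℝ) ≤ 2)
      (fun z => by have := (abs_le.1 (hψ1 z)).2; linarith) hm1 hY2 hDV hY2m hYm2
      (hstar _ dψ (bm_one_add hψb))
  have lin : ∀ f : (κ → ℝ) → ℝ, BM f → ex μ w (fun z => (1 + ψ z) * f z) =
      ex μ w (fun z => 1 * f z) + ex μ w (fun z => ψ z * f z) := by
    intro f hf
    rw [← ex_add hw ((BM.const 1).mul hf) (hψb.mul hf)]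
    congr 1
    funext z
    ring
  rw [lin _ (bsq hN), lin _ bY, lin _ (bsq bY), lin _ hT] at w2
  rw [← hrA] at w1 w2
  rw [abs_le] at w1 w2 ⊢
  constructor <;> linarith [w1.1, w1.2, w2.1, w2.2]

lemma bm_cube {Q : (κ → ℝ) → ℝ} (bQ : BM Q) : BM fun z => Q z ^ 3 := by
  have := (bsq bQ).mul bQ
  have e : (fun z => Q z ^ 2 * Q z) = fun z => Q z ^ 3 := by funext z; ring
  rwa [e] at this

lemma bm_abs {Q : (κ → ℝ) → ℝ} (bQ : BM Q) : BM fun z => |Q z| := by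
  obtain ⟨C, hC⟩ := bQ.bd
  exact ⟨continuous_abs.measurable.comp bQ.meas, C, fun z => by rw [abs_abs]; exact hC z⟩

lemma bm_div {Q : (κ → ℝ) → ℝ} (bQ : BM Q) (c : ℝ) : BM fun z => Q z / c := by
  have := bcm c⁻¹ bQ
  have e : (fun z => Q z / c) = fun z => c⁻¹ * Q z := by
    funext z; rw [div_eq_inv_mul]
  rw [e]; exact this

/-- the third order term -/
lemma third_term (hw : Wt μ w) {T F ψ : (κ → ℝ) → ℝ} (hT : BM T) (hF : BM F) (hψb : BM ψ)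
    (hψ1 : ∀ z, |ψ z| ≤ 1) {R3 : ℝ} (h : ex μ w (fun z => |T z - F z|) ≤ R3) :
    |ex μ w (fun z => ψ z * F z) - ex μ w (fun z => ψ z * T z)| ≤ R3 := by
  rw [← ex_sub hw (hψb.mul hF) (hψb.mul hT)]
  refine (abs_ex_le hw ((hψb.mul hF).sub (hψb.mul hT)) (bm_abs (hT.sub hF)) fun z => ?_).trans h
  have e : ψ z * F z - ψ z * T z = -(ψ z * (T z - F z)) := by ring
  rw [e, abs_neg, abs_mul]
  calc |ψ z| * |T z - F z| ≤ 1 * |T z - F z| :=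
        mul_le_mul_of_nonneg_right (hψ1 z) (abs_nonneg _)
    _ = _ := one_mul _

/-- the pointwise second order term -/
lemma second_pt {b t v Q : ℝ} (ht0 : 0 ≤ t) (ht1 : t ≤ 1) (hv : 0 ≤ v) (hQ : 0 ≤ Q) :
    |(b ^ 2 * t * Q + v) ^ 2 - b ^ 4 * Q ^ 2| ≤
      2 * b ^ 4 * (1 - t) * Q ^ 2 + 2 * b ^ 2 * v * Q + v ^ 2 := by
  have h2 : (b ^ 2 * t * Q + v) ^ 2 - b ^ 4 * Q ^ 2 =
      -(b ^ 4 * (1 - t ^ 2) * Q ^ 2) + 2 * b ^ 2 * t * v * Q + v ^ 2 := by ring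
  rw [h2]
  have g1 : 0 ≤ b ^ 4 * (1 - t ^ 2) * Q ^ 2 := by
    have : 0 ≤ 1 - t ^ 2 := by nlinarith
    positivity
  have g2 : b ^ 4 * (1 - t ^ 2) * Q ^ 2 ≤ 2 * b ^ 4 * (1 - t) * Q ^ 2 := by
    have h5 : 1 - t ^ 2 ≤ 2 * (1 - t) := by nlinarith
    have h6 : 0 ≤ b ^ 4 * Q ^ 2 := by positivity
    calc b ^ 4 * (1 - t ^ 2) * Q ^ 2 = (1 - t ^ 2) * (b ^ 4 * Q ^ 2) := by ring
      _ ≤ 2 * (1 - t) * (b ^ 4 * Q ^ 2) := mul_le_mul_of_nonneg_right h5 h6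
      _ = _ := by ring
  have g3 : 0 ≤ 2 * b ^ 2 * t * v * Q := by positivity
  have g4 : 2 * b ^ 2 * t * v * Q ≤ 2 * b ^ 2 * v * Q := by
    have h6 : 0 ≤ 2 * b ^ 2 * v * Q := by positivity
    calc 2 * b ^ 2 * t * v * Q = t * (2 * b ^ 2 * v * Q) := by ring
      _ ≤ 1 * (2 * b ^ 2 * v * Q) := mul_le_mul_of_nonneg_right ht1 h6
      _ = _ := one_mul _
  have g5 : 0 ≤ v ^ 2 := sq_nonneg _
  rw [abs_le]
  constructor <;> linarith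

/-- the second order term -/
lemma second_term (hw : Wt μ w) {Y Q ψ : (κ → ℝ) → ℝ} (hY : BM Y) (bQ : BM Q) (hψb : BM ψ)
    (hψ1 : ∀ z, |ψ z| ≤ 1) (hQ0 : ∀ z, 0 ≤ Q z) {b t : ℝ} (ht0 : 0 ≤ t) (ht1 : t ≤ 1)
    (hv : 0 ≤ v) (hYQ : ∀ z, Y z = b ^ 2 * t * Q z + v) {q1 q2 : ℝ}
    (hq1 : ex μ w Q ≤ q1) (hq2 : ex μ w (fun z => Q z ^ 2) ≤ q2) :
    |ex μ w (fun z => ψ z * Y z ^ 2) - b ^ 4 * ex μ w (fun z => ψ z * Q z ^ 2)| ≤
      2 * b ^ 4 * (1 - t) * q2 + 2 * b ^ 2 * v * q1 + v ^ 2 := by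
  rw [← ex_cmul, ← ex_sub hw (hψb.mul (bsq hY)) (bcm _ (hψb.mul (bsq bQ)))]
  have bnd : BM fun z => 2 * b ^ 4 * (1 - t) * Q z ^ 2 + 2 * b ^ 2 * v * Q z + v ^ 2 :=
    ((bcm _ (bsq bQ)).add (bcm _ bQ)).add (BM.const _)
  have h1 := abs_ex_le hw ((hψb.mul (bsq hY)).sub (bcm (b ^ 4) (hψb.mul (bsq bQ)))) bnd
    (fun z => by
      have h3 : ψ z * Y z ^ 2 - b ^ 4 * (ψ z * Q z ^ 2) =
          ψ z * ((b ^ 2 * t * Q z + v) ^ 2 - b ^ 4 * Q z ^ 2) := by rw [hYQ]; ring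
      rw [h3, abs_mul]
      calc |ψ z| * |(b ^ 2 * t * Q z + v) ^ 2 - b ^ 4 * Q z ^ 2|
          ≤ 1 * |(b ^ 2 * t * Q z + v) ^ 2 - b ^ 4 * Q z ^ 2| :=
            mul_le_mul_of_nonneg_right (hψ1 z) (abs_nonneg _)
        _ ≤ _ := by rw [one_mul]; exact second_pt ht0 ht1 hv (hQ0 z))
  refine h1.trans ?_
  rw [ex_add hw ((bcm _ (bsq bQ)).add (bcm _ bQ)) (BM.const _),
    ex_add hw (bcm _ (bsq bQ)) (bcm _ bQ), ex_cmul, ex_cmul, ex_const hw]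
  have h2 : 0 ≤ 2 * b ^ 4 * (1 - t) := by
    have := sub_nonneg.2 ht1
    positivity
  have h3 : 0 ≤ 2 * b ^ 2 * v := by positivity
  have h4 := mul_le_mul_of_nonneg_left hq2 h2
  have h5 := mul_le_mul_of_nonneg_left hq1 h3
  linarith

/-- **The tested cubic equation for a signed weight**, from the row equation `w3`. -/
theorem el1 (hw : Wt μ w) {N T k Q Y ψ : (κ → ℝ) → ℝ} (hN : BM N) (hT : BM T) (hkb : BM k)
    (bQ : BM Q) (bY : BM Y) (hψb : BM ψ) (hψ1 : ∀ z, |ψ z| ≤ 1) (hQ0 : ∀ z, 0 ≤ Q z)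
    {b t kp : ℝ} (ht0 : 0 ≤ t) (ht1 : t ≤ 1) (hv : 0 ≤ v) (hx0 : 0 ≤ x) (hk : 0 ≤ kp)
    (hYQ : ∀ z, Y z = b ^ 2 * t * Q z + v) {rS R1 R2 R3 q1 q2 : ℝ}
    (w3 : |ex μ w (fun z => ψ z * N z ^ 2) - (kp ^ 2 * ex μ w (fun z => ψ z * Y z) -
      x * kp ^ 3 * ex μ w (fun z => ψ z * Y z ^ 2) + ex μ w (fun z => ψ z * T z))| ≤ R1)
    (hE2 : |ex μ w (fun z => ψ z * N z ^ 2) - rS * ex μ w (fun z => ψ z * Q z)| ≤ R2)
    (hC3 : ex μ w (fun z => |T z - k z ^ 2 * Q z ^ 3|) ≤ R3)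
    (hq1 : ex μ w Q ≤ q1) (hq2 : ex μ w (fun z => Q z ^ 2) ≤ q2) :
    |ex μ w (fun z => ψ z * (k z ^ 2 * Q z ^ 3 - x * kp ^ 3 * b ^ 4 * Q z ^ 2 -
        (rS - kp ^ 2 * b ^ 2 * t) * Q z + kp ^ 2 * v))| ≤
      R1 + R2 + R3 + x * kp ^ 3 * (2 * b ^ 4 * (1 - t) * q2 + 2 * b ^ 2 * v * q1 + v ^ 2) := by
  have bkQ : BM fun z => k z ^ 2 * Q z ^ 3 := (bsq hkb).mul (bm_cube bQ)
  have u1 := third_term hw hT bkQ hψb hψ1 hC3
  have u2 := second_term hw bY bQ hψb hψ1 hQ0 ht0 ht1 hv hYQ hq1 hq2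
  have u3 : ex μ w (fun z => ψ z * Y z) =
      b ^ 2 * t * ex μ w (fun z => ψ z * Q z) + v * ex μ w ψ := by
    rw [← ex_cmul, ← ex_cmul, ← ex_add hw (bcm _ (hψb.mul bQ)) (bcm v hψb)]
    congr 1
    funext z
    rw [hYQ]
    ring
  have u4 : ex μ w (fun z => ψ z * (k z ^ 2 * Q z ^ 3 - x * kp ^ 3 * b ^ 4 * Q z ^ 2 -
      (rS - kp ^ 2 * b ^ 2 * t) * Q z + kp ^ 2 * v)) =
      ex μ w (fun z => ψ z * (k z ^ 2 * Q z ^ 3)) -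
        x * kp ^ 3 * b ^ 4 * ex μ w (fun z => ψ z * Q z ^ 2) -
        (rS - kp ^ 2 * b ^ 2 * t) * ex μ w (fun z => ψ z * Q z) + kp ^ 2 * v * ex μ w ψ := by
    rw [← ex_cmul (x * kp ^ 3 * b ^ 4), ← ex_cmul (rS - kp ^ 2 * b ^ 2 * t),
      ← ex_cmul (kp ^ 2 * v),
      ← ex_sub hw (hψb.mul bkQ) (bcm _ (hψb.mul (bsq bQ))),
      ← ex_sub hw ((hψb.mul bkQ).sub (bcm _ (hψb.mul (bsq bQ)))) (bcm _ (hψb.mul bQ)),
      ← ex_add hw (((hψb.mul bkQ).sub (bcm _ (hψb.mul (bsq bQ)))).sub (bcm _ (hψb.mul bQ)))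
        (bcm _ hψb)]
    congr 1
    funext z
    ring
  have hxk : 0 ≤ x * kp ^ 3 := by positivity
  have u5 : |x * kp ^ 3 * (ex μ w (fun z => ψ z * Y z ^ 2) -
      b ^ 4 * ex μ w (fun z => ψ z * Q z ^ 2))| ≤
      x * kp ^ 3 * (2 * b ^ 4 * (1 - t) * q2 + 2 * b ^ 2 * v * q1 + v ^ 2) := by
    rw [abs_mul, abs_of_nonneg hxk]
    exact mul_le_mul_of_nonneg_left u2 hxk
  rw [u4]
  rw [u3] at w3
  generalize ex μ w (fun z => ψ z * N z ^ 2) = A1 at *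
  generalize ex μ w (fun z => ψ z * Q z) = A2 at *
  generalize ex μ w (fun z => ψ z * Y z ^ 2) = A3 at *
  generalize ex μ w (fun z => ψ z * T z) = A4 at *
  generalize ex μ w (fun z => ψ z * (k z ^ 2 * Q z ^ 3)) = A5 at *
  generalize ex μ w (fun z => ψ z * Q z ^ 2) = A6 at *
  generalize ex μ w ψ = A7 at *
  generalize x * kp ^ 3 * (2 * b ^ 4 * (1 - t) * q2 + 2 * b ^ 2 * v * q1 + v ^ 2) = B1 at *
  have e : A5 - x * kp ^ 3 * b ^ 4 * A6 - (rS - kp ^ 2 * b ^ 2 * t) * A2 + kp ^ 2 * v * A7 =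
      (A5 - A4) - (A1 - (kp ^ 2 * (b ^ 2 * t * A2 + v * A7) - x * kp ^ 3 * A3 + A4)) +
      (A1 - rS * A2) + x * kp ^ 3 * (A3 - b ^ 4 * A6) := by
    ring
  rw [e]
  rw [abs_le] at w3 hE2 u1 u5 ⊢
  constructor <;> linarith [w3.1, w3.2, hE2.1, hE2.2, u1.1, u1.2, u5.1, u5.2]

end Vale.Agent.P146.H694
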