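import Vale.Agent.P146.H694.El1
import Vale.Agent.P146.H646.W0Sk
import Vale.Agent.P146.H161.RowInst

/-!
# P146, block 12b-BRMOD: the tested cubic equation for the modulated SK system

`row_sk`: the row equation for a signed weight (`|ψ| ≤ 1`, frozen measurable) at
`K = Kset S BL FL`, `K' = Kset (insert i0 S) BL FL`; `el1_sk`: the tested cubic equation.
-/

open MeasureTheory ProbabilityTheory

namespace Vale.Agent.P146.H694

open Vale.Agent.P157.Lv Vale.Agent.P146.H196 Vale.Agent.P146.H646 Vale.Agent.P146.H615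
  Vale.Agent.P146.H347 Vale.Agent.P146.H475 Vale.Agent.P146.H161 Vale.Agent.P146.H816
  Vale.Agent.P146.H325

set_option linter.all false

variable {n : ℕ} {LB LF : Type} [Fintype LB] [DecidableEq LB] [Fintype LF] [DecidableEq LF]

section defs
variable (n) (b : ℝ) (cB : LB → ℝ) (cF : LF → ℝ) (s η lam c x : ℝ)
  (S : Finset (Fin n)) (BL : Finset LB) (FL : Finset LF)

/-- `M_j = E [⟨a σ_j⟩ | F]`. -/
noncomputable def Mj (j : Fin n) : (Co n LB LF → ℝ) → ℝ :=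
  cxS n b cB cF s η lam c x (Kset S BL FL) (avS b cB cF s η lam c (fun w => al η w.1 * sp w.2 j))

/-- `Q = |M|² / n`. -/
noncomputable def Qs (z : Co n LB LF → ℝ) : ℝ :=
  m2 S (Mj n b cB cF s η lam c x S BL FL) z / n

/-- `N = E [⟨a σ_{i0}⟩ | F']`. -/
noncomputable def Ns (i0 : Fin n) : (Co n LB LF → ℝ) → ℝ :=
  cxS n b cB cF s η lam c x (Kset (insert i0 S) BL FL)
    (avS b cB cF s η lam c (fun w => al η w.1 * sp w.2 i0))

/-- `τ = b² t / n`. -/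
noncomputable def ta : ℝ := b ^ 2 / n * ∑ l ∈ BL, cB l ^ 2

/-- `v`. -/
noncomputable def vf : ℝ := ∑ l ∈ FL, cF l ^ 2

/-- `T = E [(N - u.B)² | F]`, `u = kp (√τ M, √v)`. -/
noncomputable def Ts (kp : ℝ) (i0 : Fin n) (z : Co n LB LF → ℝ) : ℝ :=
  cxS n b cB cF s η lam c x (Kset S BL FL) (fun y =>
    (Ns n b cB cF s η lam c x S BL FL i0 y -
      lc (Rw i0 S BL FL) (cfr i0 b cB cF kp (Mj n b cB cF s η lam c x S BL FL) z) y) ^ 2) z

/-- `Y = τ |M|² + v`. -/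
noncomputable def Ys (z : Co n LB LF → ℝ) : ℝ :=
  Yf S (Mj n b cB cF s η lam c x S BL FL) (ta n b cB BL) (vf cF FL) z

/-- the thermal fluctuation of the overlap with `M` -/
noncomputable def Vs (z : Co n LB LF → ℝ) : ℝ :=
  Vt (avS b cB cF s η lam c) S (Mj n b cB cF s η lam c x S BL FL)
    (fun j w => sp w.2 j) z

end defs

/-- `T` is bounded and measurable (abstract form). -/
theorem bm_T_abs {ι : Type} [Fintype ι] [DecidableEq ι] {Ω : Type} [MeasurableSpace Ω]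
    {m : Measure Ω} {E : ι → Ω → ℝ} {M0 : ℝ} {K K' R : Finset ι} {I : Type*} {T : Finset I}
    {M : I → (ι → ℝ) → ℝ} {s : I → Ω → ℝ} {s0 a : Ω → ℝ} (hG : GM m E M0) (x : ℝ)
    (hKR : Disjoint K R) (hK : K ⊆ K') (hR : R ⊆ K')
    (hs : ∀ j, Bd (s j)) (hs0 : Bd s0) (hs1 : ∀ ω, s0 ω ^ 2 = 1) (ha : Bd a)
    (hM : ∀ j, BM (M j)) (hMd : ∀ j, H646.Dep K (M j)) (τ v kp : ℝ)
    (cf : (ι → ℝ) → ι → ℝ)
    (hY : ∀ z ω, YS R (cf z) E ω = kp * (s0 ω * (τ * ms T M s z ω + v)))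
    (hc : ∀ z, ∑ e ∈ R, cf z e ^ 2 = kp ^ 2 * Yf T M τ v z) :
    BM (fun z => cx (gg ι) K (Zxm m 1 E x) (fun y =>
        (cx (gg ι) K' (Zxm m 1 E x) (avm m 1 E (fun ω => a ω * s0 ω)) y -
          lc R (cf z) y) ^ 2) z) := by
  set w := Zxm m 1 E x with hwdef
  have hw : Wt (gg ι) w := hG.wt 1 x
  have hA := av_avm hG 1
  have bN : BM (cx (gg ι) K' w (avm m 1 E (fun ω => a ω * s0 ω))) :=
    hw.bm_cx K' (hG.bm_avm 1 (ha.mul hs0))
  set N := cx (gg ι) K' w (avm m 1 E (fun ω => a ω * s0 ω)) with hN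
  set F : (ι → ℝ) → ℝ := fun y => τ * (∑ j ∈ T, M j y * Th (avm m 1 E) x a s0 s j y) +
    v * Tf (avm m 1 E) x a s0 y with hF
  set Qf : (ι → ℝ) → ℝ := fun y => Pt (avm m 1 E) T M s τ v y -
    (1 - x) * Rt (avm m 1 E) T M s0 s τ v y ^ 2 with hQf
  have bTh : BM fun y => ∑ j ∈ T, M j y * Th (avm m 1 E) x a s0 s j y :=
    BM.sum T fun j _ => (hM j).mul (bm_Th hA hs hM ha hs0 x j)
  have bTf : BM (Tf (avm m 1 E) x a s0) := bm_Tf hA ha hs0 x
  have bF : BM F := (bcm τ bTh).add (bcm v bTf)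
  have bP : BM (Pt (avm m 1 E) T M s τ v) := bm_Pt hA hs hM τ v
  have bR : BM (fun y => Rt (avm m 1 E) T M s0 s τ v y ^ 2) := bsq (bm_Rt hA hs hM hs0 τ v)
  have bQ : BM Qf := bP.sub (bcm (1 - x) bR)
  have bYf : BM (Yf T M τ v) := bm_Y hA hs hM τ v
  have key : ∀ z, cx (gg ι) K w (fun y => N y ^ 2) z
      = 2 * (kp * cx (gg ι) K w F z) - kp ^ 2 * Yf T M τ v z
        - x * kp ^ 2 * cx (gg ι) K w Qf z
        + cx (gg ι) K w (fun y => (N y - lc R (cf z) y) ^ 2) z := by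
    intro z
    have h0 := row_star (K := K) (K' := K') (R := R) hG 1 x hKR hK hR
      (h := fun ω => a ω * s0 ω) (ha.mul hs0) (cf z) z
    have h1 : cx (gg ι) K w (rsg m 1 E x (fun ω => a ω * s0 ω) (YS R (cf z) E)) z
        = kp * cx (gg ι) K w F z := by
      rw [← cx_const_mul hw]
      refine cx_congr_glue w fun y => ?_
      exact rsg_eq hG hs hs0 hs1 ha x τ v kp z (glue K z y) (hY z)
        (fun ω => ms_glue hMd z y ω) (fun j => hMd j z y)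
    have h2 : cx (gg ι) K w (qdg m 1 E x (YS R (cf z) E)) z
        = kp ^ 2 * cx (gg ι) K w Qf z := by
      rw [← cx_const_mul hw]
      refine cx_congr_glue w fun y => ?_
      exact qdg_eq hG hs1 x τ v kp z (glue K z y) (hY z) (fun ω => ms_glue hMd z y ω)
    rw [← hwdef, ← hN, h1, h2, hc] at h0
    rw [h0]
    ring
  have bN2 : BM fun y => N y ^ 2 := bsq bN
  have bcN := hw.bm_cx K bN2
  have bcF := hw.bm_cx K bF
  have bcQ := hw.bm_cx K bQ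
  have eLT : (fun z => cx (gg ι) K w (fun y => (N y - lc R (cf z) y) ^ 2) z) =
      fun z => (cx (gg ι) K w (fun y => N y ^ 2) z
      - 2 * kp * cx (gg ι) K w F z) + kp ^ 2 * Yf T M τ v z
        + x * kp ^ 2 * cx (gg ι) K w Qf z := by
    funext z
    rw [key z]
    ring
  rw [eLT]
  exact (((bcN.sub (bcm _ bcF)).add (bcm _ bYf)).add (bcm _ bcQ))

section main

variable {b : ℝ} {cB : LB → ℝ} {cF : LF → ℝ} {s η lam c x r0 : ℝ}
  {S S1 : Finset (Fin n)} {BL : Finset LB} {FL : Finset LF} {i0 : Fin n}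

lemma d0_nonneg (hx1 : x ≤ 1) (K K1 : Finset (Co n LB LF)) (D : ℕ) :
    0 ≤ d0 n b cB cF s η lam c x r0 K K1 D := by
  unfold d0
  have : 0 ≤ 1 - x := by linarith
  positivity

lemma d0f_nonneg (hη : 0 ≤ η) (hx1 : x ≤ 1) (D : ℕ) :
    0 ≤ d0f n b cB cF s η lam c x r0 D := by
  unfold d0f
  have : 0 ≤ 1 - x := by linarith
  positivity

lemma vf_nonneg : 0 ≤ vf cF FL := Finset.sum_nonneg fun _ _ => sq_nonneg _

lemma ta_nonneg : 0 ≤ ta n b cB BL := by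
  unfold ta
  have : 0 ≤ ∑ l ∈ BL, cB l ^ 2 := Finset.sum_nonneg fun _ _ => sq_nonneg _
  positivity

variable (hl : 0 < lam) (hη : 0 ≤ η)
include hl hη

lemma wt_sk : Wt (g1 (Co n LB LF)) (wS n b cB cF s η lam c x) := wtA b cB cF s hl hη c x

lemma bm_aj (j : Fin n) : BM (avS b cB cF s η lam c (fun w : ℝ × Xs n => al η w.1 * sp w.2 j) :
    (Co n LB LF → ℝ) → ℝ) :=
  (sites_sk hl hη c b cB cF s).bm_av (gmA b cB cF s hl hη c) 1 j

lemma bm_Mj (j : Fin n) : BM (Mj n b cB cF s η lam c x S BL FL j) :=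
  (wt_sk hl hη).bm_cx _ (bm_aj hl hη j)

omit hl hη in
lemma dep_Mj (j : Fin n) : H646.Dep (Kset S BL FL) (Mj n b cB cF s η lam c x S BL FL j) := dep_cx _

lemma bm_Ns (i0 : Fin n) : BM (Ns n b cB cF s η lam c x S BL FL i0) :=
  (wt_sk hl hη).bm_cx _ (bm_aj hl hη i0)

lemma bm_Ts (hi : i0 ∉ S) (kp : ℝ) : BM (Ts n b cB cF s η lam c x S BL FL kp i0) := by
  have hR : Rw i0 S BL FL ⊆ Kset (insert i0 S) BL FL := by
    rw [← Rw_union hi]
    exact Finset.subset_union_right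
  have hKK : Kset S BL FL ⊆ Kset (LB := LB) (LF := LF) (insert i0 S) BL FL :=
    Kset_mono (Finset.subset_insert i0 S) (Finset.Subset.refl _) (Finset.Subset.refl _)
  have h1 : ∀ j : Fin n, Bd fun ω : ℝ × Xs n => sp ω.2 j := fun j => bm_sp j
  have h2 : Bd fun ω : ℝ × Xs n => al η ω.1 := bm_of_al (n := n) hη
  have h3 : ∀ ω : ℝ × Xs n, (fun ω : ℝ × Xs n => sp ω.2 i0) ω ^ 2 = 1 := fun ω => by
    show sp ω.2 i0 ^ 2 = 1
    rw [sq]
    exact sp_mul_self ω.2 i0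
  exact bm_T_abs (T := S) (M := Mj n b cB cF s η lam c x S BL FL)
    (s := fun j (ω : ℝ × Xs n) => sp ω.2 j)
    (s0 := fun ω : ℝ × Xs n => sp ω.2 i0) (a := fun ω : ℝ × Xs n => al η ω.1)
    (gmA (n := n) b cB cF s hl hη c) x (Rw_disj hi) hKK hR
    h1 (h1 i0) h3 h2 (bm_Mj hl hη) dep_Mj (b ^ 2 / n * ∑ l ∈ BL, cB l ^ 2) (∑ l ∈ FL, cF l ^ 2) kp
    (cfr i0 b cB cF kp (Mj n b cB cF s η lam c x S BL FL))
    (fun z ω => ys_cfr b cB cF s η BL FL hi kp _ z ω)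
    (fun z => sq_cfr b cB cF BL FL hi kp _ z)

/-- **The row equation for a signed weight.** -/
theorem row_sk (hs : s ≠ 0) (hx0 : 0 ≤ x) (hx1 : x < 1)
    (hc : c = s ^ 2 * n * (1 - (1 - x) * r0)) (hk : 0 ≤ 1 - (1 - x) * r0)
    (hS : S ⊆ S1) (hi0 : i0 ∉ S) (hne : (S1 \ S).Nonempty)
    {m1 Y2 DV Y2m Ym2 : ℝ}
    (hm1 : exS n b cB cF s η lam c x (m2 S (Mj n b cB cF s η lam c x S BL FL)) ≤ m1)
    (hY2 : exS n b cB cF s η lam c x (fun z => Ys n b cB cF s η lam c x S BL FL z ^ 2) ≤ Y2)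
    (hDV : ta n b cB BL ^ 2 * exS n b cB cF s η lam c x (Vs n b cB cF s η lam c x S BL FL) ≤ DV)
    (hY2m : exS n b cB cF s η lam c x (fun z => Ys n b cB cF s η lam c x S BL FL z ^ 2 *
      m2 S (Mj n b cB cF s η lam c x S BL FL) z) ≤ Y2m)
    (hYm2 : exS n b cB cF s η lam c x (fun z => (Ys n b cB cF s η lam c x S BL FL z *
      m2 S (Mj n b cB cF s η lam c x S BL FL) z) ^ 2) ≤ Ym2)
    {ψ : (Co n LB LF → ℝ) → ℝ} (hψ : H646.Dep (Kset S BL FL) ψ) (hψb : BM ψ)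
    (hψ1 : ∀ z, |ψ z| ≤ 1) :
    |exS n b cB cF s η lam c x (fun z => ψ z * Ns n b cB cF s η lam c x S BL FL i0 z ^ 2) -
      ((1 - (1 - x) * r0) ^ 2 * exS n b cB cF s η lam c x
        (fun z => ψ z * Ys n b cB cF s η lam c x S BL FL z) -
      x * (1 - (1 - x) * r0) ^ 3 * exS n b cB cF s η lam c x
        (fun z => ψ z * Ys n b cB cF s η lam c x S BL FL z ^ 2) +
      exS n b cB cF s η lam c x (fun z => ψ z *
        Ts n b cB cF s η lam c x S BL FL (1 - (1 - x) * r0) i0 z))| ≤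
      3 * RA (1 - (1 - x) * r0) (ta n b cB BL) (vf cF FL)
        (d0 n b cB cF s η lam c x r0 (Kset S BL FL) (Kset S1 BL FL) (S1 \ S).card)
        (d0f n b cB cF s η lam c x r0 (S1 \ S).card) x η m1 Y2 DV Y2m Ym2 := by
  have hw := wt_sk (n := n) (LB := LB) (LF := LF) (b := b) (cB := cB) (cF := cF) (s := s)
    (c := c) (x := x) hl hη
  have hG := gmA (n := n) b cB cF s hl hη c
  have hA := av_avm hG 1
  refine row_signed (S := S) (M := Mj n b cB cF s η lam c x S BL FL)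
    (s := fun j (w : ℝ × Xs n) => sp w.2 j) (s0 := fun w : ℝ × Xs n => sp w.2 i0)
    (a := fun w : ℝ × Xs n => al η w.1) hw hA (fun j => bm_sp j) (bm_Mj hl hη) dep_Mj
    (bm_of_al hη) (fun w => abs_al_sub hη w.1) hη ta_nonneg vf_nonneg (bm_sp i0)
    (fun w => abs_sp_le w.2 i0) ?_ hx0 hx1.le hk (d0_nonneg hx1.le _ _ _)
    (d0f_nonneg hη hx1.le _) ?_ ?_ (bm_Ns hl hη i0) (bm_Ts hl hη hi0 _) hm1 hY2 hDV hY2m hYm2 ?_ hψ hψb hψ1
  · intro j g hg hgb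
    exact ex_mul_cx hw hg hgb (bm_aj hl hη j)
  · intro g hg hgb
    exact i2_sk hl hη hs hx0 hx1 hc b cB cF BL FL hS hi0 hne hg hgb
  · intro g hg hgb
    exact i2f_sk hl hη hs hx0 hx1 hc b cB cF BL FL hS hi0 hne hg hgb
  · intro φ hφ hφb
    exact hstar_kset b cB cF s BL FL hl hη c x hi0 (Mj n b cB cF s η lam c x S BL FL)
      (bm_Mj hl hη) dep_Mj (1 - (1 - x) * r0) hφ hφb rfl rfl rfl rfl rfl rfl rfl

end main

end Vale.Agent.P146.H694
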