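import Vale.Agent.P146.H694.K6n
import Vale.Agent.P146.H412.K8
import Vale.Agent.P146.H9.Mono
import Vale.Agent.P146.H205.N4M
import Vale.Agent.P146.H615.Gg

/-!
# P146, K6: the a-priori numbers of the cubic equation at one revealed set

`U` : `ex Q⁴ ≤ U⁴` and `R2 ≤ (n U)²`.
-/

open MeasureTheory ProbabilityTheory

namespace Vale.Agent.P146.H694

open Vale.Agent.P157.Lv Vale.Agent.P146.H196 Vale.Agent.P146.H646 Vale.Agent.P146.H615
  Vale.Agent.P146.H347 Vale.Agent.P146.H475 Vale.Agent.P146.H161 Vale.Agent.P146.H816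
  Vale.Agent.P146.H325

set_option linter.all false

section gen

variable {κ : Type} [Fintype κ] [DecidableEq κ] {μ : κ → Measure ℝ}
  [∀ e, IsProbabilityMeasure (μ e)] {w : (κ → ℝ) → ℝ}

lemma bm_pow4 {Q : (κ → ℝ) → ℝ} (bQ : BM Q) : BM fun z => Q z ^ 4 := by
  have := bsq (bsq bQ)
  refine (show (fun z => (Q z ^ 2) ^ 2) = fun z => Q z ^ 4 from ?_) ▸ this
  funext z; ring

/-- the lower moments from the fourth one -/
lemma mom_lower (hw : Wt μ w) {Q : (κ → ℝ) → ℝ} (bQ : BM Q) (hQ0 : ∀ z, 0 ≤ Q z) {U : ℝ}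
    (hU : 0 < U) (h4 : ex μ w (fun z => Q z ^ 4) ≤ U ^ 4) :
    ex μ w Q ≤ U ∧ ex μ w (fun z => Q z ^ 2) ≤ U ^ 2 ∧ ex μ w (fun z => Q z ^ 3) ≤ U ^ 3 := by
  have b4 := bm_pow4 bQ
  refine ⟨?_, ?_, ?_⟩
  · have h1 : ex μ w Q ≤ ex μ w (fun z => 1 / (4 * U ^ 3) * Q z ^ 4 + 3 / 4 * U) := by
      refine ex_mono hw bQ ((bcm _ b4).add (BM.const _)) fun z => ?_
      have h0 := hQ0 z
      have h2 : 4 * U ^ 3 * Q z ≤ Q z ^ 4 + 3 * U ^ 4 := by
        nlinarith [sq_nonneg (Q z - U), sq_nonneg (Q z + U), sq_nonneg (Q z ^ 2 - U ^ 2),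
          mul_nonneg h0 hU.le, sq_nonneg (Q z ^ 2 - U * Q z), sq_nonneg (U ^ 2 - U * Q z)]
      have h3 : 1 / (4 * U ^ 3) * Q z ^ 4 + 3 / 4 * U = (Q z ^ 4 + 3 * U ^ 4) / (4 * U ^ 3) := by
        field_simp
      rw [h3, le_div_iff₀ (by positivity)]
      linarith
    rw [ex_add hw (bcm _ b4) (BM.const _), ex_cmul, ex_const hw] at h1
    have h5 : 1 / (4 * U ^ 3) * ex μ w (fun z => Q z ^ 4) ≤ 1 / (4 * U ^ 3) * U ^ 4 :=
      mul_le_mul_of_nonneg_left h4 (by positivity)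
    have h6 : 1 / (4 * U ^ 3) * U ^ 4 = 1 / 4 * U := by field_simp
    linarith
  · have h1 : ex μ w (fun z => Q z ^ 2) ≤
        ex μ w (fun z => 1 / (2 * U ^ 2) * Q z ^ 4 + 1 / 2 * U ^ 2) := by
      refine ex_mono hw (bsq bQ) ((bcm _ b4).add (BM.const _)) fun z => ?_
      have h2 : 2 * U ^ 2 * Q z ^ 2 ≤ Q z ^ 4 + U ^ 4 := by nlinarith [sq_nonneg (Q z ^ 2 - U ^ 2)]
      have h3 : 1 / (2 * U ^ 2) * Q z ^ 4 + 1 / 2 * U ^ 2 = (Q z ^ 4 + U ^ 4) / (2 * U ^ 2) := by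
        field_simp
      rw [h3, le_div_iff₀ (by positivity)]
      linarith
    rw [ex_add hw (bcm _ b4) (BM.const _), ex_cmul, ex_const hw] at h1
    have h5 : 1 / (2 * U ^ 2) * ex μ w (fun z => Q z ^ 4) ≤ 1 / (2 * U ^ 2) * U ^ 4 :=
      mul_le_mul_of_nonneg_left h4 (by positivity)
    have h6 : 1 / (2 * U ^ 2) * U ^ 4 = 1 / 2 * U ^ 2 := by field_simp
    linarith
  · have h1 : ex μ w (fun z => Q z ^ 3) ≤
        ex μ w (fun z => 3 / (4 * U) * Q z ^ 4 + 1 / 4 * U ^ 3) := by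
      refine ex_mono hw (bm_cube bQ) ((bcm _ b4).add (BM.const _)) fun z => ?_
      have h0 := hQ0 z
      have h2 : 4 * U * Q z ^ 3 ≤ 3 * Q z ^ 4 + U ^ 4 := by
        nlinarith [sq_nonneg (Q z - U), sq_nonneg (Q z + U), sq_nonneg (Q z ^ 2 - U ^ 2),
          mul_nonneg h0 hU.le, sq_nonneg (Q z ^ 2 - U * Q z), sq_nonneg (U ^ 2 - U * Q z)]
      have h3 : 3 / (4 * U) * Q z ^ 4 + 1 / 4 * U ^ 3 = (3 * Q z ^ 4 + U ^ 4) / (4 * U) := by
        field_simp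
      rw [h3, le_div_iff₀ (by positivity)]
      linarith
    rw [ex_add hw (bcm _ b4) (BM.const _), ex_cmul, ex_const hw] at h1
    have h5 : 3 / (4 * U) * ex μ w (fun z => Q z ^ 4) ≤ 3 / (4 * U) * U ^ 4 :=
      mul_le_mul_of_nonneg_left h4 (by positivity)
    have h6 : 3 / (4 * U) * U ^ 4 = 3 / 4 * U ^ 3 := by field_simp
    linarith

/-- `ex √f ≤ √(ex f)` -/
lemma ex_sqrt_le (hw : Wt μ w) {f : (κ → ℝ) → ℝ} (bf : BM f) (h0 : ∀ z, 0 ≤ f z) :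
    ex μ w (fun z => √(f z)) ≤ √(ex μ w f) := by
  have h1 := abs_ex_mul_le hw (bm_sqrt bf) (BM.const 1)
  have e1 : (fun z => √(f z) * 1) = fun z => √(f z) := by funext z; ring
  have e2 : (fun z => √(f z) ^ 2) = f := by funext z; rw [Real.sq_sqrt (h0 z)]
  rw [e1, e2] at h1
  have e3 : ex μ w (fun _ => (1 : ℝ) ^ 2) = 1 := by rw [one_pow]; exact ex_const hw 1
  rw [e3, Real.sqrt_one, mul_one] at h1
  exact (le_abs_self _).trans h1

end gen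

variable {n : ℕ} {LB LF : Type} [Fintype LB] [DecidableEq LB] [Fintype LF] [DecidableEq LF]

section d0

lemma num_a {E r D U h n : ℝ} (hn : 0 < n) (hD : 0 < D) (hU : 0 ≤ U) (hh : 1 / √D ≤ h)
    (hh0 : 0 ≤ h) (hE0 : 0 ≤ E) (hE : E ≤ 9 / 4) (hr0 : 0 ≤ r) (hr : r ≤ n * U) :
    √(8 * E * r / D) ≤ √n * (9 / 2 * (√U * h)) := by
  rw [Real.sqrt_le_left (by positivity), mul_pow, mul_pow, mul_pow, Real.sq_sqrt hn.le,
    Real.sq_sqrt hU]
  have h1 : 1 / D ≤ h ^ 2 := by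
    have h2 := pow_le_pow_left₀ (by positivity) hh 2
    rwa [div_pow, one_pow, Real.sq_sqrt hD.le] at h2
  calc 8 * E * r / D = 8 * E * r * (1 / D) := by ring
    _ ≤ 8 * (9 / 4) * (n * U) * h ^ 2 := by gcongr
    _ = 18 * (n * U * h ^ 2) := by ring
    _ ≤ 81 / 4 * (n * U * h ^ 2) := mul_le_mul_of_nonneg_right (by norm_num) (by positivity)
    _ = _ := by ring

lemma num_b {x G r g U p P n E : ℝ} (hn : 0 < n) (hx0 : 0 ≤ x) (hx1 : x < 1) (hU : 0 ≤ U)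
    (hG0 : 0 ≤ G) (hG : G ≤ g) (hr0 : 0 ≤ r) (hr : r ≤ n * U) (hE0 : 0 ≤ E) (hE : E ≤ 3)
    (hp : 0 ≤ p) (hP0 : 0 ≤ P) (hP : P ≤ p ^ 2) :
    (1 - x) * √(2 * (G / (1 - x)) ^ 2 * r + 2 * (n * E ^ 2 * P)) ≤
      √n * (3 / 2 * (√U * g) + 9 / 2 * p) := by
  have hg0 : 0 ≤ g := hG0.trans hG
  have hx2 : 0 < 1 - x := by linarith only [hx1]
  have hx3 : 1 - x ≤ 1 := by linarith only [hx0]
  have e0 : (1 - x) * √(2 * (G / (1 - x)) ^ 2 * r + 2 * (n * E ^ 2 * P)) =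
      √(2 * G ^ 2 * r + 2 * (n * E ^ 2 * P) * (1 - x) ^ 2) := by
    have e1 : 2 * G ^ 2 * r + 2 * (n * E ^ 2 * P) * (1 - x) ^ 2 =
        (1 - x) ^ 2 * (2 * (G / (1 - x)) ^ 2 * r + 2 * (n * E ^ 2 * P)) := by
      field_simp
    rw [e1, Real.sqrt_mul (sq_nonneg _), Real.sqrt_sq hx2.le]
  rw [e0, Real.sqrt_le_left (by positivity)]
  have hx4 : (1 - x) ^ 2 ≤ 1 := pow_le_one₀ hx2.le hx3
  calc 2 * G ^ 2 * r + 2 * (n * E ^ 2 * P) * (1 - x) ^ 2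
      ≤ 2 * g ^ 2 * (n * U) + 2 * (n * 3 ^ 2 * p ^ 2) * 1 := by gcongr
    _ = 2 * (n * (U * g ^ 2)) + 18 * (n * p ^ 2) := by ring
    _ ≤ 9 / 4 * (n * (U * g ^ 2)) + 27 / 2 * (n * (√U * g * p)) + 81 / 4 * (n * p ^ 2) := by
        have a1 : 0 ≤ n * (U * g ^ 2) := by positivity
        have a2 : 0 ≤ n * (√U * g * p) := by positivity
        have a3 : 0 ≤ n * p ^ 2 := by positivity
        linarith only [a1, a2, a3]
    _ = √n ^ 2 * (9 / 4 * (√U ^ 2 * g ^ 2) + 27 / 2 * (√U * g * p) + 81 / 4 * p ^ 2) := by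
        rw [Real.sq_sqrt hn.le, Real.sq_sqrt hU]
        ring
    _ = _ := by ring

variable {b : ℝ} {cB : LB → ℝ} {cF : LF → ℝ} {s η lam c x r0 U h g p : ℝ}
  {K K1 : Finset (Co n LB LF)} {D : ℕ}

lemma d0_num (hn : 0 < n) (hs : s ≠ 0) (hlam : 0 < lam) (hη : 0 ≤ η) (hη1 : η ≤ 1 / 2)
    (hx0 : 0 ≤ x) (hx1 : x < 1) (hr0 : |r0| ≤ 1) (hU : 0 ≤ U) (hD : 0 < D)
    (hh : 1 / √(D : ℝ) ≤ h) (hg : lam / (s ^ 2 * n) ≤ g) (hp : 0 ≤ p)
    (hR : R2 n b cB cF s η lam c x K ≤ (n * U) ^ 2)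
    (hR1 : R2 n b cB cF s η lam c x K1 ≤ (n * U) ^ 2)
    (hP0 : 0 ≤ Pst n b cB cF s η lam c x) (hP : Pst n b cB cF s η lam c x ≤ p ^ 2) :
    d0 n b cB cF s η lam c x r0 K K1 D ≤ √n * (5 * (√U * (h + g) + p)) := by
  have hn' : (0 : ℝ) < n := Nat.cast_pos.2 hn
  have hD' : (0 : ℝ) < D := Nat.cast_pos.2 hD
  have hsD : 0 < √(D : ℝ) := Real.sqrt_pos.2 hD'
  have hh0 : 0 ≤ h := le_trans (by positivity) hh
  have hs2 : 0 < s ^ 2 := by positivity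
  have hg0 : 0 ≤ lam / (s ^ 2 * n) := by positivity
  have hnU : 0 ≤ (n : ℝ) * U := by positivity
  have q1 : √(R2 n b cB cF s η lam c x K1) ≤ n * U :=
    (Real.sqrt_le_sqrt hR1).trans (le_of_eq (Real.sqrt_sq hnU))
  have q2 : √(R2 n b cB cF s η lam c x K) ≤ n * U :=
    (Real.sqrt_le_sqrt hR).trans (le_of_eq (Real.sqrt_sq hnU))
  have hη2 : (1 + η) ^ 2 ≤ 9 / 4 := by nlinarith only [hη, hη1]
  have hr : (|r0| + 1) * (1 + η) ≤ 3 := by
    calc (|r0| + 1) * (1 + η) ≤ (1 + 1) * (1 + 1 / 2) := by gcongr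
      _ = 3 := by norm_num
  have hr' : 0 ≤ (|r0| + 1) * (1 + η) := by positivity
  have k1 := num_a (h := h) hn' hD' hU hh hh0 (sq_nonneg (1 + η)) hη2 (Real.sqrt_nonneg _) q1
  have k2 := num_b (g := g) hn' hx0 hx1 hU hg0 hg (Real.sqrt_nonneg _) q2 hr' hr hp hP0 hP
  have e1 : lam / ((1 - x) * (s ^ 2 * n)) = (lam / (s ^ 2 * n)) / (1 - x) := by
    rw [div_div, mul_comm (1 - x)]
  unfold d0
  rw [e1]
  refine (add_le_add k1 k2).trans ?_
  rw [← mul_add]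
  refine mul_le_mul_of_nonneg_left ?_ (Real.sqrt_nonneg _)
  have a1 : 0 ≤ √U * h := by positivity
  have a2 : 0 ≤ √U * g := mul_nonneg (Real.sqrt_nonneg _) (hg0.trans hg)
  linarith only [a1, a2, hp]

lemma d0f_num (hn : 0 < n) (hs : s ≠ 0) (hlam : 0 < lam) (hη : 0 ≤ η) (hη1 : η ≤ 1 / 2)
    (hx0 : 0 ≤ x) (hx1 : x < 1) (hr0 : |r0| ≤ 1) (hk0 : 0 ≤ 1 - (1 - x) * r0)
    (hk1 : 1 - (1 - x) * r0 ≤ 1) (hD : 0 < D)
    (hh : 1 / √(D : ℝ) ≤ h) (hg : lam / (s ^ 2 * n) ≤ g) (hp : 0 ≤ p)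
    (hP0 : 0 ≤ Pst n b cB cF s η lam c x) (hP : Pst n b cB cF s η lam c x ≤ p ^ 2) :
    H646.d0f n b cB cF s η lam c x r0 D ≤ 5 * (h + g + p) + η := by
  have hn' : (0 : ℝ) < n := Nat.cast_pos.2 hn
  have hD' : (0 : ℝ) < D := Nat.cast_pos.2 hD
  have hsD : 0 < √(D : ℝ) := Real.sqrt_pos.2 hD'
  have hh0 : 0 ≤ h := le_trans (by positivity) hh
  have hs2 : 0 < s ^ 2 := by positivity
  have hg0 : 0 ≤ lam / (s ^ 2 * n) := by positivity
  have hη2 : (1 + η) ^ 2 ≤ 9 / 4 := by nlinarith only [hη, hη1]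
  have hr : (|r0| + 1) * (1 + η) ≤ 3 := by
    calc (|r0| + 1) * (1 + η) ≤ (1 + 1) * (1 + 1 / 2) := by gcongr
      _ = 3 := by norm_num
  have hr' : 0 ≤ (|r0| + 1) * (1 + η) := by positivity
  have k1 := num_a (r := 1) (U := 1) (n := 1) (h := h) one_pos hD' zero_le_one hh hh0
    (sq_nonneg (1 + η)) hη2 zero_le_one (by norm_num)
  have k2 := num_b (r := 1) (U := 1) (n := 1) (g := g) one_pos hx0 hx1 zero_le_one hg0 hg
    zero_le_one (by norm_num) hr' hr hp hP0 hP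
  have e1 : lam / ((1 - x) * (s ^ 2 * n)) = (lam / (s ^ 2 * n)) / (1 - x) := by
    rw [div_div, mul_comm (1 - x)]
  have k3 : |1 - (1 - x) * r0| * η ≤ η := by
    rw [abs_of_nonneg hk0]
    exact mul_le_of_le_one_left hη hk1
  unfold H646.d0f
  rw [e1]
  simp only [mul_one, one_mul, Real.sqrt_one] at k1 k2
  have g0 : 0 ≤ g := hg0.trans hg
  linarith only [k1, k2, k3, hh0, g0, hp]

end d0

section main

variable {b : ℝ} {cB : LB → ℝ} {cF : LF → ℝ} {s η lam c x : ℝ}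
  {S : Finset (Fin n)} {BL : Finset LB} {FL : Finset LF} {i0 : Fin n} {U : ℝ}

/-- the two point functions of the spins -/
lemma R2_ex (hl : 0 < lam) (hη : 0 ≤ η) (K : Finset (Co n LB LF)) :
    R2 n b cB cF s η lam c x K = exS n b cB cF s η lam c x (fun z =>
      ∑ a ∈ (Finset.univ : Finset (Fin n × Fin n)), cxS n b cB cF s η lam c x K
        (avS b cB cF s η lam c (fun w => sp w.2 a.1 * sp w.2 a.2)) z ^ 2) := by
  have hG := gmA (n := n) b cB cF s hl hη c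
  have hw := wt_sk (n := n) (LB := LB) (LF := LF) (b := b) (cB := cB) (cF := cF) (s := s)
    (c := c) (x := x) hl hη
  have bX : ∀ a : Fin n × Fin n, BM (avS (LB := LB) (LF := LF) b cB cF s η lam c
      (fun w : ℝ × Xs n => sp w.2 a.1 * sp w.2 a.2)) := fun a =>
    hG.bm_avm 1 ((bm_sp a.1).mul (bm_sp a.2))
  have e := ex_sum hw (Finset.univ : Finset (Fin n × Fin n)) (f := fun a z =>
    cxS n b cB cF s η lam c x K
      (avS b cB cF s η lam c (fun w => sp w.2 a.1 * sp w.2 a.2)) z ^ 2)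
    fun a _ => bsq (hw.bm_cx K (bX a))
  refine Eq.trans ?_ e.symm
  unfold R2
  rw [← Finset.univ_product_univ, Finset.sum_product]

lemma R2_mono (hl : 0 < lam) (hη : 0 ≤ η) {K K' : Finset (Co n LB LF)} (hK : K ⊆ K') :
    R2 n b cB cF s η lam c x K ≤ R2 n b cB cF s η lam c x K' := by
  have hG := gmA (n := n) b cB cF s hl hη c
  have hw := wt_sk (n := n) (LB := LB) (LF := LF) (b := b) (cB := cB) (cF := cF) (s := s)
    (c := c) (x := x) hl hη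
  rw [R2_ex hl hη, R2_ex hl hη]
  exact H9.ex_s2_mono hw hK _ fun a _ => hG.bm_avm 1 ((bm_sp a.1).mul (bm_sp a.2))

lemma ex_q2_le (hl : 0 < lam) (hη : 0 ≤ η) (S : Finset (Fin n)) (K : Finset (Co n LB LF)) :
    exS n b cB cF s η lam c x (H205.q2 n b cB cF s η lam c S K (wS n b cB cF s η lam c x)) ≤
      R2 n b cB cF s η lam c x K := by
  have hG := gmA (n := n) b cB cF s hl hη c
  have hw := wt_sk (n := n) (LB := LB) (LF := LF) (b := b) (cB := cB) (cF := cF) (s := s)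
    (c := c) (x := x) hl hη
  have bX : ∀ a : Fin n × Fin n, BM (avS (LB := LB) (LF := LF) b cB cF s η lam c
      (fun w : ℝ × Xs n => sp w.2 a.1 * sp w.2 a.2)) := fun a =>
    hG.bm_avm 1 ((bm_sp a.1).mul (bm_sp a.2))
  rw [R2_ex hl hη]
  have e : H205.q2 n b cB cF s η lam c S K (wS n b cB cF s η lam c x) = fun z =>
      ∑ a ∈ S ×ˢ S, cxS n b cB cF s η lam c x K
        (avS b cB cF s η lam c (fun w => sp w.2 a.1 * sp w.2 a.2)) z ^ 2 := by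
    funext z
    unfold H205.q2
    rw [Finset.sum_product]
  rw [e]
  refine ex_mono hw (BM.sum _ fun a _ => bsq (hw.bm_cx K (bX a)))
    (BM.sum _ fun a _ => bsq (hw.bm_cx K (bX a))) fun z => ?_
  exact Finset.sum_le_sum_of_subset_of_nonneg (Finset.subset_univ _) fun _ _ _ => sq_nonneg _

lemma ex_q1_le (hl : 0 < lam) (hη : 0 ≤ η) (S : Finset (Fin n)) (K : Finset (Co n LB LF)) :
    exS n b cB cF s η lam c x (H205.q1 n b cB cF s η lam c S K (wS n b cB cF s η lam c x)) ≤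
      √(R2 n b cB cF s η lam c x K) := by
  have hG := gmA (n := n) b cB cF s hl hη c
  have hw := wt_sk (n := n) (LB := LB) (LF := LF) (b := b) (cB := cB) (cF := cF) (s := s)
    (c := c) (x := x) hl hη
  have bX : ∀ j l : Fin n, BM (avS (LB := LB) (LF := LF) b cB cF s η lam c
      (fun w : ℝ × Xs n => sp w.2 j * sp w.2 l)) := fun j l =>
    hG.bm_avm 1 ((bm_sp j).mul (bm_sp l))
  have b2 : BM (H205.q2 n b cB cF s η lam c S K (wS n b cB cF s η lam c x)) :=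
    BM.sum _ fun j _ => BM.sum _ fun l _ => bsq (hw.bm_cx K (bX j l))
  have b1 : BM (H205.q1 n b cB cF s η lam c S K (wS n b cB cF s η lam c x)) :=
    BM.sum _ fun j _ => bsq (hw.bm_cx K (hG.bm_avm 1 (bm_sp j)))
  have h20 : ∀ z, 0 ≤ H205.q2 n b cB cF s η lam c S K (wS n b cB cF s η lam c x) z := fun z =>
    Finset.sum_nonneg fun _ _ => Finset.sum_nonneg fun _ _ => sq_nonneg _
  have h1 : ∀ z, H205.q1 n b cB cF s η lam c S K (wS n b cB cF s η lam c x) z ≤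
      √(H205.q2 n b cB cF s η lam c S K (wS n b cB cF s η lam c x) z) := by
    intro z
    have h2 := H347.amp_sq_le b cB cF s hl hη c x K S (h := fun _ : ℝ × Xs n => (1 : ℝ))
      (Bm.const 1) (C := 1) (fun _ => by norm_num) zero_le_one z
    rw [← H347.mo_two_cx b cB cF s hl hη c x K S z, one_pow, one_mul] at h2
    refine le_trans (le_of_eq ?_) h2
    unfold H205.q1
    refine Finset.sum_congr rfl fun j _ => ?_
    have e1 : (fun w : ℝ × Xs n => (fun _ : ℝ × Xs n => (1 : ℝ)) w * sp w.2 j) =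
        fun w => sp w.2 j := by
      funext w
      exact one_mul _
    rw [e1]
  refine (ex_mono hw b1 (bm_sqrt b2) h1).trans ((ex_sqrt_le hw b2 h20).trans ?_)
  exact Real.sqrt_le_sqrt (ex_q2_le hl hη S K)

lemma num_n4 {τ v q2 q1 n b U E : ℝ} (hn : 0 < n) (hτ0 : 0 ≤ τ) (hτ : τ ≤ b ^ 2 / n)
    (hv : 0 ≤ v) (hU : 0 ≤ U) (hE0 : 0 ≤ E) (hE : E ≤ 81 / 16) (h20 : 0 ≤ q2)
    (h2 : q2 ≤ (n * U) ^ 2) (h10 : 0 ≤ q1) (h1 : q1 ≤ n * U) :
    10368 * E * (τ ^ 2 * q2 + 2 * τ * v * q1 + v ^ 2) ≤ (230 * (b ^ 2 * U + v)) ^ 2 := by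
  calc 10368 * E * (τ ^ 2 * q2 + 2 * τ * v * q1 + v ^ 2)
      ≤ 10368 * (81 / 16) * ((b ^ 2 / n) ^ 2 * (n * U) ^ 2 + 2 * (b ^ 2 / n) * v * (n * U) +
        v ^ 2) := by gcongr
    _ = 52488 * (b ^ 2 * U + v) ^ 2 := by
        field_simp
        ring
    _ ≤ 52900 * (b ^ 2 * U + v) ^ 2 :=
        mul_le_mul_of_nonneg_right (by norm_num) (sq_nonneg _)
    _ = _ := by ring

/-- the moments of the magnetisation of the next site -/
lemma nmom (hl : 0 < lam) (hη : 0 ≤ η) (hη1 : η ≤ 1 / 2) (hi : i0 ∉ S) (hx0 : 0 ≤ x)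
    (hx1 : x ≤ 1) (hx : x ^ 2 * (b ^ 2 * ∑ l ∈ BL, cB l ^ 2 + ∑ l ∈ FL, cF l ^ 2) ≤ 1 / 4)
    (ht1 : ∑ l ∈ BL, cB l ^ 2 ≤ 1) (hU : 0 ≤ U)
    (hR : R2 n b cB cF s η lam c x (Kset Finset.univ BL FL) ≤ (n * U) ^ 2) :
    √(exS n b cB cF s η lam c x (fun z => Ns n b cB cF s η lam c x S BL FL i0 z ^ 4)) ≤
        230 * (b ^ 2 * U + vf cF FL) ∧
      exS n b cB cF s η lam c x (fun z => Ns n b cB cF s η lam c x S BL FL i0 z ^ 2) ≤
        230 * (b ^ 2 * U + vf cF FL) := by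
  have hw := wt_sk (n := n) (LB := LB) (LF := LF) (b := b) (cB := cB) (cF := cF) (s := s)
    (c := c) (x := x) hl hη
  have hn : 0 < n := (Fin.pos_iff_nonempty.2 ⟨i0⟩)
  have hn' : (0 : ℝ) < n := Nat.cast_pos.2 hn
  have hnU : 0 ≤ (n : ℝ) * U := by positivity
  have hKK : Kset (insert i0 S) BL FL ⊆ Kset (LB := LB) (LF := LF) Finset.univ BL FL :=
    Kset_mono (Finset.subset_univ _) (Finset.Subset.refl _) (Finset.Subset.refl _)
  have hR' : R2 n b cB cF s η lam c x (Kset (insert i0 S) BL FL) ≤ (n * U) ^ 2 :=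
    (R2_mono hl hη hKK).trans hR
  have h1 := H205.n4M (n := n) (b := b) (cB := cB) (cF := cF) (s := s) (η := η) (lam := lam)
    (c := c) (x := x) hl hη hi BL FL hx0 hx1 hx
  have hq2 := (ex_q2_le (b := b) (cB := cB) (cF := cF) (s := s) (c := c) (x := x) hl hη S
    (Kset (insert i0 S) BL FL)).trans hR'
  have hq1 : exS n b cB cF s η lam c x (H205.q1 n b cB cF s η lam c S
      (Kset (insert i0 S) BL FL) (wS n b cB cF s η lam c x)) ≤ n * U :=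
    (ex_q1_le (b := b) (cB := cB) (cF := cF) (s := s) (c := c) (x := x) hl hη S
      (Kset (insert i0 S) BL FL)).trans
        ((Real.sqrt_le_sqrt hR').trans (le_of_eq (Real.sqrt_sq hnU)))
  have hv0 : 0 ≤ vf cF FL := vf_nonneg
  have hτ0 : 0 ≤ b ^ 2 / n * ∑ l ∈ BL, cB l ^ 2 := ta_nonneg
  have hτ : b ^ 2 / n * ∑ l ∈ BL, cB l ^ 2 ≤ b ^ 2 / n := mul_le_of_le_one_right (by positivity) ht1
  have h4 : exS n b cB cF s η lam c x (fun z => Ns n b cB cF s η lam c x S BL FL i0 z ^ 4) ≤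
      (230 * (b ^ 2 * U + vf cF FL)) ^ 2 := by
    refine h1.trans ?_
    have e1 : (1 + η) ^ 4 ≤ 81 / 16 := by
      calc (1 + η) ^ 4 ≤ (1 + 1 / 2) ^ 4 := by gcongr
        _ = _ := by norm_num
    exact num_n4 hn' hτ0 hτ hv0 hU (by positivity) e1 (ex_nonneg hw fun z =>
      Finset.sum_nonneg fun _ _ => Finset.sum_nonneg fun _ _ => sq_nonneg _) hq2
      (ex_nonneg hw fun z => Finset.sum_nonneg fun _ _ => sq_nonneg _) hq1
  have hW0 : 0 ≤ 230 * (b ^ 2 * U + vf cF FL) := by positivity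
  have h5 : √(exS n b cB cF s η lam c x (fun z =>
      Ns n b cB cF s η lam c x S BL FL i0 z ^ 4)) ≤ 230 * (b ^ 2 * U + vf cF FL) :=
    (Real.sqrt_le_sqrt h4).trans (le_of_eq (Real.sqrt_sq hW0))
  refine ⟨h5, le_trans ?_ h5⟩
  have h6 := ex_sqrt_le hw (f := fun z => Ns n b cB cF s η lam c x S BL FL i0 z ^ 4)
    (bm_pow4 (bm_Ns hl hη i0)) fun z => by positivity
  have e2 : (fun z => √(Ns n b cB cF s η lam c x S BL FL i0 z ^ 4)) =
      fun z => Ns n b cB cF s η lam c x S BL FL i0 z ^ 2 := by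
    funext z
    rw [show Ns n b cB cF s η lam c x S BL FL i0 z ^ 4 =
      (Ns n b cB cF s η lam c x S BL FL i0 z ^ 2) ^ 2 by ring]
    exact Real.sqrt_sq (sq_nonneg _)
  rw [e2] at h6
  exact h6

end main

end Vale.Agent.P146.H694
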