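import Vale.Agent.P146.H694.K6a
import Vale.Agent.P146.H205.E2

/-!
# P146, K6: the cubic equation in numbers

`e1_num` = `e1_sk` with all the errors in terms of `U` (size of `Q`), `h = |S1 \ S|^(-1/2)`,
`g = lam / (s² n)`, `η`, the rank number `k`, `j² = 1 / #m`, `p² = Pst`, `pR` (tail), `R3` (C3).
-/

open MeasureTheory ProbabilityTheory

namespace Vale.Agent.P146.H694

open Vale.Agent.P157.Lv Vale.Agent.P146.H196 Vale.Agent.P146.H646 Vale.Agent.P146.H615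
  Vale.Agent.P146.H347 Vale.Agent.P146.H475 Vale.Agent.P146.H161 Vale.Agent.P146.H816
  Vale.Agent.P146.H325

set_option linter.all false

/-- the constant -/
noncomputable def CE (b C : ℝ) : ℝ := 920 * b ^ 2 * ((640 * C ^ 2 + 64 * b ^ 4 + 8) * (1 + 22 * b))

lemma CE_ge {b C : ℝ} (hb : 1 ≤ b) : 1000 * b ^ 4 + 600 * C ^ 2 ≤ CE b C := by
  unfold CE
  have h1 : 1 ≤ b ^ 2 := one_le_pow₀ hb
  have h2 : 1 ≤ 1 + 22 * b := by linarith
  have h3 : 0 ≤ C ^ 2 := sq_nonneg C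
  have h4 : 0 ≤ b ^ 4 := by positivity
  calc 1000 * b ^ 4 + 600 * C ^ 2 ≤ 920 * 1 * ((640 * C ^ 2 + 64 * b ^ 4 + 8) * 1) := by
        linarith
    _ ≤ _ := by gcongr

lemma CE_pos {b C : ℝ} (hb : 1 ≤ b) : 0 < CE b C := by
  have := CE_ge (C := C) hb
  have : 0 < b ^ 4 := by positivity
  nlinarith [sq_nonneg C]

/-- the final comparison of the numbers -/
lemma num_fin {b C U h g v η x k p j δ T pR R3 W N1 N2 N3 N4 : ℝ} (hb : 1 ≤ b) (hU0 : 0 < U)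
    (hU1 : U ≤ 1) (hh : 0 ≤ h) (hg : 0 ≤ g) (hv0 : 0 ≤ v) (hv : v ≤ b ^ 2 * U) (hη0 : 0 ≤ η)
    (hx0 : 0 ≤ x) (hx1 : x ≤ 1) (hk : 0 ≤ k) (hp : 0 ≤ p) (hj : 0 ≤ j) (hδ : 0 < δ)
    (hT : 0 ≤ T) (hpR : 0 ≤ pR) (hW : W = b ^ 2 * U + v)
    (h1 : N1 ≤ 10 * W * (h + g) + 2 * v * η + x * (25 * η * W ^ 2 + 11 * b ^ 2 * W * k +
      15 * W ^ 2 * (h + g)) + 25 * ((2 * b ^ 2) ^ 2 * p))
    (h2 : N2 ≤ 2 * U * j ^ 2 + 920 * b ^ 2 * ((640 * C ^ 2 + 64 * b ^ 4 + 8) * (1 + 22 * b)) *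
      U ^ 4 * (j + h) / δ)
    (h3 : N3 ≤ x * (2 * b ^ 4 * T * U ^ 2 + 2 * b ^ 2 * v * U + v ^ 2))
    (h4 : N4 ≤ (12 * C ^ 2 + 9 * b ^ 4) * pR) :
    δ + (3 * N1 + N2 + R3 + N3) + 2 * N4 ≤
      δ + CE b C * (U * (h + g) + v * η + x * η * U ^ 2 + x * U * k + p + U * j ^ 2 +
        U ^ 4 * (j + h) / δ + x * (T * U ^ 2 + v * U + v ^ 2) + pR) + R3 := by
  have hb2 : 1 ≤ b ^ 2 := one_le_pow₀ hb
  have hb4 : b ^ 2 ≤ b ^ 4 := by nlinarith
  have hb41 : 1 ≤ b ^ 4 := hb2.trans hb4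
  have hc := CE_ge (C := C) hb
  have hC2 : 0 ≤ C ^ 2 := sq_nonneg C
  have hbU : 0 ≤ b ^ 2 * U := by positivity
  have hW0 : 0 ≤ W := by rw [hW]; linarith
  have hW2 : W ≤ 2 * b ^ 2 * U := by rw [hW]; linarith
  have hWW : W ^ 2 ≤ 4 * b ^ 4 * U ^ 2 := by
    calc W ^ 2 ≤ (2 * b ^ 2 * U) ^ 2 := pow_le_pow_left₀ hW0 hW2 2
      _ = _ := by ring
  have hhg : 0 ≤ h + g := by linarith
  -- the terms
  have t1 : 10 * W * (h + g) ≤ 20 * b ^ 4 * (U * (h + g)) := by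
    calc 10 * W * (h + g) ≤ 10 * (2 * b ^ 2 * U) * (h + g) := by gcongr
      _ = 20 * b ^ 2 * (U * (h + g)) := by ring
      _ ≤ _ := by gcongr
  have t2 : x * (15 * W ^ 2 * (h + g)) ≤ 60 * b ^ 4 * (U * (h + g)) := by
    calc x * (15 * W ^ 2 * (h + g)) ≤ 1 * (15 * (4 * b ^ 4 * U ^ 2) * (h + g)) := by gcongr
      _ = 60 * b ^ 4 * (U * U * (h + g)) := by ring
      _ ≤ 60 * b ^ 4 * (U * 1 * (h + g)) := by gcongr
      _ = _ := by ring
  have t3 : x * (25 * η * W ^ 2) ≤ 100 * b ^ 4 * (x * η * U ^ 2) := by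
    calc x * (25 * η * W ^ 2) ≤ x * (25 * η * (4 * b ^ 4 * U ^ 2)) := by gcongr
      _ = _ := by ring
  have t4 : x * (11 * b ^ 2 * W * k) ≤ 22 * b ^ 4 * (x * U * k) := by
    calc x * (11 * b ^ 2 * W * k) ≤ x * (11 * b ^ 2 * (2 * b ^ 2 * U) * k) := by gcongr
      _ = _ := by ring
  have t5 : N1 ≤ 80 * b ^ 4 * (U * (h + g)) + 2 * (v * η) + 100 * b ^ 4 * (x * η * U ^ 2) +
      22 * b ^ 4 * (x * U * k) + 100 * b ^ 4 * p := by
    refine h1.trans ?_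
    have e : x * (25 * η * W ^ 2 + 11 * b ^ 2 * W * k + 15 * W ^ 2 * (h + g)) =
        x * (25 * η * W ^ 2) + x * (11 * b ^ 2 * W * k) + x * (15 * W ^ 2 * (h + g)) := by ring
    have e2 : 25 * ((2 * b ^ 2) ^ 2 * p) = 100 * b ^ 4 * p := by ring
    have e3 : 2 * v * η = 2 * (v * η) := by ring
    rw [e, e2, e3]
    linarith only [t1, t2, t3, t4]
  have t6 : N3 ≤ 2 * b ^ 4 * (x * (T * U ^ 2 + v * U + v ^ 2)) := by
    refine h3.trans ?_
    have e : 2 * b ^ 4 * (x * (T * U ^ 2 + v * U + v ^ 2)) =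
        x * (2 * b ^ 4 * T * U ^ 2 + 2 * b ^ 4 * v * U + 2 * b ^ 4 * v ^ 2) := by ring
    rw [e]
    have f1 : v ^ 2 ≤ 2 * b ^ 4 * v ^ 2 := le_mul_of_one_le_left (sq_nonneg v) (by linarith)
    have f2 : 2 * b ^ 2 * v * U ≤ 2 * b ^ 4 * v * U := by gcongr
    gcongr
  have a1 : 0 ≤ U * (h + g) := by positivity
  have a2 : 0 ≤ v * η := by positivity
  have a3 : 0 ≤ x * η * U ^ 2 := by positivity
  have a4 : 0 ≤ x * U * k := by positivity
  have a5 : 0 ≤ U * j ^ 2 := by positivity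
  have a6 : 0 ≤ x * (T * U ^ 2 + v * U + v ^ 2) := by positivity
  have m1 : 240 * b ^ 4 * (U * (h + g)) ≤ CE b C * (U * (h + g)) :=
    mul_le_mul_of_nonneg_right (by linarith) a1
  have m2 : 6 * (v * η) ≤ CE b C * (v * η) := mul_le_mul_of_nonneg_right (by linarith) a2
  have m3 : 300 * b ^ 4 * (x * η * U ^ 2) ≤ CE b C * (x * η * U ^ 2) :=
    mul_le_mul_of_nonneg_right (by linarith) a3
  have m4 : 66 * b ^ 4 * (x * U * k) ≤ CE b C * (x * U * k) :=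
    mul_le_mul_of_nonneg_right (by linarith) a4
  have m5 : 300 * b ^ 4 * p ≤ CE b C * p := mul_le_mul_of_nonneg_right (by linarith) hp
  have m6 : 2 * (U * j ^ 2) ≤ CE b C * (U * j ^ 2) :=
    mul_le_mul_of_nonneg_right (by linarith) a5
  have m7 : 2 * b ^ 4 * (x * (T * U ^ 2 + v * U + v ^ 2)) ≤
      CE b C * (x * (T * U ^ 2 + v * U + v ^ 2)) :=
    mul_le_mul_of_nonneg_right (by linarith) a6
  have m8 : 2 * ((12 * C ^ 2 + 9 * b ^ 4) * pR) ≤ CE b C * pR := by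
    calc 2 * ((12 * C ^ 2 + 9 * b ^ 4) * pR) = (24 * C ^ 2 + 18 * b ^ 4) * pR := by ring
      _ ≤ _ := mul_le_mul_of_nonneg_right (by linarith) hpR
  have e7 : 920 * b ^ 2 * ((640 * C ^ 2 + 64 * b ^ 4 + 8) * (1 + 22 * b)) * U ^ 4 * (j + h) / δ =
      CE b C * (U ^ 4 * (j + h) / δ) := by
    unfold CE
    ring
  rw [e7] at h2
  have e8 : 2 * U * j ^ 2 = 2 * (U * j ^ 2) := by ring
  rw [e8] at h2
  have e9 : CE b C * (U * (h + g) + v * η + x * η * U ^ 2 + x * U * k + p + U * j ^ 2 +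
        U ^ 4 * (j + h) / δ + x * (T * U ^ 2 + v * U + v ^ 2) + pR) =
      CE b C * (U * (h + g)) + CE b C * (v * η) + CE b C * (x * η * U ^ 2) +
        CE b C * (x * U * k) + CE b C * p + CE b C * (U * j ^ 2) +
        CE b C * (U ^ 4 * (j + h) / δ) + CE b C * (x * (T * U ^ 2 + v * U + v ^ 2)) +
        CE b C * pR := by ring
  rw [e9]
  linarith only [h2, h4, t5, t6, m1, m2, m3, m4, m5, m6, m7, m8]

variable {n : ℕ} {LB LF : Type} [Fintype LB] [DecidableEq LB] [Fintype LF] [DecidableEq LF]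
  {b : ℝ} {cB : LB → ℝ} {cF : LF → ℝ} {s η lam c x r0 : ℝ}
  {S S1 : Finset (Fin n)} {BL : Finset LB} {FL : Finset LF} {i0 i1 : Fin n}
  {Θ : Fin n → (Co n LB LF → ℝ) → ℝ}

lemma Qs_sq_ex (hn : 0 < n) (z : Co n LB LF → ℝ) :
    m2 S (Mj n b cB cF s η lam c x S BL FL) z = n * Qs n b cB cF s η lam c x S BL FL z := by
  have : (n : ℝ) ≠ 0 := by exact_mod_cast hn.ne'
  unfold Qs
  field_simp

/-- **The cubic equation in numbers.** -/
theorem e1_num (hl : 0 < lam) (hη0 : 0 ≤ η) (hη1 : η ≤ 1 / 2) (hs : s ≠ 0) (hx0 : 0 ≤ x)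
    (hx1 : x < 1)
    (hc : c = s ^ 2 * n * (1 - (1 - x) * r0)) (hk0 : 0 ≤ 1 - (1 - x) * r0)
    (hk1 : 1 - (1 - x) * r0 ≤ 1) (hr0 : |r0| ≤ 1) (hb : 1 ≤ b)
    (ht1 : ∑ l ∈ BL, cB l ^ 2 ≤ 1)
    (hx2 : x ^ 2 * (b ^ 2 * ∑ l ∈ BL, cB l ^ 2 + ∑ l ∈ FL, cF l ^ 2) ≤ 1 / 4)
    (hS2 : (n : ℝ) ≤ 2 * S.card) (hS : S ⊆ S1) (hi0 : i0 ∉ S) (hne : (S1 \ S).Nonempty)
    (hi1 : i1 ∉ insert i0 S) (hΘb : ∀ i, BM (Θ i)) (hΘ : Eq1 Θ) {C : ℝ} (hC0 : 0 ≤ C)
    (hC : ∀ z, |Θ i1 z| ≤ C)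
    {U h g k p j δ pR R3 : ℝ} (hU0 : 0 < U) (hU1 : U ≤ 1) (hxU : x ≤ U)
    (hvU : vf cF FL ≤ b ^ 2 * U) (hτU : |tau n b (1 - (1 - x) * r0) cB S BL| ≤ U ^ 2)
    (hh : 1 / √((S1 \ S).card : ℝ) ≤ h) (hg : lam / (s ^ 2 * n) ≤ g) (hk : 0 ≤ k) (hp : 0 ≤ p)
    (hj : 0 ≤ j) (hδ : 0 < δ)
    (hQ4 : exS n b cB cF s η lam c x (fun z => Qs n b cB cF s η lam c x S BL FL z ^ 4) ≤ U ^ 4)
    (hR2 : R2 n b cB cF s η lam c x (Kset Finset.univ BL FL) ≤ (n * U) ^ 2)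
    (hRK : exS n b cB cF s η lam c x (RKg (muA (Xs n) lam η c) (Sm b cB cF s η) x
      (Kset S BL FL) (fun (j : Fin n) (w : ℝ × Xs n) => sp w.2 j) S) ≤ (n * k) ^ 2)
    (hPst : Pst n b cB cF s η lam c x ≤ p ^ 2)
    (hI : incM n b cB cF s η lam c x S BL FL i0 ≤ n * U * j ^ 2)
    (hIK : incK n b cB cF s η lam c x S BL FL i0 Θ i1 ≤ C ^ 2 * j ^ 2)
    (hC3 : exS n b cB cF s η lam c x (fun z =>
      |Ts n b cB cF s η lam c x S BL FL (1 - (1 - x) * r0) i0 z -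
        ks n b cB cF s η lam c x S BL FL Θ i1 z ^ 2 *
          Qs n b cB cF s η lam c x S BL FL z ^ 3|) ≤ R3)
    (hpR : exS n b cB cF s η lam c x (fun z =>
      if 2 * √U < √(Qs n b cB cF s η lam c x S BL FL z) then (1 : ℝ) else 0) ≤ pR) :
    exS n b cB cF s η lam c x (fun z =>
      |ks n b cB cF s η lam c x S BL FL Θ i1 z ^ 2 * Qs n b cB cF s η lam c x S BL FL z ^ 3 -
        x * (1 - (1 - x) * r0) ^ 3 * b ^ 4 * Qs n b cB cF s η lam c x S BL FL z ^ 2 -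
        tau n b (1 - (1 - x) * r0) cB S BL * Qs n b cB cF s η lam c x S BL FL z +
        (1 - (1 - x) * r0) ^ 2 * vf cF FL|) ≤
      δ + CE b C * (U * (h + g) + vf cF FL * η + x * η * U ^ 2 + x * U * k + p + U * j ^ 2 +
        U ^ 4 * (j + h) / δ + x * ((1 - ∑ l ∈ BL, cB l ^ 2) * U ^ 2 + vf cF FL * U +
          vf cF FL ^ 2) + pR) + R3 := by
  have hw := wt_sk (n := n) (LB := LB) (LF := LF) (b := b) (cB := cB) (cF := cF) (s := s)
    (c := c) (x := x) hl hη0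
  have hG := gmA (n := n) b cB cF s hl hη0 c
  have hn : 0 < n := (Fin.pos_iff_nonempty.2 ⟨i0⟩)
  have hn' : (0 : ℝ) < n := Nat.cast_pos.2 hn
  have hn0 : (n : ℝ) ≠ 0 := hn'.ne'
  have hD : 0 < (S1 \ S).card := Finset.card_pos.2 hne
  have hD' : (0 : ℝ) < (S1 \ S).card := Nat.cast_pos.2 hD
  have hh0 : 0 ≤ h := le_trans (by positivity) hh
  have hs2 : 0 < s ^ 2 := by positivity
  have hg0 : 0 ≤ g := le_trans (by positivity) hg
  have hv0 : 0 ≤ vf cF FL := vf_nonneg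
  have hS0 : S.Nonempty := by
    rw [← Finset.card_pos]
    have : (0 : ℝ) < S.card := by linarith
    exact_mod_cast this
  have bQ : BM (Qs n b cB cF s η lam c x S BL FL) := bm_Qs hl hη0
  have hQ0 : ∀ z, 0 ≤ Qs n b cB cF s η lam c x S BL FL z := fun z => Qs_nonneg z
  obtain ⟨hq1, hq2, hq3⟩ := mom_lower hw bQ hQ0 hU0 hQ4
  have hKK : Kset S BL FL ⊆ Kset (LB := LB) (LF := LF) Finset.univ BL FL :=
    Kset_mono (Finset.subset_univ _) (Finset.Subset.refl _) (Finset.Subset.refl _)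
  have hKK1 : Kset S1 BL FL ⊆ Kset (LB := LB) (LF := LF) Finset.univ BL FL :=
    Kset_mono (Finset.subset_univ _) (Finset.Subset.refl _) (Finset.Subset.refl _)
  have hR : R2 n b cB cF s η lam c x (Kset S BL FL) ≤ (n * U) ^ 2 :=
    (R2_mono hl hη0 hKK).trans hR2
  have hR1 : R2 n b cB cF s η lam c x (Kset S1 BL FL) ≤ (n * U) ^ 2 :=
    (R2_mono hl hη0 hKK1).trans hR2
  have bin : Bm fun w : ℝ × Xs n => ins η w.1 := by
    refine Bm.of ((measurable_ins η).comp measurable_fst) (C := 1) fun w => ?_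
    show |ins η w.1| ≤ 1
    rw [abs_of_nonneg (ins_nonneg _ _)]
    exact ins_le _ _
  have hP0 : 0 ≤ Pst n b cB cF s η lam c x := by
    unfold Pst
    exact ex_nonneg hw fun z => (av_avm hG 1).nonneg
      ((Bm.const 1).sub bin) (fun w => by
        show 0 ≤ 1 - ins η w.1
        linarith [ins_le η w.1]) z
  have hd0 := d0_num (K := Kset S BL FL) (K1 := Kset S1 BL FL) (b := b) (cB := cB) (cF := cF)
    (r0 := r0) (c := c) hn hs hl hη0 hη1 hx0 hx1 hr0 hU0.le hD hh hg hp hR hR1 hP0 hPst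
  have hd0f := d0f_num (b := b) (cB := cB) (cF := cF)
    (r0 := r0) (c := c) hn hs hl hη0 hη1 hx0 hx1 hr0 hk0 hk1 hD hh hg hp hP0 hPst
  have hτ0 : 0 ≤ ta n b cB BL := ta_nonneg
  have hτn : ta n b cB BL ≤ b ^ 2 / n := mul_le_of_le_one_right (by positivity) ht1
  obtain ⟨W, hW⟩ : ∃ W, W = b ^ 2 * U + vf cF FL := ⟨_, rfl⟩
  have hW0 : 0 ≤ W := by rw [hW]; positivity
  -- the moments of `Y`
  have hYb : ∀ z, Ys n b cB cF s η lam c x S BL FL z ≤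
      b ^ 2 * Qs n b cB cF s η lam c x S BL FL z + vf cF FL := by
    intro z
    rw [Ys_eq hn]
    have h1 : b ^ 2 * (∑ l ∈ BL, cB l ^ 2) ≤ b ^ 2 := mul_le_of_le_one_right (sq_nonneg b) ht1
    have := mul_le_mul_of_nonneg_right h1 (hQ0 z)
    linarith
  have hY0 : ∀ z, 0 ≤ Ys n b cB cF s η lam c x S BL FL z := by
    intro z
    rw [Ys_eq hn]
    have h1 : 0 ≤ ∑ l ∈ BL, cB l ^ 2 := Finset.sum_nonneg fun _ _ => sq_nonneg _
    have := hQ0 z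
    positivity
  have bY := bm_Ys (n := n) (b := b) (cB := cB) (cF := cF) (s := s) (c := c) (x := x) (S := S)
    (BL := BL) (FL := FL) hl hη0
  have b4 := bm_pow4 bQ
  have b3 := bm_cube bQ
  have b2 := bsq bQ
  have hm1 : exS n b cB cF s η lam c x (m2 S (Mj n b cB cF s η lam c x S BL FL)) ≤ n * U := by
    have e : m2 S (Mj n b cB cF s η lam c x S BL FL) =
        fun z => (n : ℝ) * Qs n b cB cF s η lam c x S BL FL z := funext fun z => Qs_sq_ex hn z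
    rw [e]
    unfold exS
    rw [ex_cmul]
    exact mul_le_mul_of_nonneg_left hq1 hn'.le
  have hY2 : exS n b cB cF s η lam c x (fun z => Ys n b cB cF s η lam c x S BL FL z ^ 2) ≤
      W ^ 2 := by
    have h1 : exS n b cB cF s η lam c x (fun z => Ys n b cB cF s η lam c x S BL FL z ^ 2) ≤
        exS n b cB cF s η lam c x (fun z => b ^ 4 * Qs n b cB cF s η lam c x S BL FL z ^ 2 +
          2 * b ^ 2 * vf cF FL * Qs n b cB cF s η lam c x S BL FL z + vf cF FL ^ 2) := by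
      refine ex_mono hw (bsq bY) (((bcm _ b2).add (bcm _ bQ)).add (BM.const _)) fun z => ?_
      calc _ ≤ (b ^ 2 * Qs n b cB cF s η lam c x S BL FL z + vf cF FL) ^ 2 :=
            pow_le_pow_left₀ (hY0 z) (hYb z) 2
        _ = _ := by ring
    unfold exS at h1 ⊢
    rw [ex_add hw ((bcm _ b2).add (bcm _ bQ)) (BM.const _), ex_add hw (bcm _ b2) (bcm _ bQ),
      ex_cmul, ex_cmul, ex_const hw] at h1
    refine h1.trans ?_
    rw [hW]
    calc _ ≤ b ^ 4 * U ^ 2 + 2 * b ^ 2 * vf cF FL * U + vf cF FL ^ 2 := by gcongr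
      _ = _ := by ring
  have hY2m : exS n b cB cF s η lam c x (fun z => Ys n b cB cF s η lam c x S BL FL z ^ 2 *
      m2 S (Mj n b cB cF s η lam c x S BL FL) z) ≤ n * (W ^ 2 * U) := by
    have h1 : exS n b cB cF s η lam c x (fun z => Ys n b cB cF s η lam c x S BL FL z ^ 2 *
        m2 S (Mj n b cB cF s η lam c x S BL FL) z) ≤
        exS n b cB cF s η lam c x (fun z => (n : ℝ) *
          (b ^ 4 * Qs n b cB cF s η lam c x S BL FL z ^ 3 +
          2 * b ^ 2 * vf cF FL * Qs n b cB cF s η lam c x S BL FL z ^ 2 +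
          vf cF FL ^ 2 * Qs n b cB cF s η lam c x S BL FL z)) := by
      have bm2 : BM (m2 S (Mj n b cB cF s η lam c x S BL FL)) :=
        BM.sum S fun j _ => bsq (bm_Mj hl hη0 j)
      refine ex_mono hw ((bsq bY).mul bm2)
        (bcm _ (((bcm _ b3).add (bcm _ b2)).add (bcm _ bQ))) fun z => ?_
      rw [Qs_sq_ex hn]
      calc _ ≤ (b ^ 2 * Qs n b cB cF s η lam c x S BL FL z + vf cF FL) ^ 2 *
            (n * Qs n b cB cF s η lam c x S BL FL z) :=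
            mul_le_mul_of_nonneg_right (pow_le_pow_left₀ (hY0 z) (hYb z) 2)
              (mul_nonneg hn'.le (hQ0 z))
        _ = _ := by ring
    unfold exS at h1 ⊢
    rw [ex_cmul, ex_add hw ((bcm _ b3).add (bcm _ b2)) (bcm _ bQ),
      ex_add hw (bcm _ b3) (bcm _ b2), ex_cmul, ex_cmul, ex_cmul] at h1
    refine h1.trans (mul_le_mul_of_nonneg_left ?_ hn'.le)
    rw [hW]
    calc _ ≤ b ^ 4 * U ^ 3 + 2 * b ^ 2 * vf cF FL * U ^ 2 + vf cF FL ^ 2 * U := by gcongr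
      _ = _ := by ring
  have hYm2 : exS n b cB cF s η lam c x (fun z => (Ys n b cB cF s η lam c x S BL FL z *
      m2 S (Mj n b cB cF s η lam c x S BL FL) z) ^ 2) ≤ n ^ 2 * (W ^ 2 * U ^ 2) := by
    have h1 : exS n b cB cF s η lam c x (fun z => (Ys n b cB cF s η lam c x S BL FL z *
        m2 S (Mj n b cB cF s η lam c x S BL FL) z) ^ 2) ≤
        exS n b cB cF s η lam c x (fun z => (n : ℝ) ^ 2 *
          (b ^ 4 * Qs n b cB cF s η lam c x S BL FL z ^ 4 +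
          2 * b ^ 2 * vf cF FL * Qs n b cB cF s η lam c x S BL FL z ^ 3 +
          vf cF FL ^ 2 * Qs n b cB cF s η lam c x S BL FL z ^ 2)) := by
      have bm2 : BM (m2 S (Mj n b cB cF s η lam c x S BL FL)) :=
        BM.sum S fun j _ => bsq (bm_Mj hl hη0 j)
      refine ex_mono hw (bsq (bY.mul bm2))
        (bcm _ (((bcm _ b4).add (bcm _ b3)).add (bcm _ b2))) fun z => ?_
      rw [Qs_sq_ex hn, mul_pow]
      calc _ ≤ (b ^ 2 * Qs n b cB cF s η lam c x S BL FL z + vf cF FL) ^ 2 *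
            (n * Qs n b cB cF s η lam c x S BL FL z) ^ 2 :=
            mul_le_mul_of_nonneg_right (pow_le_pow_left₀ (hY0 z) (hYb z) 2) (sq_nonneg _)
        _ = _ := by ring
    unfold exS at h1 ⊢
    rw [ex_cmul, ex_add hw ((bcm _ b4).add (bcm _ b3)) (bcm _ b2),
      ex_add hw (bcm _ b4) (bcm _ b3), ex_cmul, ex_cmul, ex_cmul] at h1
    refine h1.trans (mul_le_mul_of_nonneg_left ?_ (by positivity))
    rw [hW]
    calc _ ≤ b ^ 4 * U ^ 4 + 2 * b ^ 2 * vf cF FL * U ^ 3 + vf cF FL ^ 2 * U ^ 2 := by gcongr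
      _ = _ := by ring
  -- the rank one defect
  have hDV : ta n b cB BL ^ 2 * exS n b cB cF s η lam c x
      (Vs n b cB cF s η lam c x S BL FL) ≤ 3 / 2 * (W * (b ^ 2 * k)) + 4 * η ^ 2 * W ^ 2 := by
    have h1 := DV_le (φ := fun _ => (1 : ℝ)) hG hη0 hη1 x (Kset S BL FL) (bm_of_al hη0)
      (fun j => bm_sp j) (fun w => abs_al_sub hη0 w.1) S hτ0 hv0 (Dep.const 1) (BM.const 1)
      fun _ => zero_le_one
    simp only [one_mul] at h1
    refine (show _ ≤ _ from h1).trans ?_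
    have e1 : √(exS n b cB cF s η lam c x (fun z => Ys n b cB cF s η lam c x S BL FL z ^ 2)) ≤
        W := (Real.sqrt_le_sqrt hY2).trans (le_of_eq (Real.sqrt_sq hW0))
    have e2 : ta n b cB BL * √(exS n b cB cF s η lam c x (RKg (muA (Xs n) lam η c)
        (Sm b cB cF s η) x (Kset S BL FL) (fun (j : Fin n) (w : ℝ × Xs n) => sp w.2 j) S)) ≤
        b ^ 2 * k := by
      have e3 : √(exS n b cB cF s η lam c x (RKg (muA (Xs n) lam η c)
        (Sm b cB cF s η) x (Kset S BL FL) (fun (j : Fin n) (w : ℝ × Xs n) => sp w.2 j) S)) ≤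
          n * k := (Real.sqrt_le_sqrt hRK).trans (le_of_eq (Real.sqrt_sq (by positivity)))
      calc _ ≤ b ^ 2 / n * (n * k) := mul_le_mul hτn e3 (Real.sqrt_nonneg _) (by positivity)
        _ = b ^ 2 * k := by field_simp
    refine add_le_add (mul_le_mul_of_nonneg_left ?_ (by norm_num))
      (mul_le_mul_of_nonneg_left hY2 (by positivity))
    exact mul_le_mul e1 e2 (mul_nonneg hτ0 (Real.sqrt_nonneg _)) hW0
  -- the numbers of the step
  obtain ⟨hN4, hN2⟩ := nmom (b := b) (cB := cB) (cF := cF) (s := s) (c := c) (x := x) hl hη0 hη1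
    hi0 hx0 hx1.le hx2 ht1 hU0.le hR2
  have hI0 : 0 ≤ incM n b cB cF s η lam c x S BL FL i0 := by
    unfold incM H266.Brm.incM
    refine Finset.sum_nonneg fun j _ => ?_
    have hKK2 : Kset S BL FL ⊆ Kset (LB := LB) (LF := LF) (insert i0 S) BL FL :=
      Kset_mono (Finset.subset_insert i0 S) (Finset.Subset.refl _) (Finset.Subset.refl _)
    have h1 := H9.ex_s2_mono hw hKK2 ({j} : Finset (Fin n))
      (X := fun j => H205.Fa b cB cF s η lam c j) fun a _ => H205.bm_Fa b cB cF s η hl hη0 c a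
    simp only [Finset.sum_singleton] at h1
    linarith
  have hN20 : 0 ≤ exS n b cB cF s η lam c x (fun z =>
      Ns n b cB cF s η lam c x S BL FL i0 z ^ 2) := ex_nonneg hw fun z => sq_nonneg _
  have hnh : 1 / √(n : ℝ) ≤ h := by
    refine le_trans ?_ hh
    have h1 : ((S1 \ S).card : ℝ) ≤ n := by
      have := Finset.card_le_univ (S1 \ S)
      rw [Fintype.card_fin] at this
      exact_mod_cast this
    exact one_div_le_one_div_of_le (Real.sqrt_pos.2 hD') (Real.sqrt_le_sqrt h1)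
  have hkp3 : (1 - (1 - x) * r0) ^ 3 ≤ 1 := pow_le_one₀ hk0 hk1
  have ha0 : 0 ≤ x * (1 - (1 - x) * r0) ^ 3 * b ^ 4 := by positivity
  have ha : x * (1 - (1 - x) * r0) ^ 3 * b ^ 4 ≤ b ^ 4 * U := by
    calc x * (1 - (1 - x) * r0) ^ 3 * b ^ 4 ≤ U * 1 * b ^ 4 := by gcongr
      _ = _ := by ring
  have hE := rE_num (C := C) (δ := δ) hn' hS2 hU0 hj hh0 hδ hC0 hb hvU ha0 ha hτU hI hI0 hIK hN4
    hN2 hN20 hnh rfl
  have key := e1_sk (n := n) (b := b) (cB := cB) (cF := cF) (R := 2 * √U) hl hη0 hs hx0 hx1 hc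
    hk0 ht1 hS0 hS hi0 hne hi1 hΘb hΘ hC0 hC hδ (by positivity) hm1 hY2 hDV hY2m hYm2 hC3 hq1
    hq2
  refine key.trans ?_
  have hRA := RA_num (B := 2 * b ^ 2) (kp := 1 - (1 - x) * r0) (x := x) (η := η) (b := b)
    (U := U) (hg := h + g) (p := p) (k := k) (n := n) (v := vf cF FL) hn' hk0 hk1 hx0 hx1.le
    hη0 hη1 hτ0 hτn hv0 hU0.le hU1 (by positivity) hp hk
    (by
      have : b ^ 2 * U ≤ b ^ 2 := mul_le_of_le_one_right (sq_nonneg b) hU1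
      linarith)
    (by have : 1 ≤ b ^ 2 := one_le_pow₀ hb
        linarith) hd0 (by simpa only [add_assoc] using hd0f)
  rw [← hW] at hRA
  refine num_fin (C := C) (W := W) (T := 1 - ∑ l ∈ BL, cB l ^ 2) hb hU0 hU1 hh0 hg0 hv0 hvU hη0
    hx0 hx1.le hk hp hj hδ (by linarith) ((ex_nonneg hw fun z => by split_ifs <;> norm_num).trans
      hpR) hW hRA hE ?_ ?_
  · have h1 : 0 ≤ 2 * b ^ 4 * (1 - ∑ l ∈ BL, cB l ^ 2) * U ^ 2 + 2 * b ^ 2 * vf cF FL * U +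
        vf cF FL ^ 2 := by
      have : 0 ≤ 1 - ∑ l ∈ BL, cB l ^ 2 := by linarith
      positivity
    calc x * (1 - (1 - x) * r0) ^ 3 * (2 * b ^ 4 * (1 - ∑ l ∈ BL, cB l ^ 2) * U ^ 2 +
          2 * b ^ 2 * vf cF FL * U + vf cF FL ^ 2)
        ≤ x * 1 * (2 * b ^ 4 * (1 - ∑ l ∈ BL, cB l ^ 2) * U ^ 2 +
          2 * b ^ 2 * vf cF FL * U + vf cF FL ^ 2) := by gcongr
      _ = _ := by ring
  · have e0 : 0 ≤ exS n b cB cF s η lam c x (fun z =>
        if 2 * √U < √(Qs n b cB cF s η lam c x S BL FL z) then (1 : ℝ) else 0) :=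
      ex_nonneg hw fun z => by split_ifs <;> norm_num
    refine mul_le_mul ?_ hpR e0 (by positivity)
    have f1 : (1 + η) ^ 6 ≤ 12 := by
      calc (1 + η) ^ 6 ≤ (1 + 1 / 2) ^ 6 := by gcongr
        _ ≤ _ := by norm_num
    have f2 : (1 + η) ^ 4 ≤ 5.1 := by
      calc (1 + η) ^ 4 ≤ (1 + 1 / 2) ^ 4 := by gcongr
        _ ≤ _ := by norm_num
    have f3 : (1 + η) ^ 2 ≤ 2.3 := by
      calc (1 + η) ^ 2 ≤ (1 + 1 / 2) ^ 2 := by gcongr
        _ ≤ _ := by norm_num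
    have f4 : |tau n b (1 - (1 - x) * r0) cB S BL| ≤ 1 := hτU.trans (pow_le_one₀ hU0.le hU1)
    have f5 : (1 - (1 - x) * r0) ^ 2 ≤ 1 := pow_le_one₀ hk0 hk1
    have f6 : vf cF FL ≤ b ^ 2 := hvU.trans (mul_le_of_le_one_right (sq_nonneg b) hU1)
    have f7 : x * (1 - (1 - x) * r0) ^ 3 * b ^ 4 ≤ b ^ 4 := ha.trans (mul_le_of_le_one_right
      (by positivity) hU1)
    have hb2 : 1 ≤ b ^ 2 := one_le_pow₀ hb
    have hb4 : b ^ 2 ≤ b ^ 4 := pow_le_pow_right₀ hb (by norm_num)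
    calc C ^ 2 * (1 + η) ^ 6 + x * (1 - (1 - x) * r0) ^ 3 * b ^ 4 * (1 + η) ^ 4 +
          |tau n b (1 - (1 - x) * r0) cB S BL| * (1 + η) ^ 2 +
          (1 - (1 - x) * r0) ^ 2 * vf cF FL
        ≤ C ^ 2 * 12 + b ^ 4 * 5.1 + 1 * 2.3 + 1 * b ^ 2 := by gcongr
      _ ≤ 12 * C ^ 2 + 9 * b ^ 4 := by linarith

end Vale.Agent.P146.H694
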