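import Vale.Agent.P146.H694.K6d
import Vale.Agent.P146.H498.Amp10

/-!
# P146, K6: the last equation at the typical point

`c3_pt`: the mean error `D3` of the last equation in the system with three levels of bonds, from
the canonical numbers and `H320.Typ`.
-/

open MeasureTheory ProbabilityTheory

namespace Vale.Agent.P146.H694

open Vale.Agent.P157.Lv hiding Dep
open Vale.Agent.P146.H425 Vale.Agent.P146.H646
open Vale.Agent.P146.H325 hiding cb cf
open Vale.Agent.P146.H196 Vale.Agent.P146.H246 Vale.Agent.P146.H347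
  Vale.Agent.P146.H816 Vale.Agent.P146.H119 Vale.Agent.P146.H475 Vale.Agent.P146.H418
  Vale.Agent.P146.H615 Vale.Agent.P146.H320 Vale.Agent.P146.H161

set_option linter.all false

section can

variable {L : Law} {LB LF : Type} [Fintype LB] [DecidableEq LB] [Fintype LF] [DecidableEq LF]
  {cB : LB → ℝ} {cF : LF → ℝ} {BL : Finset LB} {FL : Finset LF} {t u : ℝ}

/-- functions of the second moment of the overlap -/
lemma CC_can (h : Adm L) (hs : Sh cB cF BL FL 1 (√L.vp) t u) (ht0 : 0 ≤ t) (ht1 : t ≤ 1)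
    (hu0 : 0 ≤ u) (hu1 : u ≤ 1) (S : Finset (Fin L.n)) {φ : ℝ → ℝ} (hφ : Measurable φ) {C0 : ℝ}
    (hφC : ∀ v, |φ v| ≤ C0) :
    exS L.n L.b cB cF L.s L.η L.lam L.c L.x
      (fun z => φ (H317.CCv L.n L.b cB cF L.s L.η L.lam L.c L.x S (Kset S BL FL) z)) =
      L.ex' t u (fun z => φ (H412.CC L S t u z)) :=
  H9.sk_congr (b := L.b) (s := L.s) (η := L.η) (A := Fin L.n × Fin L.n) (gmb h)
    one_pos (sqv h) hs (sh_can h ht0 ht1 hu0 hu1) S L.x
    (f := fun a w => sp w.2 a.1 * sp w.2 a.2) (fun a => (bm_sp a.1).mul (bm_sp a.2))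
    (Φ := fun v => φ ((∑ i ∈ S, ∑ j ∈ S, v (i, j) ^ 2) / (L.n : ℝ) ^ 2))
    (hφ.comp (by fun_prop)) fun C => ⟨C0, fun v _ => hφC _⟩

lemma CCv_mono {n : ℕ} {b s η lam c x : ℝ} {cB : LB → ℝ} {cF : LF → ℝ} {S S' : Finset (Fin n)}
    (hS : S ⊆ S') (K : Finset (Co n LB LF)) (z : Co n LB LF → ℝ) :
    H317.CCv n b cB cF s η lam c x S K z ≤ H317.CCv n b cB cF s η lam c x S' K z := by
  unfold H317.CCv H412.m2L
  refine div_le_div_of_nonneg_right ?_ (by positivity)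
  refine (Finset.sum_le_sum fun i _ => Finset.sum_le_sum_of_subset_of_nonneg hS fun _ _ _ =>
    sq_nonneg _).trans (Finset.sum_le_sum_of_subset_of_nonneg hS fun _ _ _ =>
      Finset.sum_nonneg fun _ _ => sq_nonneg _)

lemma RKk_mono {n : ℕ} {b s η lam c x : ℝ} {cB : LB → ℝ} {cF : LF → ℝ} {S S' : Finset (Fin n)}
    (hS : S ⊆ S') (K : Finset (Co n LB LF)) (z : Co n LB LF → ℝ) :
    H317.RKk n b cB cF s η lam c x S K z ≤ H317.RKk n b cB cF s η lam c x S' K z := by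
  unfold H317.RKk RKg
  refine div_le_div_of_nonneg_right ?_ (by positivity)
  refine (Finset.sum_le_sum fun i _ => Finset.sum_le_sum_of_subset_of_nonneg hS fun _ _ _ =>
    sq_nonneg _).trans (Finset.sum_le_sum_of_subset_of_nonneg hS fun _ _ _ =>
      Finset.sum_nonneg fun _ _ => sq_nonneg _)

lemma K4v_mono {n : ℕ} {b s η lam c x : ℝ} {cB : LB → ℝ} {cF : LF → ℝ} {S S' : Finset (Fin n)}
    (hS : S ⊆ S') (K : Finset (Co n LB LF)) (z : Co n LB LF → ℝ) :
    H317.K4v n b cB cF s η lam c x S K z ≤ H317.K4v n b cB cF s η lam c x S' K z := by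
  unfold H317.K4v H412.k4L
  refine div_le_div_of_nonneg_right ?_ (by positivity)
  have hP : Pin S ⊆ Pin S' := by
    intro p hp
    rw [mem_Pin] at hp ⊢
    exact ⟨hS hp.1, hS hp.2⟩
  refine (Finset.sum_le_sum fun i _ => Finset.sum_le_sum_of_subset_of_nonneg hP fun _ _ _ =>
    sq_nonneg _).trans (Finset.sum_le_sum_of_subset_of_nonneg hP fun _ _ _ =>
      Finset.sum_nonneg fun _ _ => sq_nonneg _)

/-- the rank number at the larger set -/
lemma rkk_le (h : Adm L) {S S' : Finset (Fin L.n)} (hS : S ⊆ S') {k2 : ℝ}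
    (hk : rkL L cB cF S' (Kset S' BL FL) ≤ (L.n : ℝ) ^ 2 * k2) :
    exS L.n L.b cB cF L.s L.η L.lam L.c L.x
      (H317.RKk L.n L.b cB cF L.s L.η L.lam L.c L.x S (Kset S' BL FL)) ≤ k2 := by
  have hn : (0 : ℝ) < L.n := by exact_mod_cast h.n0
  have hw := wt_sk (n := L.n) (LB := LB) (LF := LF) (b := L.b) (cB := cB) (cF := cF)
    (s := L.s) (c := L.c) (x := L.x) h.lam0 h.η0
  have h1 := ex_mono hw
    (H317.bm_RKk (b := L.b) (cB := cB) (cF := cF) (s := L.s) (c := L.c) (x := L.x) h.lam0 h.η0 S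
      (Kset S' BL FL))
    (H317.bm_RKk (b := L.b) (cB := cB) (cF := cF) (s := L.s) (c := L.c) (x := L.x) h.lam0 h.η0 S'
      (Kset S' BL FL)) fun z => RKk_mono hS _ z
  refine (show _ ≤ _ from h1).trans ?_
  have e : H317.RKk L.n L.b cB cF L.s L.η L.lam L.c L.x S' (Kset S' BL FL) = fun z =>
      ((L.n : ℝ) ^ 2)⁻¹ * RKg (muA (Xs L.n) L.lam L.η L.c) (Sm L.b cB cF L.s L.η) L.x
        (Kset S' BL FL) (fun (j : Fin L.n) w => sp w.2 j) S' z := by
    funext z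
    unfold H317.RKk
    rw [div_eq_inv_mul]
    rfl
  rw [e, ex_cmul]
  have h2 : ex (g1 (Co L.n LB LF)) (wS L.n L.b cB cF L.s L.η L.lam L.c L.x)
      (RKg (muA (Xs L.n) L.lam L.η L.c) (Sm L.b cB cF L.s L.η) L.x (Kset S' BL FL)
        (fun (j : Fin L.n) w => sp w.2 j) S') ≤ (L.n : ℝ) ^ 2 * k2 := hk
  calc _ ≤ ((L.n : ℝ) ^ 2)⁻¹ * ((L.n : ℝ) ^ 2 * k2) :=
        mul_le_mul_of_nonneg_left h2 (by positivity)
    _ = k2 := by field_simp

/-- the number of the pairs at the larger set -/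
lemma k4_le (h : Adm L) {S S' : Finset (Fin L.n)} (hS : S ⊆ S') {k4 : ℝ}
    (hk : rbL L cB cF S' (Kset S' BL FL) ≤ (L.n : ℝ) ^ 4 * k4) :
    exS L.n L.b cB cF L.s L.η L.lam L.c L.x
      (H317.K4v L.n L.b cB cF L.s L.η L.lam L.c L.x S (Kset S' BL FL)) ≤ k4 := by
  have hn : (0 : ℝ) < L.n := by exact_mod_cast h.n0
  have hw := wt_sk (n := L.n) (LB := LB) (LF := LF) (b := L.b) (cB := cB) (cF := cF)
    (s := L.s) (c := L.c) (x := L.x) h.lam0 h.η0
  have h1 := ex_mono hw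
    (H317.bm_K4v (b := L.b) (cB := cB) (cF := cF) (s := L.s) (c := L.c) (x := L.x) h.lam0 h.η0 S
      (Kset S' BL FL))
    (H317.bm_K4v (b := L.b) (cB := cB) (cF := cF) (s := L.s) (c := L.c) (x := L.x) h.lam0 h.η0 S'
      (Kset S' BL FL)) fun z => K4v_mono hS _ z
  refine (show _ ≤ _ from h1).trans ?_
  have e : H317.K4v L.n L.b cB cF L.s L.η L.lam L.c L.x S' (Kset S' BL FL) = fun z =>
      ((L.n : ℝ) ^ 4)⁻¹ * H412.k4L S' (H317.LA L.n L.b cB cF L.s L.η L.lam L.c L.x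
        (Kset S' BL FL) z) := by
    funext z
    unfold H317.K4v
    rw [div_eq_inv_mul]
  rw [e, ex_cmul]
  have h2 : ex (g1 (Co L.n LB LF)) (wS L.n L.b cB cF L.s L.η L.lam L.c L.x)
      (fun z => H412.k4L S' (H317.LA L.n L.b cB cF L.s L.η L.lam L.c L.x
        (Kset S' BL FL) z)) ≤ (L.n : ℝ) ^ 4 * k4 := hk
  calc _ ≤ ((L.n : ℝ) ^ 4)⁻¹ * ((L.n : ℝ) ^ 4 * k4) :=
        mul_le_mul_of_nonneg_left h2 (by positivity)
    _ = k4 := by field_simp

/-- the increment of the mean overlap -/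
lemma inc_le' (h : Adm L) (S : Finset (Fin L.n)) (i0 : Fin L.n) :
    exS L.n L.b cB cF L.s L.η L.lam L.c L.x
        (H317.Qk L.n L.b cB cF L.s L.η L.lam L.c L.x S (Kset (insert i0 S) BL FL)) -
      exS L.n L.b cB cF L.s L.η L.lam L.c L.x
        (H317.Qk L.n L.b cB cF L.s L.η L.lam L.c L.x S (Kset S BL FL)) =
    incL L cB cF S (Kset S BL FL) (Kset (insert i0 S) BL FL) / L.n := by
  have hw := wt_sk (n := L.n) (LB := LB) (LF := LF) (b := L.b) (cB := cB) (cF := cF)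
    (s := L.s) (c := L.c) (x := L.x) h.lam0 h.η0
  have hG := gmA (n := L.n) L.b cB cF L.s h.lam0 h.η0 L.c
  have key : ∀ K : Finset (Co L.n LB LF), exS L.n L.b cB cF L.s L.η L.lam L.c L.x
      (H317.Qk L.n L.b cB cF L.s L.η L.lam L.c L.x S K) =
      (∑ j ∈ S, exL L cB cF (fun z => cxL L cB cF K (fun w => al L.η w.1 * sp w.2 j) z ^ 2)) /
        L.n := by
    intro K
    have e : H317.Qk L.n L.b cB cF L.s L.η L.lam L.c L.x S K = fun z => (L.n : ℝ)⁻¹ *
        ∑ j ∈ S, cxL L cB cF K (fun w => al L.η w.1 * sp w.2 j) z ^ 2 := by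
      funext z
      unfold H317.Qk
      rw [div_eq_inv_mul]
      rfl
    have h5 := H615.ex_sum hw S (f := fun j z =>
      cxL L cB cF K (fun w => al L.η w.1 * sp w.2 j) z ^ 2) fun j _ => bsq (hw.bm_cx K
      (hG.bm_avm 1 ((bm_of_al (n := L.n) h.η0).mul (bm_sp j))))
    rw [e]
    unfold exS
    rw [ex_cmul, div_eq_inv_mul]
    exact congrArg (fun r => (L.n : ℝ)⁻¹ * r) h5
  rw [key, key, ← sub_div, ← Finset.sum_sub_distrib]
  rfl

end can

end Vale.Agent.P146.H694
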