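import Vale.Agent.P146.H498.Amp5

/-!
# P146, K6: the number of the last equation as a sum of monomials
-/

namespace Vale.Agent.P146.H694

open Vale.Agent.P146.C3Amp

set_option linter.all false

/-- the number of the last equation -/
noncomputable def R3n (b T e e1 e2 U k j η v p pR hg x k4 : ℝ) : ℝ :=
  5 * 10 ^ 12 * b ^ 10 * ((T + e) * (U ^ 3 + pR) +
    1 / e * (1 / e1 * (k ^ 2 + η ^ 4 * (U ^ 2 + pR) + (U ^ 2 * j ^ 2 + pR) + v ^ 2) +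
      e1 * (U ^ 4 + pR + k4 + v ^ 4) + e2 * (U ^ 3 + pR) +
      1 / e2 * (U ^ 5 + pR + v ^ 2 * (U ^ 3 + pR)) + (U * hg ^ 2 + p ^ 2) +
      v * (hg + p + η) ^ 2 + x ^ 2 * (U ^ 2 + pR + v ^ 2)))

section

variable {b T e e1 e2 U k j η v p pR hg x k4 kp wf t dd : ℝ}

lemma eta_pow (h0 : 0 ≤ η) (h1 : η ≤ 1 / 2) :
    (1 + η) ^ 2 ≤ 9 / 4 ∧ (1 + η) ^ 6 ≤ 12 ∧ (1 + η) ^ 8 ≤ 26 := by
  refine ⟨?_, ?_, ?_⟩
  · calc (1 + η) ^ 2 ≤ (1 + 1 / 2) ^ 2 := by gcongr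
      _ ≤ _ := by norm_num
  · calc (1 + η) ^ 6 ≤ (1 + 1 / 2) ^ 6 := by gcongr
      _ ≤ _ := by norm_num
  · calc (1 + η) ^ 8 ≤ (1 + 1 / 2) ^ 8 := by gcongr
      _ ≤ _ := by norm_num

lemma r3_a (hb : 1 ≤ b) (he : 0 < e) (ht : 1 - t ≤ T) (ht1 : t ≤ 1) (hU : 0 ≤ U) (hp : 0 ≤ pR)
    (h0 : 0 ≤ η) (h1 : η ≤ 1 / 2) :
    (3 * (1 - t) + 3 * e) * (384 * b ^ 6 * (1 + η) ^ 2 * (U ^ 3 + (1 + η) ^ 6 * pR)) ≤
      5 * 10 ^ 12 * b ^ 10 * ((T + e) * (U ^ 3 + pR)) := by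
  obtain ⟨e2, e6, e8⟩ := eta_pow h0 h1
  have hT : 0 ≤ T := by linarith
  have hb6 : b ^ 6 ≤ b ^ 10 := pow_le_pow_right₀ hb (by norm_num)
  have hU3 : 0 ≤ U ^ 3 := by positivity
  have h3 : 3 * (1 - t) + 3 * e ≤ 3 * (T + e) := by linarith
  have h4 : 0 ≤ 3 * (1 - t) + 3 * e := by linarith
  calc (3 * (1 - t) + 3 * e) * (384 * b ^ 6 * (1 + η) ^ 2 * (U ^ 3 + (1 + η) ^ 6 * pR))
      ≤ (3 * (T + e)) * (384 * b ^ 10 * (9 / 4) * (U ^ 3 + 12 * pR)) := by gcongr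
    _ ≤ (3 * (T + e)) * (384 * b ^ 10 * (9 / 4) * (12 * (U ^ 3 + pR))) := by
        gcongr
        linarith
    _ = 31104 * (b ^ 10 * ((T + e) * (U ^ 3 + pR))) := by ring
    _ ≤ 5 * 10 ^ 12 * (b ^ 10 * ((T + e) * (U ^ 3 + pR))) := by
        gcongr
        norm_num
    _ = _ := by ring

lemma r3_b (hb : 1 ≤ b) (he : 0 < e) (he1 : 0 < e1) (hU : 0 ≤ U) (hp : 0 ≤ pR)
    (h0 : 0 ≤ η) (h1 : η ≤ 1 / 2) (hw0 : 0 ≤ wf) (hw : wf ≤ v) :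
    2232 / e * (2 * (1 + η) ^ 2 * (2352 / e1 * Bd2 b η wf (k ^ 2) (U ^ 2 + pR)
      (4 * (1 + η) ^ 2 * U * (U * j ^ 2) + (4 * (1 + η) ^ 2) ^ 2 * (pR + pR)))) ≤
      5 * 10 ^ 12 * b ^ 10 * (1 / e * (1 / e1 *
        (k ^ 2 + η ^ 4 * (U ^ 2 + pR) + (U ^ 2 * j ^ 2 + pR) + v ^ 2))) := by
  obtain ⟨e2, e6, e8⟩ := eta_pow h0 h1
  have hb4 : b ^ 4 ≤ b ^ 10 := pow_le_pow_right₀ hb (by norm_num)
  have hv : 0 ≤ v := hw0.trans hw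
  have hwv : wf ^ 2 ≤ v ^ 2 := pow_le_pow_left₀ hw0 hw 2
  have h2 : 4 * (1 + η) ^ 2 * U * (U * j ^ 2) + (4 * (1 + η) ^ 2) ^ 2 * (pR + pR) ≤
      162 * (U ^ 2 * j ^ 2 + pR) := by
    calc 4 * (1 + η) ^ 2 * U * (U * j ^ 2) + (4 * (1 + η) ^ 2) ^ 2 * (pR + pR)
        ≤ 4 * (9 / 4) * U * (U * j ^ 2) + (4 * (9 / 4)) ^ 2 * (pR + pR) := by gcongr
      _ = 9 * (U ^ 2 * j ^ 2) + 162 * pR := by ring
      _ ≤ 162 * (U ^ 2 * j ^ 2) + 162 * pR := by gcongr; norm_num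
      _ = _ := by ring
  have hX : 0 ≤ η ^ 4 * (U ^ 2 + pR) := by positivity
  have hj : 0 ≤ U ^ 2 * j ^ 2 := by positivity
  have h3 : Bd2 b η wf (k ^ 2) (U ^ 2 + pR)
      (4 * (1 + η) ^ 2 * U * (U * j ^ 2) + (4 * (1 + η) ^ 2) ^ 2 * (pR + pR)) ≤
      5184 * (b ^ 4 * (k ^ 2 + η ^ 4 * (U ^ 2 + pR) + (U ^ 2 * j ^ 2 + pR) + v ^ 2)) := by
    unfold Bd2
    calc b ^ 4 * (4 * k ^ 2 + 32 * η ^ 4 * (U ^ 2 + pR) + 32 *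
          (4 * (1 + η) ^ 2 * U * (U * j ^ 2) + (4 * (1 + η) ^ 2) ^ 2 * (pR + pR))) +
          2 * b ^ 4 * wf ^ 2
        ≤ b ^ 4 * (4 * k ^ 2 + 32 * η ^ 4 * (U ^ 2 + pR) + 32 *
          (162 * (U ^ 2 * j ^ 2 + pR))) + 2 * b ^ 4 * v ^ 2 := by gcongr
      _ = b ^ 4 * (4 * k ^ 2 + 32 * (η ^ 4 * (U ^ 2 + pR)) + 5184 * (U ^ 2 * j ^ 2 + pR) +
          2 * v ^ 2) := by ring
      _ ≤ b ^ 4 * (5184 * k ^ 2 + 5184 * (η ^ 4 * (U ^ 2 + pR)) +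
          5184 * (U ^ 2 * j ^ 2 + pR) + 5184 * v ^ 2) := by
          have := sq_nonneg k
          have := sq_nonneg v
          gcongr <;> norm_num
      _ = _ := by ring
  have hM : 0 ≤ k ^ 2 + η ^ 4 * (U ^ 2 + pR) + (U ^ 2 * j ^ 2 + pR) + v ^ 2 := by positivity
  calc _ ≤ 2232 / e * (2 * (9 / 4) * (2352 / e1 * (5184 * (b ^ 4 *
        (k ^ 2 + η ^ 4 * (U ^ 2 + pR) + (U ^ 2 * j ^ 2 + pR) + v ^ 2))))) := by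
        gcongr
        · unfold Bd2
          positivity
    _ ≤ 2232 / e * (2 * (9 / 4) * (2352 / e1 * (5184 * (b ^ 10 *
        (k ^ 2 + η ^ 4 * (U ^ 2 + pR) + (U ^ 2 * j ^ 2 + pR) + v ^ 2))))) := by
        gcongr
    _ = 122464161792 * (b ^ 10 * (1 / e * (1 / e1 *
        (k ^ 2 + η ^ 4 * (U ^ 2 + pR) + (U ^ 2 * j ^ 2 + pR) + v ^ 2)))) := by ring
    _ ≤ 5 * 10 ^ 12 * (b ^ 10 * (1 / e * (1 / e1 *
        (k ^ 2 + η ^ 4 * (U ^ 2 + pR) + (U ^ 2 * j ^ 2 + pR) + v ^ 2)))) := by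
        gcongr
        norm_num
    _ = _ := by ring

lemma r3_c (hb : 1 ≤ b) (he : 0 < e) (he1 : 0 < e1) (hU : 0 ≤ U) (hp : 0 ≤ pR)
    (h0 : 0 ≤ η) (h1 : η ≤ 1 / 2) (hw0 : 0 ≤ wf) (hw : wf ≤ v) (hk4 : 0 ≤ k4) :
    2232 / e * (2 * (1 + η) ^ 2 * (e1 * (2568576 * B4 b wf (2 * (U ^ 4 + pR) + 8 * k4) +
      49536 * (b ^ 8 * (U ^ 4 + (1 + η) ^ 8 * pR))))) ≤
      5 * 10 ^ 12 * b ^ 10 * (1 / e * (e1 * (U ^ 4 + pR + k4 + v ^ 4))) := by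
  obtain ⟨e2, e6, e8⟩ := eta_pow h0 h1
  have hb8 : b ^ 8 ≤ b ^ 10 := pow_le_pow_right₀ hb (by norm_num)
  have hv : 0 ≤ v := hw0.trans hw
  have hwv : wf ^ 4 ≤ v ^ 4 := pow_le_pow_left₀ hw0 hw 4
  have hU4 : 0 ≤ U ^ 4 := by positivity
  have hv4 : 0 ≤ v ^ 4 := by positivity
  have h3 : 2568576 * B4 b wf (2 * (U ^ 4 + pR) + 8 * k4) +
      49536 * (b ^ 8 * (U ^ 4 + (1 + η) ^ 8 * pR)) ≤
      b ^ 8 * (166000000 * (U ^ 4 + pR + k4 + v ^ 4)) := by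
    unfold B4
    calc 2568576 * (8 * b ^ 8 * (2 * (U ^ 4 + pR) + 8 * k4) + 8 * b ^ 8 * wf ^ 4) +
          49536 * (b ^ 8 * (U ^ 4 + (1 + η) ^ 8 * pR))
        ≤ 2568576 * (8 * b ^ 8 * (2 * (U ^ 4 + pR) + 8 * k4) + 8 * b ^ 8 * v ^ 4) +
          49536 * (b ^ 8 * (U ^ 4 + 26 * pR)) := by gcongr
      _ = b ^ 8 * (2568576 * (16 * (U ^ 4 + pR) + 64 * k4 + 8 * v ^ 4) +
          49536 * (U ^ 4 + 26 * pR)) := by ring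
      _ ≤ b ^ 8 * (166000000 * (U ^ 4 + pR + k4 + v ^ 4)) := by
          gcongr
          linarith
  calc _ ≤ 2232 / e * (2 * (9 / 4) * (e1 * (b ^ 8 *
        (166000000 * (U ^ 4 + pR + k4 + v ^ 4))))) := by
        have : 0 ≤ 2568576 * B4 b wf (2 * (U ^ 4 + pR) + 8 * k4) +
          49536 * (b ^ 8 * (U ^ 4 + (1 + η) ^ 8 * pR)) := by
          unfold B4
          positivity
        gcongr
    _ ≤ 2232 / e * (2 * (9 / 4) * (e1 * (b ^ 10 *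
        (166000000 * (U ^ 4 + pR + k4 + v ^ 4))))) := by gcongr
    _ = 1667304000000 * (b ^ 10 * (1 / e * (e1 * (U ^ 4 + pR + k4 + v ^ 4)))) := by ring
    _ ≤ 5 * 10 ^ 12 * (b ^ 10 * (1 / e * (e1 * (U ^ 4 + pR + k4 + v ^ 4)))) := by
        gcongr
        norm_num
    _ = _ := by ring

lemma r3_d (hb : 1 ≤ b) (he : 0 < e) (he2 : 0 < e2) (hU : 0 ≤ U) (hp : 0 ≤ pR)
    (h0 : 0 ≤ η) (h1 : η ≤ 1 / 2) (hw0 : 0 ≤ wf) (hw : wf ≤ v) :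
    2232 / e * (9216 * (1 + η) ^ 2 * b ^ 6 * (e2 / 2 * (U ^ 3 + (1 + η) ^ 6 * pR) +
      2048 / e2 * (2 * b ^ 4 * (U ^ 5 + (1 + η) ^ 6 * (pR + pR)) +
        2 * b ^ 4 * wf ^ 2 * (U ^ 3 + (1 + η) ^ 6 * pR)))) ≤
      5 * 10 ^ 12 * b ^ 10 * (1 / e * (e2 * (U ^ 3 + pR) +
        1 / e2 * (U ^ 5 + pR + v ^ 2 * (U ^ 3 + pR)))) := by
  obtain ⟨g2, g6, g8⟩ := eta_pow h0 h1
  have hb6 : b ^ 6 ≤ b ^ 10 := pow_le_pow_right₀ hb (by norm_num)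
  have hv : 0 ≤ v := hw0.trans hw
  have hwv : wf ^ 2 ≤ v ^ 2 := pow_le_pow_left₀ hw0 hw 2
  have hU3 : 0 ≤ U ^ 3 := by positivity
  have hU5 : 0 ≤ U ^ 5 := by positivity
  have hv2 := sq_nonneg v
  have a1 : U ^ 3 + (1 + η) ^ 6 * pR ≤ 12 * (U ^ 3 + pR) := by
    have := mul_le_mul_of_nonneg_right g6 hp
    linarith
  have a2 : U ^ 5 + (1 + η) ^ 6 * (pR + pR) ≤ 24 * (U ^ 5 + pR) := by
    have := mul_le_mul_of_nonneg_right g6 (show 0 ≤ pR + pR by linarith)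
    linarith
  calc _ ≤ 2232 / e * (9216 * (9 / 4) * b ^ 6 * (e2 / 2 * (12 * (U ^ 3 + pR)) +
      2048 / e2 * (2 * b ^ 4 * (24 * (U ^ 5 + pR)) +
        2 * b ^ 4 * v ^ 2 * (12 * (U ^ 3 + pR))))) := by gcongr
    _ = 277696512 * (b ^ 6 * (1 / e * (e2 * (U ^ 3 + pR)))) +
        4549779652608 * (b ^ 10 * (1 / e * (1 / e2 * (U ^ 5 + pR)))) +
        2274889826304 * (b ^ 10 * (1 / e * (1 / e2 * (v ^ 2 * (U ^ 3 + pR))))) := by ring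
    _ ≤ 5 * 10 ^ 12 * (b ^ 10 * (1 / e * (e2 * (U ^ 3 + pR)))) +
        5 * 10 ^ 12 * (b ^ 10 * (1 / e * (1 / e2 * (U ^ 5 + pR)))) +
        5 * 10 ^ 12 * (b ^ 10 * (1 / e * (1 / e2 * (v ^ 2 * (U ^ 3 + pR))))) := by
        gcongr <;> norm_num
    _ = _ := by ring

lemma r3_e (hb : 1 ≤ b) (he : 0 < e) (hdd : dd ≤ 50 * b ^ 2 * (U * hg ^ 2 + p ^ 2) +
      25 * b ^ 2 * (v * (hg + p + η) ^ 2)) (hU : 0 ≤ U) (hv : 0 ≤ v) :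
    2232 / e * dd ≤ 5 * 10 ^ 12 * b ^ 10 * (1 / e * ((U * hg ^ 2 + p ^ 2) +
      v * (hg + p + η) ^ 2)) := by
  have hb2 : b ^ 2 ≤ b ^ 10 := pow_le_pow_right₀ hb (by norm_num)
  have h1 : 0 ≤ U * hg ^ 2 + p ^ 2 := by positivity
  have h2 : 0 ≤ v * (hg + p + η) ^ 2 := by positivity
  calc 2232 / e * dd ≤ 2232 / e * (50 * b ^ 2 * (U * hg ^ 2 + p ^ 2) +
      25 * b ^ 2 * (v * (hg + p + η) ^ 2)) := by gcongr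
    _ ≤ 2232 / e * (50 * b ^ 10 * (U * hg ^ 2 + p ^ 2) +
      25 * b ^ 10 * (v * (hg + p + η) ^ 2)) := by gcongr
    _ = 111600 * (b ^ 10 * (1 / e * (U * hg ^ 2 + p ^ 2))) +
      55800 * (b ^ 10 * (1 / e * (v * (hg + p + η) ^ 2))) := by ring
    _ ≤ 5 * 10 ^ 12 * (b ^ 10 * (1 / e * (U * hg ^ 2 + p ^ 2))) +
      5 * 10 ^ 12 * (b ^ 10 * (1 / e * (v * (hg + p + η) ^ 2))) := by
        gcongr <;> norm_num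
    _ = _ := by ring

lemma r3_f (hb : 1 ≤ b) (he : 0 < e) (hU : 0 ≤ U) (hp : 0 ≤ pR) (hk : kp ^ 2 ≤ 1)
    (h0 : 0 ≤ η) (h1 : η ≤ 1 / 2) (hw0 : 0 ≤ wf) (hw : wf ≤ v) (hv1 : v ≤ 1) :
    2232 / e * ((kp ^ 2 * (b ^ 2 * ((1 + η) ^ 2 + wf)) + 64 * b ^ 6 * (1 + η) ^ 8) *
      (17 / 2 * x ^ 2 * B2 b wf (U ^ 2 + pR))) ≤
      5 * 10 ^ 12 * b ^ 10 * (1 / e * (x ^ 2 * (U ^ 2 + pR + v ^ 2))) := by
  obtain ⟨g2, g6, g8⟩ := eta_pow h0 h1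
  have hb2 : b ^ 2 ≤ b ^ 6 := pow_le_pow_right₀ hb (by norm_num)
  have hv : 0 ≤ v := hw0.trans hw
  have hwv : wf ^ 2 ≤ v ^ 2 := pow_le_pow_left₀ hw0 hw 2
  have hv2 := sq_nonneg v
  have hx2 := sq_nonneg x
  have a1 : kp ^ 2 * (b ^ 2 * ((1 + η) ^ 2 + wf)) + 64 * b ^ 6 * (1 + η) ^ 8 ≤
      1668 * b ^ 6 := by
    calc _ ≤ 1 * (b ^ 6 * (9 / 4 + 1)) + 64 * b ^ 6 * 26 := by
          gcongr
          exact hw.trans hv1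
      _ ≤ 1668 * b ^ 6 := by
          have : 0 < b ^ 6 := by positivity
          linarith
  have a2 : B2 b wf (U ^ 2 + pR) ≤ 2 * b ^ 4 * (U ^ 2 + pR + v ^ 2) := by
    unfold B2
    calc 2 * b ^ 4 * (U ^ 2 + pR) + 2 * b ^ 4 * wf ^ 2 ≤
          2 * b ^ 4 * (U ^ 2 + pR) + 2 * b ^ 4 * v ^ 2 := by gcongr
      _ = _ := by ring
  have a3 : 0 ≤ B2 b wf (U ^ 2 + pR) := by
    unfold B2
    positivity
  calc _ ≤ 2232 / e * (1668 * b ^ 6 * (17 / 2 * x ^ 2 *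
        (2 * b ^ 4 * (U ^ 2 + pR + v ^ 2)))) := by gcongr
    _ = 63290592 * (b ^ 10 * (1 / e * (x ^ 2 * (U ^ 2 + pR + v ^ 2)))) := by ring
    _ ≤ 5 * 10 ^ 12 * (b ^ 10 * (1 / e * (x ^ 2 * (U ^ 2 + pR + v ^ 2)))) := by
        gcongr
        norm_num
    _ = _ := by ring

/-- **the number of the last equation** -/
theorem r3_num (hb : 1 ≤ b) (he : 0 < e) (he1 : 0 < e1) (he2 : 0 < e2) (ht : 1 - t ≤ T)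
    (ht1 : t ≤ 1) (hU : 0 ≤ U) (hp : 0 ≤ pR) (h0 : 0 ≤ η) (h1 : η ≤ 1 / 2) (hw0 : 0 ≤ wf)
    (hw : wf ≤ v) (hv1 : v ≤ 1) (hk4 : 0 ≤ k4) (hk : kp ^ 2 ≤ 1)
    (hdd : dd ≤ 50 * b ^ 2 * (U * hg ^ 2 + p ^ 2) + 25 * b ^ 2 * (v * (hg + p + η) ^ 2)) :
    RB b η x kp wf t e e1 e2 (k ^ 2) (U ^ 2 + pR)
      (4 * (1 + η) ^ 2 * U * (U * j ^ 2) + (4 * (1 + η) ^ 2) ^ 2 * (pR + pR))
      (2 * (U ^ 4 + pR) + 8 * k4) (U ^ 3 + (1 + η) ^ 6 * pR) (U ^ 4 + (1 + η) ^ 8 * pR)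
      (U ^ 5 + (1 + η) ^ 6 * (pR + pR)) dd ≤ R3n b T e e1 e2 U k j η v p pR hg x k4 := by
  have ha := r3_a hb he ht ht1 hU hp h0 h1
  have hb' := r3_b (k := k) (j := j) hb he he1 hU hp h0 h1 hw0 hw
  have hc := r3_c (k4 := k4) hb he he1 hU hp h0 h1 hw0 hw hk4
  have hd := r3_d hb he he2 hU hp h0 h1 hw0 hw
  have he' := r3_e hb he hdd hU (hw0.trans hw)
  have hf := r3_f (x := x) hb he hU hp hk h0 h1 hw0 hw hv1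
  unfold RB R3n
  refine (le_of_eq ?_).trans ((add_le_add ha (add_le_add (add_le_add (add_le_add (add_le_add
    hb' hc) hd) he') hf)).trans (le_of_eq ?_))
  · ring
  · ring

end

end Vale.Agent.P146.H694
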