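import Vale.Agent.P146.H694.K6e
import Vale.Agent.P146.H694.K6f
import Vale.Agent.P146.H643.KLow

/-!
# P146, K6: the last equation at the typical point, all numbers explicit

`c3_pt`: `D3 ≤ R3n`; `br_n3`: `br_n` with the observable of `H498.Amp8` and this number.
-/

open MeasureTheory ProbabilityTheory

namespace Vale.Agent.P146.H694

open Vale.Agent.P157.Lv hiding Dep
open Vale.Agent.P146.H425 Vale.Agent.P146.H646
open Vale.Agent.P146.H325 hiding cb cf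
open Vale.Agent.P146.H196 Vale.Agent.P146.H246 Vale.Agent.P146.H347
  Vale.Agent.P146.H816 Vale.Agent.P146.H119 Vale.Agent.P146.H475 Vale.Agent.P146.H418
  Vale.Agent.P146.H615 Vale.Agent.P146.H320 Vale.Agent.P146.H161

set_option linter.all false

/-- the numbers, with the tail of the second moment of the overlap -/
structure Nums3 (L : Law) (tm U p pR : ℝ) : Prop extends Nums L tm U p pR where
  tc : ∀ (S : Finset (Fin L.n)) (t u : ℝ), 0 ≤ t → t ≤ tm → 0 ≤ u → u ≤ 1 →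
    L.ex' t u (H317.ind (U ^ 2) (H412.CC L S t u)) ≤ pR

section dd

variable {n : ℕ} {LB LF : Type} [Fintype LB] [DecidableEq LB] [Fintype LF] [DecidableEq LF]

lemma dd_num {n b t wf v U hh g p η D0 D0f : ℝ} (hn : 0 < n) (ht0 : 0 ≤ t) (ht1 : t ≤ 1)
    (hw0 : 0 ≤ wf) (hw : wf ≤ v) (hU : 0 ≤ U) (hhg : 0 ≤ hh + g) (hp : 0 ≤ p) (hη : 0 ≤ η)
    (h0 : 0 ≤ D0) (h1 : D0 ≤ √n * (5 * (√U * (hh + g) + p))) (h2 : 0 ≤ D0f)
    (h3 : D0f ≤ 5 * (hh + g + p) + η) :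
    b ^ 2 / n * t * D0 ^ 2 + b ^ 2 * wf * D0f ^ 2 ≤
      50 * b ^ 2 * (U * (hh + g) ^ 2 + p ^ 2) + 25 * b ^ 2 * (v * (hh + g + p + η) ^ 2) := by
  have a1 : D0 ^ 2 ≤ n * (50 * (U * (hh + g) ^ 2 + p ^ 2)) := by
    calc D0 ^ 2 ≤ (√n * (5 * (√U * (hh + g) + p))) ^ 2 := pow_le_pow_left₀ h0 h1 2
      _ = √n ^ 2 * (25 * (√U * (hh + g) + p) ^ 2) := by ring
      _ = n * (25 * (√U * (hh + g) + p) ^ 2) := by rw [Real.sq_sqrt hn.le]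
      _ ≤ n * (25 * (2 * ((√U * (hh + g)) ^ 2 + p ^ 2))) := by
          gcongr
          nlinarith [sq_nonneg (√U * (hh + g) - p)]
      _ = _ := by rw [mul_pow, Real.sq_sqrt hU]; ring
  have a2 : D0f ^ 2 ≤ 25 * (hh + g + p + η) ^ 2 := by
    calc D0f ^ 2 ≤ (5 * (hh + g + p + η)) ^ 2 := pow_le_pow_left₀ h2 (by linarith) 2
      _ = _ := by ring
  have a3 : 0 ≤ n * (50 * (U * (hh + g) ^ 2 + p ^ 2)) := by positivity
  have hv : 0 ≤ v := hw0.trans hw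
  refine add_le_add ?_ ?_
  · calc b ^ 2 / n * t * D0 ^ 2 ≤ b ^ 2 / n * 1 * (n * (50 * (U * (hh + g) ^ 2 + p ^ 2))) := by
          gcongr
      _ = _ := by field_simp
  · calc b ^ 2 * wf * D0f ^ 2 ≤ b ^ 2 * v * (25 * (hh + g + p + η) ^ 2) := by gcongr
      _ = _ := by ring

end dd

/-- the number of the pairs -/
noncomputable def k4N (L : Law) (U dt : ℝ) : ℝ := 7 * U ^ 2 / (L.n * L.x ^ 2 * L.b ^ 2 * dt)

lemma rb_k4N {L : Law} (h : Adm L) (hx0 : 0 < L.x) {U dt rb pp : ℝ} (hdt : 0 < dt)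
    (hpp : pp ≤ (L.n : ℝ) ^ 2 / 2 * U ^ 2)
    (hrb : L.x ^ 2 * (L.b ^ 2 / L.n) * dt * rb ≤ 14 * pp) :
    rb ≤ (L.n : ℝ) ^ 4 * k4N L U dt := by
  have hn : (0 : ℝ) < L.n := by exact_mod_cast h.n0
  have hb := h.b0
  have hp : 0 < L.x ^ 2 * (L.b ^ 2 / L.n) * dt := by positivity
  have h1 : rb ≤ 14 * ((L.n : ℝ) ^ 2 / 2 * U ^ 2) / (L.x ^ 2 * (L.b ^ 2 / L.n) * dt) := by
    rw [le_div_iff₀ hp]
    linarith
  refine h1.trans (le_of_eq ?_)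
  unfold k4N
  field_simp
  ring

lemma pp_le_num {L : Law} (h : Adm L) (S : Finset (Fin L.n)) (t u : ℝ) {U : ℝ}
    (hcc : L.ex' t u (H412.CC L S t u) ≤ U ^ 2) : L.pp S t u ≤ (L.n : ℝ) ^ 2 / 2 * U ^ 2 := by
  have hn' : (0 : ℝ) < L.n := by exact_mod_cast h.n0
  have h1 := H643.CC_eq_rr (S := S) (t := t) (u := u) h.lam0 h.η0 h.n0
  have e : H643.CC L S t u = L.ex' t u (H412.CC L S t u) := rfl
  rw [e] at h1
  refine le_trans ?_ (mul_le_mul_of_nonneg_left hcc (show 0 ≤ (L.n : ℝ) ^ 2 / 2 by positivity))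
  rw [h1]
  unfold Law.rr
  have h2 : (0 : ℝ) ≤ S.card := Nat.cast_nonneg _
  have e2 : (L.n : ℝ) ^ 2 / 2 * ((S.card : ℝ) / (L.n : ℝ) ^ 2 + 2 * L.pp S t u / (L.n : ℝ) ^ 2) =
      S.card / 2 + L.pp S t u := by
    field_simp
  rw [e2]
  linarith

section pt

variable {L : Law} {t2 t1 u t : ℝ} {BL : Finset (Fin 3)}

/-- the tail of the overlap -/
lemma in_Q (h : Adm L) (hs : Sh (c3 t2 t1) (H418.cf L.vp u) BL {true} 1 (√L.vp) t u)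
    (ht0 : 0 ≤ t) (ht1 : t ≤ 1) (hu0 : 0 ≤ u) (huu : u ≤ 1) {U pR : ℝ} (m : ℕ)
    (hN : L.ex' t u (H317.ind U (L.Q (Sn L.n m) t u)) ≤ pR) :
    exS L.n L.b (c3 t2 t1) (H418.cf L.vp u) L.s L.η L.lam L.c L.x
      (H317.ind U (H317.Qk L.n L.b (c3 t2 t1) (H418.cf L.vp u) L.s L.η L.lam L.c L.x (Sn L.n m)
        (Kset (Sn L.n m) BL {true}))) ≤ pR := by
  have e4 := Q_can h hs ht0 ht1 hu0 huu (Sn L.n m)
    (φ := fun q => if U < q then (1 : ℝ) else 0)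
    (Measurable.ite (measurableSet_lt measurable_const measurable_id) measurable_const
      measurable_const) fun C => ⟨1, fun v _ => by split_ifs <;> norm_num⟩
  exact (le_of_eq e4).trans hN

/-- the tail of the second moment -/
lemma in_C (h : Adm L) (hs : Sh (c3 t2 t1) (H418.cf L.vp u) BL {true} 1 (√L.vp) t u)
    (ht0 : 0 ≤ t) (ht1 : t ≤ 1) (hu0 : 0 ≤ u) (huu : u ≤ 1) {U pR : ℝ} {S S' : Finset (Fin L.n)}
    (hSS : S ⊆ S') (hN : L.ex' t u (H317.ind (U ^ 2) (H412.CC L S' t u)) ≤ pR) :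
    exS L.n L.b (c3 t2 t1) (H418.cf L.vp u) L.s L.η L.lam L.c L.x
      (H317.ind (U ^ 2) (H317.CCv L.n L.b (c3 t2 t1) (H418.cf L.vp u) L.s L.η L.lam L.c L.x
        S (Kset S' BL {true}))) ≤ pR := by
  have hw := wt_sk (n := L.n) (LB := Fin 3) (LF := Bool) (b := L.b) (cB := c3 t2 t1)
    (cF := H418.cf L.vp u) (s := L.s) (c := L.c) (x := L.x) h.lam0 h.η0
  have e4 := CC_can h hs ht0 ht1 hu0 huu S'
    (φ := fun q => if U ^ 2 < q then (1 : ℝ) else 0)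
    (Measurable.ite (measurableSet_lt measurable_const measurable_id) measurable_const
      measurable_const) (C0 := 1) fun v => by split_ifs <;> norm_num
  refine le_trans (ex_mono hw (H317.bm_ind (H317.bm_CCv h.lam0 h.η0 _ _).meas _)
    (H317.bm_ind (H317.bm_CCv h.lam0 h.η0 S' _).meas _) fun z => ?_)
    ((le_of_eq e4).trans hN)
  have h1 := CCv_mono (b := L.b) (s := L.s) (η := L.η) (lam := L.lam) (c := L.c) (x := L.x)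
    (cB := c3 t2 t1) (cF := H418.cf L.vp u) hSS (Kset S' BL {true}) z
  unfold H317.ind
  split_ifs with h2 h3 h3
  · exact le_rfl
  · exact absurd (h2.trans_le h1) h3
  · exact zero_le_one
  · exact le_rfl

/-- the distances of the hidden rows -/
lemma in_d (h : Adm L) (hη1 : L.η ≤ 1 / 2) (hs0 : L.s ≠ 0) (hx1 : L.x < 1) {r0 : ℝ}
    (hk0 : 0 ≤ 1 - (1 - L.x) * r0) (hk1 : 1 - (1 - L.x) * r0 ≤ 1) (hr0 : |r0| ≤ 1) (hb : 1 ≤ L.b)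
    (hs : Sh (c3 t2 t1) (H418.cf L.vp u) BL {true} 1 (√L.vp) t u)
    (ht0 : 0 ≤ t) (ht1 : t ≤ 1) (hu0 : 0 ≤ u) (huu : u ≤ 1) {U hh g p : ℝ} (hU0 : 0 < U)
    {m : ℕ} (hm0 : 1 ≤ m) (hml : m ≤ L.n) (hh1 : 1 / √(m : ℝ) ≤ hh)
    (hg : L.lam / (L.s ^ 2 * L.n) ≤ g) (hp : 0 ≤ p)
    (hcc : L.ex' t u (H412.CC L Finset.univ t u) ≤ U ^ 2) (hps : PstL L t u ≤ p ^ 2) :
    L.b ^ 2 / L.n * t * d0 L.n L.b (c3 t2 t1) (H418.cf L.vp u) L.s L.η L.lam L.c L.x r0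
        (Kset (Sn L.n m) BL {true}) (Kset Finset.univ BL {true})
        (Finset.univ \ Sn L.n m).card ^ 2 +
      L.b ^ 2 * (u * L.vp / L.b ^ 2) * d0f L.n L.b (c3 t2 t1) (H418.cf L.vp u) L.s L.η L.lam L.c
        L.x r0 (Finset.univ \ Sn L.n m).card ^ 2 ≤
      50 * L.b ^ 2 * (U * (hh + g) ^ 2 + p ^ 2) +
        25 * L.b ^ 2 * (L.vp * (hh + g + p + L.η) ^ 2) := by
  have hn : (0 : ℝ) < L.n := by exact_mod_cast h.n0
  have hb0 : 0 < L.b := h.b0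
  have hb2 : 1 ≤ L.b ^ 2 := one_le_pow₀ hb
  have hv0 := h.vp0
  have hcard := card_hidden hml
  have hh0 : 0 ≤ hh := le_trans (by positivity) hh1
  have hs2 : 0 < L.s ^ 2 := by positivity
  have hl0 := h.lam0
  have hg0 : 0 ≤ g := le_trans (by positivity) hg
  have hw := wt_sk (n := L.n) (LB := Fin 3) (LF := Bool) (b := L.b) (cB := c3 t2 t1)
    (cF := H418.cf L.vp u) (s := L.s) (c := L.c) (x := L.x) h.lam0 h.η0
  have hw0 : 0 ≤ u * L.vp / L.b ^ 2 := by positivity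
  have hwv : u * L.vp / L.b ^ 2 ≤ L.vp := by
    rw [div_le_iff₀ (by positivity)]
    calc u * L.vp ≤ 1 * L.vp := mul_le_mul_of_nonneg_right huu hv0.le
      _ = L.vp * 1 := by ring
      _ ≤ L.vp * L.b ^ 2 := mul_le_mul_of_nonneg_left hb2 hv0.le
  have hR : R2 L.n L.b (c3 t2 t1) (H418.cf L.vp u) L.s L.η L.lam L.c L.x
      (Kset Finset.univ BL {true}) ≤ (L.n * U) ^ 2 := by
    rw [R2_can h hs ht0 ht1 hu0 huu, mul_pow]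
    exact mul_le_mul_of_nonneg_left hcc (by positivity)
  have hP : Pst L.n L.b (c3 t2 t1) (H418.cf L.vp u) L.s L.η L.lam L.c L.x ≤ p ^ 2 := by
    rw [Pst_can h hs ht0 ht1 hu0 huu]
    exact hps
  have hP0 : 0 ≤ Pst L.n L.b (c3 t2 t1) (H418.cf L.vp u) L.s L.η L.lam L.c L.x := by
    have bin : Bm fun w : ℝ × Xs L.n => ins L.η w.1 := by
      refine Bm.of ((measurable_ins L.η).comp measurable_fst) (C := 1) fun w => ?_
      show |ins L.η w.1| ≤ 1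
      rw [abs_of_nonneg (ins_nonneg _ _)]
      exact ins_le _ _
    have hG := gmA (n := L.n) L.b (c3 t2 t1) (H418.cf L.vp u) L.s h.lam0 h.η0 L.c
    unfold Pst
    exact ex_nonneg hw fun z => (av_avm hG 1).nonneg
      ((Bm.const 1).sub bin) (fun w => by
        show 0 ≤ 1 - ins L.η w.1
        linarith [ins_le L.η w.1]) z
  have hd0 := d0_num (n := L.n) (K := Kset (Sn L.n m) BL {true})
    (K1 := Kset Finset.univ BL {true}) (b := L.b) (cB := c3 t2 t1) (cF := H418.cf L.vp u)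
    (s := L.s) (η := L.η) (lam := L.lam) (x := L.x) (h := hh)
    (r0 := r0) (c := L.c) (D := (Finset.univ \ Sn L.n m).card) h.n0 hs0 h.lam0 h.η0 hη1 h.x0 hx1
    hr0 hU0.le (by rw [hcard]; omega) (by rw [hcard]; exact hh1) hg hp
    ((R2_mono h.lam0 h.η0 (Kset_mono (Finset.subset_univ _) (Finset.Subset.refl _)
      (Finset.Subset.refl _))).trans hR) hR hP0 hP
  have hd0f := d0f_num (n := L.n) (b := L.b) (cB := c3 t2 t1) (cF := H418.cf L.vp u)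
    (s := L.s) (η := L.η) (lam := L.lam) (x := L.x) (h := hh)
    (r0 := r0) (c := L.c) (D := (Finset.univ \ Sn L.n m).card) h.n0 hs0 h.lam0 h.η0 hη1 h.x0 hx1
    hr0 hk0 hk1 (by rw [hcard]; omega) (by rw [hcard]; exact hh1) hg hp hP0 hP
  exact dd_num (b := L.b) (t := t) (wf := u * L.vp / L.b ^ 2) hn ht0 ht1 hw0 hwv hU0.le
    (add_nonneg hh0 hg0) hp h.η0
    (d0_nonneg hx1.le (Kset (Sn L.n m) BL {true}) (Kset Finset.univ BL {true})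
      (Finset.univ \ Sn L.n m).card) hd0 (d0f_nonneg h.η0 hx1.le _) hd0f

/-- the last equation from the inputs, first part -/
lemma c3_in0 (h : Adm L) (hs0 : L.s ≠ 0)
    (hx0 : 0 < L.x) (hx1 : L.x < 1) {r0 wf : ℝ}
    (hc : L.c = L.s ^ 2 * L.n * (1 - (1 - L.x) * r0))
    (hxb1 : L.x * (2 * L.b) ≤ 1 / 2) (hxb2 : L.x * (2 * L.b) ^ 2 ≤ 1)
    (hw0 : 0 ≤ wf) (hbb : L.b ^ 2 * (t + wf) ≤ (2 * L.b) ^ 2)
    (hcB : ∑ l ∈ BL, c3 t2 t1 l ^ 2 = t)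
    (hcF : ∑ l ∈ ({true} : Finset Bool), H418.cf L.vp u l ^ 2 = L.b ^ 2 * wf) (ht1 : t ≤ 1)
    {m : ℕ} (hm0 : 2 ≤ m) (hml : m ≤ L.n)
    {i0 i1 : Fin L.n} (hi0 : i0.1 + m = L.n) (hi1 : i1.1 + 1 = L.n)
    {U pR e e1 e2 k j k4 : ℝ} (hU0 : 0 < U)
    (he : 0 < e) (he' : e ≤ 1) (he1 : 0 < e1) (he2 : 0 < e2)
    (hpQ : exS L.n L.b (c3 t2 t1) (H418.cf L.vp u) L.s L.η L.lam L.c L.x
      (H317.ind U (H317.Qk L.n L.b (c3 t2 t1) (H418.cf L.vp u) L.s L.η L.lam L.c L.x (Sn L.n m)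
        (Kset (Sn L.n m) BL {true}))) ≤ pR)
    (hpC : exS L.n L.b (c3 t2 t1) (H418.cf L.vp u) L.s L.η L.lam L.c L.x
      (H317.ind (U ^ 2) (H317.CCv L.n L.b (c3 t2 t1) (H418.cf L.vp u) L.s L.η L.lam L.c L.x
        (Sn L.n m) (Kset (insert i0 (Sn L.n m)) BL {true}))) ≤ pR)
    (hinc : exS L.n L.b (c3 t2 t1) (H418.cf L.vp u) L.s L.η L.lam L.c L.x
        (H317.Qk L.n L.b (c3 t2 t1) (H418.cf L.vp u) L.s L.η L.lam L.c L.x (Sn L.n m)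
          (Kset (insert i0 (Sn L.n m)) BL {true})) -
      exS L.n L.b (c3 t2 t1) (H418.cf L.vp u) L.s L.η L.lam L.c L.x
        (H317.Qk L.n L.b (c3 t2 t1) (H418.cf L.vp u) L.s L.η L.lam L.c L.x (Sn L.n m)
          (Kset (Sn L.n m) BL {true})) ≤ U * j ^ 2)
    (hk2 : exS L.n L.b (c3 t2 t1) (H418.cf L.vp u) L.s L.η L.lam L.c L.x
      (H317.RKk L.n L.b (c3 t2 t1) (H418.cf L.vp u) L.s L.η L.lam L.c L.x (Sn L.n m)
        (Kset (insert i0 (Sn L.n m)) BL {true})) ≤ k ^ 2)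
    (hk4 : exS L.n L.b (c3 t2 t1) (H418.cf L.vp u) L.s L.η L.lam L.c L.x
      (H317.K4v L.n L.b (c3 t2 t1) (H418.cf L.vp u) L.s L.η L.lam L.c L.x (Sn L.n m)
        (Kset (insert i0 (Sn L.n m)) BL {true})) ≤ k4) :
    D3 L (1 - (1 - L.x) * r0) t2 t1 u m BL
      (C3Amp.Th3 L.n L.b (c3 t2 t1) (H418.cf L.vp u) L.s L.η L.lam L.c L.x) i0 i1 ≤
    C3Amp.RB L.b L.η L.x (1 - (1 - L.x) * r0) wf t e e1 e2 (k ^ 2) (U ^ 2 + pR)
      (4 * (1 + L.η) ^ 2 * U * (U * j ^ 2) + (4 * (1 + L.η) ^ 2) ^ 2 * (pR + pR))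
      (2 * (U ^ 4 + pR) + 8 * k4) (U ^ 3 + (1 + L.η) ^ 6 * pR) (U ^ 4 + (1 + L.η) ^ 8 * pR)
      (U ^ 5 + (1 + L.η) ^ 6 * (pR + pR))
      (L.b ^ 2 / L.n * t * d0 L.n L.b (c3 t2 t1) (H418.cf L.vp u) L.s L.η L.lam L.c L.x r0
        (Kset (Sn L.n m) BL {true}) (Kset Finset.univ BL {true})
        (Finset.univ \ Sn L.n m).card ^ 2 +
      L.b ^ 2 * wf * d0f L.n L.b (c3 t2 t1) (H418.cf L.vp u) L.s L.η L.lam L.c
        L.x r0 (Finset.univ \ Sn L.n m).card ^ 2) := by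
  have hi0' : i0 ∉ Sn L.n m := by
    simp only [Sn, Finset.mem_filter, Finset.mem_univ, true_and]
    omega
  have hi1' : i1 ∉ Sn L.n m := by
    simp only [Sn, Finset.mem_filter, Finset.mem_univ, true_and]
    omega
  have hcard := card_hidden hml
  have hne : (Finset.univ \ Sn L.n m).Nonempty := by
    rw [← Finset.card_pos, hcard]
    omega
  have hb0 : 0 < L.b := h.b0
  unfold D3
  exact C3Amp.hc3_num (n := L.n) (b := L.b) (cB := c3 t2 t1) (cF := H418.cf L.vp u)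
    (s := L.s) (η := L.η) (lam := L.lam) (c := L.c) (x := L.x) (r0 := r0) (S := Sn L.n m)
    (S1 := Finset.univ) (BL := BL) (FL := {true}) (i0 := i0) (i1 := i1)
    (t := t) (wf := wf) (b0 := 2 * L.b) (e := e) (e1 := e1) (e2 := e2) (U := U)
    (pQ := pR) (pC := pR) h.lam0 h.η0 hs0 h.n0 hx0 hx1 hc (Finset.subset_univ _) hi0' hi1' hne
    hw0 hcB ht1 hcF (by positivity) hbb hxb1 hxb2 he he' he1 he2
    hU0.le hpQ hpC hinc hk2 hk4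

/-- the last equation from the inputs -/
lemma c3_in (h : Adm L) (hη1 : L.η ≤ 1 / 2) (hs0 : L.s ≠ 0)
    (hx0 : 0 < L.x) (hx1 : L.x < 1) {r0 : ℝ}
    (hc : L.c = L.s ^ 2 * L.n * (1 - (1 - L.x) * r0)) (hk0 : 0 ≤ 1 - (1 - L.x) * r0)
    (hk1 : 1 - (1 - L.x) * r0 ≤ 1) (hr0 : |r0| ≤ 1)
    (hb : 1 ≤ L.b) (hxb : 4 * L.x * L.b ^ 2 ≤ 1) (hvp : L.vp ≤ 1)
    (hs : Sh (c3 t2 t1) (H418.cf L.vp u) BL {true} 1 (√L.vp) t u)
    (ht0 : 0 ≤ t) (ht1 : t ≤ 1) (hu0 : 0 ≤ u) (huu : u ≤ 1)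
    {m : ℕ} (hm0 : 2 ≤ m) (hml : m ≤ L.n)
    {i0 i1 : Fin L.n} (hi0 : i0.1 + m = L.n) (hi1 : i1.1 + 1 = L.n)
    {U hh g p T pR e e1 e2 k j k4 : ℝ} (hU0 : 0 < U) (hT : 1 - t ≤ T)
    (hh1 : 1 / √(m : ℝ) ≤ hh)
    (hg : L.lam / (L.s ^ 2 * L.n) ≤ g) (hp : 0 ≤ p) (he : 0 < e) (he' : e ≤ 1) (he1 : 0 < e1)
    (he2 : 0 < e2)
    (hcc : L.ex' t u (H412.CC L Finset.univ t u) ≤ U ^ 2) (hps : PstL L t u ≤ p ^ 2)
    (hpR : 0 ≤ pR) (hk4n : 0 ≤ k4)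
    (hpQ : exS L.n L.b (c3 t2 t1) (H418.cf L.vp u) L.s L.η L.lam L.c L.x
      (H317.ind U (H317.Qk L.n L.b (c3 t2 t1) (H418.cf L.vp u) L.s L.η L.lam L.c L.x (Sn L.n m)
        (Kset (Sn L.n m) BL {true}))) ≤ pR)
    (hpC : exS L.n L.b (c3 t2 t1) (H418.cf L.vp u) L.s L.η L.lam L.c L.x
      (H317.ind (U ^ 2) (H317.CCv L.n L.b (c3 t2 t1) (H418.cf L.vp u) L.s L.η L.lam L.c L.x
        (Sn L.n m) (Kset (insert i0 (Sn L.n m)) BL {true}))) ≤ pR)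
    (hinc : exS L.n L.b (c3 t2 t1) (H418.cf L.vp u) L.s L.η L.lam L.c L.x
        (H317.Qk L.n L.b (c3 t2 t1) (H418.cf L.vp u) L.s L.η L.lam L.c L.x (Sn L.n m)
          (Kset (insert i0 (Sn L.n m)) BL {true})) -
      exS L.n L.b (c3 t2 t1) (H418.cf L.vp u) L.s L.η L.lam L.c L.x
        (H317.Qk L.n L.b (c3 t2 t1) (H418.cf L.vp u) L.s L.η L.lam L.c L.x (Sn L.n m)
          (Kset (Sn L.n m) BL {true})) ≤ U * j ^ 2)
    (hk2 : exS L.n L.b (c3 t2 t1) (H418.cf L.vp u) L.s L.η L.lam L.c L.x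
      (H317.RKk L.n L.b (c3 t2 t1) (H418.cf L.vp u) L.s L.η L.lam L.c L.x (Sn L.n m)
        (Kset (insert i0 (Sn L.n m)) BL {true})) ≤ k ^ 2)
    (hk4 : exS L.n L.b (c3 t2 t1) (H418.cf L.vp u) L.s L.η L.lam L.c L.x
      (H317.K4v L.n L.b (c3 t2 t1) (H418.cf L.vp u) L.s L.η L.lam L.c L.x (Sn L.n m)
        (Kset (insert i0 (Sn L.n m)) BL {true})) ≤ k4) :
    D3 L (1 - (1 - L.x) * r0) t2 t1 u m BL
      (C3Amp.Th3 L.n L.b (c3 t2 t1) (H418.cf L.vp u) L.s L.η L.lam L.c L.x) i0 i1 ≤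
      R3n L.b T e e1 e2 U k j L.η L.vp p pR (hh + g) L.x k4 := by
  have hv0 := h.vp0
  have hb0 : 0 < L.b := h.b0
  have hb2 : 1 ≤ L.b ^ 2 := one_le_pow₀ hb
  have hcB : ∑ l ∈ BL, c3 t2 t1 l ^ 2 = t := by rw [hs.shB, one_pow, mul_one]
  have hcF : ∑ l ∈ ({true} : Finset Bool), H418.cf L.vp u l ^ 2 = L.b ^ 2 * (u * L.vp / L.b ^ 2) := by
    rw [hs.shF, Real.sq_sqrt hv0.le]
    field_simp
  have hw0 : 0 ≤ u * L.vp / L.b ^ 2 := by positivity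
  have hwv : u * L.vp / L.b ^ 2 ≤ L.vp := by
    rw [div_le_iff₀ (by positivity)]
    calc u * L.vp ≤ 1 * L.vp := mul_le_mul_of_nonneg_right huu hv0.le
      _ = L.vp * 1 := by ring
      _ ≤ L.vp * L.b ^ 2 := mul_le_mul_of_nonneg_left hb2 hv0.le
  have hdd := in_d h hη1 hs0 hx1 hk0 hk1 hr0 hb hs ht0 ht1 hu0 huu hU0 (by omega : 1 ≤ m) hml
    hh1 hg hp hcc hps
  have hbb : L.b ^ 2 * (t + u * L.vp / L.b ^ 2) ≤ (2 * L.b) ^ 2 := by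
    have h1 : t + u * L.vp / L.b ^ 2 ≤ 2 := by linarith only [ht1, hwv, hvp]
    calc L.b ^ 2 * (t + u * L.vp / L.b ^ 2) ≤ L.b ^ 2 * 2 :=
          mul_le_mul_of_nonneg_left h1 (by positivity)
      _ ≤ _ := by
          rw [mul_pow]
          linarith only [hb2]
  have hxb1 : L.x * (2 * L.b) ≤ 1 / 2 := by
    have h1 : L.b ≤ L.b ^ 2 := by
      rw [sq]
      exact le_mul_of_one_le_left hb0.le hb
    have h2 := mul_le_mul_of_nonneg_left h1 hx0.le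
    linarith only [h2, hxb]
  have hxb2 : L.x * (2 * L.b) ^ 2 ≤ 1 := by
    have : L.x * (2 * L.b) ^ 2 = 4 * L.x * L.b ^ 2 := by ring
    rw [this]
    exact hxb
  exact (c3_in0 h hs0 hx0 hx1 hc hxb1 hxb2 hw0 hbb hcB hcF ht1 hm0 hml hi0 hi1 hU0 he he' he1 he2
    hpQ hpC hinc hk2 hk4).trans
    (r3_num hb he he1 he2 hT ht1 hU0.le hpR h.η0 hη1 hw0 hwv hvp hk4n
    (pow_le_one₀ hk0 hk1) hdd)

end pt

/-- **the last equation at the typical point** -/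
theorem c3_pt {L : Law} (h : Adm L) (hη1 : L.η ≤ 1 / 2) (hs0 : L.s ≠ 0)
    (hx0 : 0 < L.x) (hx1 : L.x < 1) {r0 kp : ℝ} (hkp : kp = 1 - (1 - L.x) * r0)
    (hc : L.c = L.s ^ 2 * L.n * kp) (hk0 : 0 ≤ kp) (hk1 : kp ≤ 1) (hr0 : |r0| ≤ 1)
    (hb : 1 ≤ L.b) (hxb : 4 * L.x * L.b ^ 2 ≤ 1) (hvp : L.vp ≤ 1)
    {m1 m2 : ℕ} (hm1 : 2 ≤ m1) (h12 : m1 ≤ m2) (hmn : 2 * m2 ≤ L.n)
    {t2 t1 u a0 a1 u0 u1 t : ℝ} {BL : Finset (Fin 3)}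
    (hs : Sh (c3 t2 t1) (H418.cf L.vp u) BL {true} 1 (√L.vp) t u)
    (ht0 : 0 ≤ t) (hta : t ≤ a1) (haa : a0 < a1) (ha1 : a1 ≤ 1) (hu0 : 0 ≤ u) (huu : u ≤ 1)
    (hua : u0 < u1) (hu1 : u1 ≤ 1) (hu00 : 0 ≤ u0) {m : ℕ} (hm : m ∈ Finset.Icc m1 m2)
    {i0 i1 : Fin L.n} (hi0 : i0.1 + m = L.n) (hi1 : i1.1 + 1 = L.n)
    {U g p T tm pR e e1 e2 : ℝ} (hU0 : 0 < U) (hT : 1 - t ≤ T)
    (hg : L.lam / (L.s ^ 2 * L.n) ≤ g) (hp : 0 ≤ p) (he : 0 < e) (he' : e ≤ 1) (he1 : 0 < e1)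
    (he2 : 0 < e2) (hN : Nums3 L tm U p pR) (hatm : a1 ≤ tm)
    (hTyp : Typ L (c3 t2 t1) (H418.cf L.vp u) a1 u1 (a1 - a0) (u1 - u0) 14
      ((m2 : ℝ) - m1 + 1) m BL {true}) :
    D3 L kp t2 t1 u m BL (C3Amp.Th3 L.n L.b (c3 t2 t1) (H418.cf L.vp u) L.s L.η L.lam L.c L.x)
      i0 i1 ≤
      R3n L.b T e e1 e2 U (kN L U (u1 - u0)) (jN m1 m2) L.η L.vp p pR (1 / √(m1 : ℝ) + g) L.x
        (k4N L U (a1 - a0)) := by
  obtain ⟨hm1', hm2'⟩ := Finset.mem_Icc.1 hm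
  have hn : (0 : ℝ) < L.n := by exact_mod_cast h.n0
  have hm10 : (0 : ℝ) < m1 := by
    have : 0 < m1 := by omega
    exact_mod_cast this
  have hmm : (m1 : ℝ) ≤ m := by exact_mod_cast hm1'
  have h12' : (m1 : ℝ) ≤ m2 := by exact_mod_cast h12
  have hM : 0 < (m2 : ℝ) - m1 + 1 := by linarith
  have htm : t ≤ tm := hta.trans hatm
  have ha10 : 0 ≤ a1 := ht0.trans hta
  have ht1 : t ≤ 1 := hta.trans ha1
  have hj2 : jN m1 m2 ^ 2 = 14 / ((m2 : ℝ) - m1 + 1) := by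
    unfold jN
    rw [Real.sq_sqrt (by positivity)]
  have hm0 : 1 ≤ m := by omega
  have hml : m ≤ L.n := by omega
  have hins : insert i0 (Sn L.n m) = Sn L.n (m - 1) := Sn_insert hm0 hi0
  have hSS : Sn L.n m ⊆ insert i0 (Sn L.n m) := Finset.subset_insert _ _
  have hb0 := h.b0
  have hk4n : 0 ≤ k4N L U (a1 - a0) := by
    unfold k4N
    have : 0 < a1 - a0 := by linarith
    positivity
  have hinc : exS L.n L.b (c3 t2 t1) (H418.cf L.vp u) L.s L.η L.lam L.c L.x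
        (H317.Qk L.n L.b (c3 t2 t1) (H418.cf L.vp u) L.s L.η L.lam L.c L.x (Sn L.n m)
          (Kset (insert i0 (Sn L.n m)) BL {true})) -
      exS L.n L.b (c3 t2 t1) (H418.cf L.vp u) L.s L.η L.lam L.c L.x
        (H317.Qk L.n L.b (c3 t2 t1) (H418.cf L.vp u) L.s L.η L.lam L.c L.x (Sn L.n m)
          (Kset (Sn L.n m) BL {true})) ≤ U * jN m1 m2 ^ 2 := by
    rw [inc_le' h (Sn L.n m) i0, div_le_iff₀ hn]
    refine (hTyp.inc i0 hi0).trans ?_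
    have h1 := hN.toNums.q1 h hU0 Finset.univ ha10 hatm (by linarith : 0 ≤ u1) hu1
    rw [hj2]
    calc 14 * (L.n * L.ex' a1 u1 (L.Q Finset.univ a1 u1)) / ((m2 : ℝ) - m1 + 1)
        ≤ 14 * (L.n * U) / ((m2 : ℝ) - m1 + 1) := by gcongr
      _ = _ := by ring
  have hk2 : exS L.n L.b (c3 t2 t1) (H418.cf L.vp u) L.s L.η L.lam L.c L.x
      (H317.RKk L.n L.b (c3 t2 t1) (H418.cf L.vp u) L.s L.η L.lam L.c L.x (Sn L.n m)
        (Kset (insert i0 (Sn L.n m)) BL {true})) ≤ kN L U (u1 - u0) ^ 2 := by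
    refine rkk_le h hSS ?_
    rw [← mul_pow, hins]
    exact rk_kN h hx0 hU0.le (by linarith) (hN.toNums.f1 h hU0 Finset.univ ha10 hatm
      (by linarith) hu1) (hTyp.rk _ (Or.inr rfl))
  have hk4 : exS L.n L.b (c3 t2 t1) (H418.cf L.vp u) L.s L.η L.lam L.c L.x
      (H317.K4v L.n L.b (c3 t2 t1) (H418.cf L.vp u) L.s L.η L.lam L.c L.x (Sn L.n m)
        (Kset (insert i0 (Sn L.n m)) BL {true})) ≤ k4N L U (a1 - a0) := by
    refine k4_le h hSS ?_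
    rw [hins]
    exact rb_k4N h hx0 (by linarith) (pp_le_num h Finset.univ a1 u1
      (hN.cc _ _ _ ha10 hatm (by linarith) hu1)) (hTyp.rb _ (Or.inr rfl))
  have hpQ := in_Q h hs ht0 ht1 hu0 huu m (hN.tl _ t u ht0 htm hu0 huu)
  have hpC := in_C h hs ht0 ht1 hu0 huu hSS (hN.tc _ t u ht0 htm hu0 huu)
  have hh1 : 1 / √(m : ℝ) ≤ 1 / √(m1 : ℝ) :=
    one_div_le_one_div_of_le (Real.sqrt_pos.2 hm10) (Real.sqrt_le_sqrt hmm)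
  have hw := wt_sk (n := L.n) (LB := Fin 3) (LF := Bool) (b := L.b) (cB := c3 t2 t1)
    (cF := H418.cf L.vp u) (s := L.s) (c := L.c) (x := L.x) h.lam0 h.η0
  have hpR : 0 ≤ pR := le_trans (ex_nonneg hw fun z => H317.ind_nonneg _ _ _) hpQ
  subst hkp
  exact c3_in h hη1 hs0 hx0 hx1 hc hk0 hk1 hr0 hb hxb hvp hs ht0 ht1 hu0 huu (by omega) hml hi0
    hi1 hU0 hT hh1 hg hp he he' he1 he2 (hN.cc _ t u ht0 htm hu0 huu)
    (hN.ps t u ht0 htm hu0 huu) hpR hk4n hpQ hpC hinc hk2 hk4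

lemma R3n_mono {b T e e1 e2 U k j η v p pR hg x k4 k4' : ℝ} (he : 0 < e) (he1 : 0 < e1)
    (h : k4 ≤ k4') : R3n b T e e1 e2 U k j η v p pR hg x k4 ≤
      R3n b T e e1 e2 U k j η v p pR hg x k4' := by
  unfold R3n
  have h10 : 0 ≤ b ^ 10 := by
    have : b ^ 10 = (b ^ 5) ^ 2 := by ring
    rw [this]
    exact sq_nonneg _
  gcongr

lemma k4N_mono {L : Law} (h : Adm L) (hx0 : 0 < L.x) (U : ℝ) {dt dt' : ℝ} (h0 : 0 < dt)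
    (hd : dt ≤ dt') : k4N L U dt' ≤ k4N L U dt := by
  have hn : (0 : ℝ) < L.n := by exact_mod_cast h.n0
  have hb := h.b0
  unfold k4N
  gcongr

/-- **Exclusion of the big root, `n`-level, with the observable and the last equation.** -/
theorem br_n3 {L : Law} (h : Adm L) (hη : 0 < L.η) (hη1 : L.η ≤ 1 / 2) (hs0 : L.s ≠ 0)
    (hx0 : 0 < L.x) (hx1 : L.x < 1) {r0 kp : ℝ} (hkp : kp = 1 - (1 - L.x) * r0)
    (hc : L.c = L.s ^ 2 * L.n * kp) (hk0 : 0 ≤ kp) (hk1 : kp ≤ 1) (hr0 : |r0| ≤ 1)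
    (hb : 1 ≤ L.b) (hx2 : L.x ^ 2 * (L.b ^ 2 + L.vp) ≤ 1 / 4) (hxb : 4 * L.x * L.b ^ 2 ≤ 1)
    (hvp : L.vp ≤ 1)
    {m1 m2 : ℕ} (hm1 : 2 ≤ m1) (h12 : m1 ≤ m2) (hmn : 2 * m2 ≤ L.n)
    {q0 q1 p0 p1 u0 u1 dt : ℝ} (hq0 : 0 ≤ q0) (hdt : 0 < dt) (hq : q0 + dt ≤ q1) (hqp : q1 ≤ p0)
    (hp : p0 + dt ≤ p1)
    (hp1 : p1 ≤ 1) (hu0 : 0 ≤ u0) (hu : u0 < u1) (hu1 : u1 ≤ 1)
    {U g p δ T pR ξ ηt Lc γ τm τn e ec e1 e2 : ℝ} (hU0 : 0 < U) (hU1 : U ≤ 1) (hxU : L.x ≤ U)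
    (hT : 1 - q0 ≤ T) (hvU : L.vp ≤ L.b ^ 2 * U)
    (hτ : ∀ m ∈ Finset.Icc m1 m2, ∀ t ∈ Set.Icc q0 p1, |tauL L kp m t| ≤ τm)
    (hτU : τm ≤ U ^ 2)
    (hτn : ∀ m ∈ Finset.Icc m1 m2, ∀ t ∈ Set.Icc q0 p1, -tauL L kp m t ≤ τn) (hτn0 : 0 ≤ τn)
    (hg : L.lam / (L.s ^ 2 * L.n) ≤ g) (hp' : 0 ≤ p) (hδ : 0 < δ)
    (hN : Nums3 L p1 U p pR) (hec : 0 < ec) (hec' : ec ≤ 1) (he1 : 0 < e1) (he2 : 0 < e2)
    (hL : 0 < Lc) (hηξ : 16 * L.η ≤ ξ) (hξ : ξ ≤ 1 / 2) (hηt : 0 < ηt)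
    (hreg : 2 * τn * ((1 - ξ) * Lc) + 3 * (kp ^ 2 * L.vp) ≤
      L.x * kp ^ 3 * L.b ^ 4 * ((1 - ξ) * Lc) ^ 2)
    (hγ : 0 < γ)
    (hgap : γ ≤ kp ^ 2 * L.b ^ 2 * (p0 - q1) / U ^ 2 -
      4 * (L.x * kp ^ 3 * L.b ^ 4) * ξ / Lc - 8 * τm * ξ / Lc ^ 2 - 3 * ηt / Lc)
    (he0 : 0 ≤ e)
    (he : E1n L.b (30 * L.b ^ 3) U (1 / √(m1 : ℝ)) g L.vp L.η L.x (kN L U (u1 - u0)) p
      (jN m1 m2) δ T pR (R3n L.b T ec e1 e2 U (kN L U (u1 - u0)) (jN m1 m2) L.η L.vp p pR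
        (1 / √(m1 : ℝ) + g) L.x (k4N L U dt)) ≤ e) :
    ∃ t2 ∈ Set.Icc q0 q1, ∃ u ∈ Set.Icc u0 u1, ∃ m ∈ Finset.Icc m1 m2,
      L.ex' t2 u (H762.big Lc (L.Q (Sn L.n m) t2 u)) ≤
        PBn (30 * L.b ^ 3) γ ξ ηt Lc (kN L U (u1 - u0)) pR e := by
  have hb0 : 0 < L.b := h.b0
  refine br_n h hη hη1 hs0 hx0 hx1 hkp hc hk0 hk1 hr0 hb hx2 hm1 h12 hmn hq0 (by linarith) hqp
    (by linarith) hp1 hu0 hu hu1
    (fun t2 t1 u => C3Amp.Th3 L.n L.b (c3 t2 t1) (H418.cf L.vp u) L.s L.η L.lam L.c L.x)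
    (fun t2 t1 u i => C3Amp.bm_Th3 h.lam0 h.η0 i) (fun t2 t1 u => C3Amp.eq1_Th3 h.lam0 h.η0)
    (C := 30 * L.b ^ 3) (by positivity) (fun t2 t1 u i z => ?_)
    hU0 hU1 hxU hT hvU hτ hτU hτn hτn0 hg hp' hδ hN.toNums ?_ hL hηξ hξ hηt hreg hγ hgap he0 he
  · refine (C3Amp.abs_Th3_le h.lam0 h.η0 h.x0 h.x1 i z).trans ?_
    rw [abs_of_pos hb0]
    have h1 : 1 + L.η ≤ 3 / 2 := by linarith
    calc 20 * L.b ^ 3 * (1 + L.η) ≤ 20 * L.b ^ 3 * (3 / 2) := by gcongr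
      _ = _ := by ring
  · intro t2 ht2 t1 ht1 u hut m hm T1 T2 i0 i1 hi0 hi1
    have h21 : t2 ≤ t1 := ht2.2.trans (hqp.trans ht1.1)
    have t20 : 0 ≤ t2 := hq0.trans ht2.1
    have t10 : 0 ≤ t1 := t20.trans h21
    have t11 : t1 ≤ 1 := ht1.2.trans hp1
    have u00 : 0 ≤ u := hu0.trans hut.1
    have u11 : u ≤ 1 := hut.2.trans hu1
    have q1p : q1 ≤ p1 := by linarith
    have s1 := sh_1 (v := L.vp) t20 h21 t11 u00 u11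
    have s2 := sh_2 (v := L.vp) t20 h21 t11 u00 u11
    refine ⟨?_, ?_⟩
    · refine (c3_pt (T := T) h hη1 hs0 hx0 hx1 hkp hc hk0 hk1 hr0 hb hxb hvp hm1 h12 hmn s1 t10
        ht1.2 (by linarith) hp1 u00 u11 hu hu1 hu0 hm hi0 hi1 hU0 (by linarith [ht2.1]) hg hp'
        hec hec' he1 he2 hN le_rfl T1).trans (R3n_mono hec he1 ?_)
      exact k4N_mono h hx0 U hdt (by linarith)
    · refine (c3_pt (T := T) h hη1 hs0 hx0 hx1 hkp hc hk0 hk1 hr0 hb hxb hvp hm1 h12 hmn s2 t20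
        ht2.2 (by linarith) (q1p.trans hp1) u00 u11 hu hu1 hu0 hm hi0 hi1 hU0
        (by linarith [ht2.1]) hg hp' hec hec' he1 he2 hN q1p T2).trans (R3n_mono hec he1 ?_)
      exact k4N_mono h hx0 U hdt (by linarith)

end Vale.Agent.P146.H694
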