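import Vale.Agent.P146.H694.BrSk

/-!
# P146, K6: the numbers of the cubic equation

`U` = a-priori size of `Q`, `hg` = `|S1 \ S|^(-1/2)` plus the precision of the amplitude identity,
`k` = rank-one number, `p` = square root of the probability that the amplitude is stuck.
-/

namespace Vale.Agent.P146.H694

set_option linter.all false

lemma num_base {τ d0 b U hg p n : ℝ} (hn : 0 < n) (hτ0 : 0 ≤ τ) (hτ : τ ≤ b ^ 2 / n)
    (hU0 : 0 ≤ U) (hU1 : U ≤ 1) (hhg : 0 ≤ hg) (hp : 0 ≤ p)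
    (hd : d0 ≤ √n * (5 * (√U * hg + p))) :
    τ * (d0 * (√n * √U)) ≤ b ^ 2 * (5 * (U * hg + p)) := by
  have hsU0 : 0 ≤ √U := Real.sqrt_nonneg _
  have hsU1 : √U ≤ 1 := Real.sqrt_le_one.2 hU1
  have hsU2 : √U * √U = U := Real.mul_self_sqrt hU0
  have hsn : √n * √n = n := Real.mul_self_sqrt hn.le
  have hsn0 : 0 ≤ √n := Real.sqrt_nonneg _
  have hτn : τ * n ≤ b ^ 2 := by rwa [le_div_iff₀ hn] at hτ
  have h1 : d0 * √n ≤ n * (5 * (√U * hg + p)) := by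
    calc d0 * √n ≤ (√n * (5 * (√U * hg + p))) * √n := mul_le_mul_of_nonneg_right hd hsn0
      _ = (√n * √n) * (5 * (√U * hg + p)) := by ring
      _ = _ := by rw [hsn]
  have base : τ * (d0 * √n) ≤ b ^ 2 * (5 * (√U * hg + p)) := by
    calc τ * (d0 * √n) ≤ τ * (n * (5 * (√U * hg + p))) := mul_le_mul_of_nonneg_left h1 hτ0
      _ = (τ * n) * (5 * (√U * hg + p)) := by ring
      _ ≤ _ := mul_le_mul_of_nonneg_right hτn (by positivity)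
  calc τ * (d0 * (√n * √U)) = τ * (d0 * √n) * √U := by ring
    _ ≤ b ^ 2 * (5 * (√U * hg + p)) * √U := mul_le_mul_of_nonneg_right base hsU0
    _ = b ^ 2 * (5 * ((√U * √U) * hg + p * √U)) := by ring
    _ ≤ b ^ 2 * (5 * (U * hg + p)) := by
        rw [hsU2]
        refine mul_le_mul_of_nonneg_left ?_ (sq_nonneg b)
        have := mul_le_of_le_one_right hp hsU1
        linarith

lemma num_g1 {kp A1 A2 b U v hg p η B W : ℝ} (hkp0 : 0 ≤ kp) (hkp1 : kp ≤ 1) (hη0 : 0 ≤ η)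
    (hv : 0 ≤ v) (hU0 : 0 ≤ U) (hhg : 0 ≤ hg) (hp : 0 ≤ p) (hB : b ^ 2 + v ≤ B) (hB1 : 1 ≤ B)
    (hW : W = b ^ 2 * U + v) (t1 : A1 ≤ b ^ 2 * (5 * (U * hg + p)))
    (t2 : A2 ≤ v * (5 * (hg + p) + η)) :
    2 * kp * (A1 + A2) ≤ 10 * W * hg + 10 * (B ^ 2 * p) + 2 * v * η := by
  have h0 : 0 ≤ b ^ 2 * (5 * (U * hg + p)) + v * (5 * (hg + p) + η) := by positivity
  have h1 : 2 * kp * (A1 + A2) ≤
      2 * (b ^ 2 * (5 * (U * hg + p)) + v * (5 * (hg + p) + η)) := by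
    calc 2 * kp * (A1 + A2)
        ≤ 2 * kp * (b ^ 2 * (5 * (U * hg + p)) + v * (5 * (hg + p) + η)) :=
          mul_le_mul_of_nonneg_left (add_le_add t1 t2) (by positivity)
      _ ≤ 2 * 1 * (b ^ 2 * (5 * (U * hg + p)) + v * (5 * (hg + p) + η)) := by gcongr
      _ = _ := by ring
  have h2 : 2 * (b ^ 2 * (5 * (U * hg + p)) + v * (5 * (hg + p) + η)) =
      10 * W * hg + 10 * ((b ^ 2 + v) * p) + 2 * v * η := by rw [hW]; ring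
  have hBB : B ≤ B ^ 2 := by
    rw [sq]
    exact le_mul_of_one_le_right (by linarith) hB1
  have h3 : (b ^ 2 + v) * p ≤ B ^ 2 * p := mul_le_mul_of_nonneg_right (hB.trans hBB) hp
  rw [h2] at h1
  linarith only [h1, h3]

lemma num_g2 {b U v hg p η B W k DV A3 A4 A5 : ℝ} (hη0 : 0 ≤ η) (hη1 : η ≤ 1 / 2)
    (hv : 0 ≤ v) (hU0 : 0 ≤ U) (hU1 : U ≤ 1) (hhg : 0 ≤ hg) (hp : 0 ≤ p) (hk : 0 ≤ k)
    (hB : b ^ 2 + v ≤ B) (hW : W = b ^ 2 * U + v)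
    (hDV : DV = 3 / 2 * (W * (b ^ 2 * k)) + 4 * η ^ 2 * W ^ 2)
    (t3 : A3 ≤ b ^ 2 * (5 * (U * hg + p)) * W) (t4 : A4 ≤ v * (5 * (hg + p) + η) * W)
    (t5 : A5 ≤ b ^ 2 * (5 * (hg + p) + η) * (W * U)) :
    10 * η * (W ^ 2 + DV) + 2 * DV + 2 * A3 + A4 + A5 ≤
      25 * η * W ^ 2 + 11 * b ^ 2 * W * k + 15 * W ^ 2 * hg + 15 * W * B * p := by
  have hb2 : 0 ≤ b ^ 2 := sq_nonneg b
  have hbU : 0 ≤ b ^ 2 * U := mul_nonneg hb2 hU0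
  have hbU1 : b ^ 2 * U ≤ b ^ 2 := mul_le_of_le_one_right hb2 hU1
  have hW0 : 0 ≤ W := by rw [hW]; linarith only [hbU, hv]
  have hDV0 : 0 ≤ DV := by rw [hDV]; positivity
  have hη2 : η ^ 2 * W ^ 2 ≤ 1 / 2 * (η * W ^ 2) := by
    have h1 : η * (η * W ^ 2) ≤ 1 / 2 * (η * W ^ 2) :=
      mul_le_mul_of_nonneg_right hη1 (by positivity)
    calc η ^ 2 * W ^ 2 = η * (η * W ^ 2) := by ring
      _ ≤ _ := h1
  have hηDV : η * DV ≤ 1 / 2 * DV := mul_le_mul_of_nonneg_right hη1 hDV0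
  have h1 : 2 * (b ^ 2 * (5 * (U * hg + p)) * W) + v * (5 * (hg + p) + η) * W +
      b ^ 2 * (5 * (hg + p) + η) * (W * U) ≤ 15 * W ^ 2 * hg + 15 * W * B * p + η * W ^ 2 := by
    have f1 : 2 * (b ^ 2 * (5 * (U * hg + p)) * W) + v * (5 * (hg + p) + η) * W +
        b ^ 2 * (5 * (hg + p) + η) * (W * U) =
        W * ((15 * (b ^ 2 * U) + 5 * v) * hg + (10 * b ^ 2 + 5 * v + 5 * (b ^ 2 * U)) * p +
          (v + b ^ 2 * U) * η) := by ring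
    have f2 : 15 * W ^ 2 * hg + 15 * W * B * p + η * W ^ 2 =
        W * (15 * W * hg + 15 * B * p + W * η) := by ring
    rw [f1, f2]
    refine mul_le_mul_of_nonneg_left ?_ hW0
    have f3 : (15 * (b ^ 2 * U) + 5 * v) * hg ≤ 15 * W * hg :=
      mul_le_mul_of_nonneg_right (by rw [hW]; linarith only [hbU, hv]) hhg
    have f4 : (10 * b ^ 2 + 5 * v + 5 * (b ^ 2 * U)) * p ≤ 15 * B * p :=
      mul_le_mul_of_nonneg_right (by linarith only [hbU1, hB, hv]) hp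
    have f5 : (v + b ^ 2 * U) * η = W * η := by rw [hW]; ring
    linarith only [f3, f4, f5]
  have h2 : 10 * η * (W ^ 2 + DV) + 2 * DV ≤ 24 * (η * W ^ 2) + 11 * (W * (b ^ 2 * k)) := by
    have f1 : 10 * η * (W ^ 2 + DV) + 2 * DV = 10 * (η * W ^ 2) + 10 * (η * DV) + 2 * DV := by
      ring
    rw [f1]
    have f2 : 7 * DV = 21 / 2 * (W * (b ^ 2 * k)) + 28 * (η ^ 2 * W ^ 2) := by rw [hDV]; ring
    have f3 : 0 ≤ W * (b ^ 2 * k) := by positivity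
    linarith only [f2, f3, hη2, hηDV]
  have f3 : 25 * η * W ^ 2 + 11 * b ^ 2 * W * k + 15 * W ^ 2 * hg + 15 * W * B * p =
      25 * (η * W ^ 2) + 11 * (W * (b ^ 2 * k)) + 15 * W ^ 2 * hg + 15 * W * B * p := by ring
  rw [f3]
  linarith only [h1, h2, t3, t4, t5]

/-- the error of the row equation in numbers -/
lemma RA_num {kp τ v d0 d0f x η b U hg p k n B : ℝ}
    (hn : 0 < n) (hkp0 : 0 ≤ kp) (hkp1 : kp ≤ 1) (hx0 : 0 ≤ x) (hx1 : x ≤ 1) (hη0 : 0 ≤ η)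
    (hη1 : η ≤ 1 / 2) (hτ0 : 0 ≤ τ) (hτ : τ ≤ b ^ 2 / n) (hv : 0 ≤ v) (hU0 : 0 ≤ U)
    (hU1 : U ≤ 1) (hhg : 0 ≤ hg) (hp : 0 ≤ p) (hk : 0 ≤ k) (hB : b ^ 2 + v ≤ B) (hB1 : 1 ≤ B)
    (hd : d0 ≤ √n * (5 * (√U * hg + p))) (hdf : d0f ≤ 5 * (hg + p) + η) :
    RA kp τ v d0 d0f x η (n * U) ((b ^ 2 * U + v) ^ 2)
      (3 / 2 * ((b ^ 2 * U + v) * (b ^ 2 * k)) + 4 * η ^ 2 * (b ^ 2 * U + v) ^ 2)
      (n * ((b ^ 2 * U + v) ^ 2 * U)) (n ^ 2 * ((b ^ 2 * U + v) ^ 2 * U ^ 2)) ≤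
    10 * (b ^ 2 * U + v) * hg + 2 * v * η + x * (25 * η * (b ^ 2 * U + v) ^ 2 +
      11 * b ^ 2 * (b ^ 2 * U + v) * k + 15 * (b ^ 2 * U + v) ^ 2 * hg) + 25 * (B ^ 2 * p) := by
  obtain ⟨W, hW⟩ : ∃ W, W = b ^ 2 * U + v := ⟨_, rfl⟩
  rw [← hW]
  have hb2 : 0 ≤ b ^ 2 := sq_nonneg b
  have hbU : 0 ≤ b ^ 2 * U := mul_nonneg hb2 hU0
  have hbU1 : b ^ 2 * U ≤ b ^ 2 := mul_le_of_le_one_right hb2 hU1
  have hW0 : 0 ≤ W := by rw [hW]; linarith only [hbU, hv]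
  have hWB : W ≤ B := by rw [hW]; linarith only [hbU1, hB]
  have hB0 : 0 ≤ B := by linarith only [hB1]
  have hτn : τ * n ≤ b ^ 2 := by rwa [le_div_iff₀ hn] at hτ
  have e1 : √(n * U) = √n * √U := Real.sqrt_mul hn.le U
  have e2 : √(W ^ 2) = W := Real.sqrt_sq hW0
  have e3 : √(n * (W ^ 2 * U)) = √n * (W * √U) := by
    rw [Real.sqrt_mul hn.le, Real.sqrt_mul (sq_nonneg W), Real.sqrt_sq hW0]
  have e4 : √(n ^ 2 * (W ^ 2 * U ^ 2)) = n * (W * U) := by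
    rw [show n ^ 2 * (W ^ 2 * U ^ 2) = (n * (W * U)) ^ 2 by ring]
    exact Real.sqrt_sq (by positivity)
  unfold RA
  rw [e1, e2, e3, e4]
  have t1 := num_base hn hτ0 hτ hU0 hU1 hhg hp hd
  have t2 : v * d0f ≤ v * (5 * (hg + p) + η) := mul_le_mul_of_nonneg_left hdf hv
  have t3 : τ * (d0 * (√n * (W * √U))) ≤ b ^ 2 * (5 * (U * hg + p)) * W := by
    calc τ * (d0 * (√n * (W * √U))) = τ * (d0 * (√n * √U)) * W := by ring
      _ ≤ _ := mul_le_mul_of_nonneg_right t1 hW0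
  have t4 : v * (d0f * W) ≤ v * (5 * (hg + p) + η) * W := by
    calc v * (d0f * W) = (v * d0f) * W := by ring
      _ ≤ _ := mul_le_mul_of_nonneg_right t2 hW0
  have t5 : τ * (d0f * (n * (W * U))) ≤ b ^ 2 * (5 * (hg + p) + η) * (W * U) := by
    calc τ * (d0f * (n * (W * U))) = (τ * n) * (d0f * (W * U)) := by ring
      _ ≤ (τ * n) * ((5 * (hg + p) + η) * (W * U)) := by
          refine mul_le_mul_of_nonneg_left ?_ (by positivity)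
          exact mul_le_mul_of_nonneg_right hdf (by positivity)
      _ ≤ b ^ 2 * ((5 * (hg + p) + η) * (W * U)) :=
          mul_le_mul_of_nonneg_right hτn (by positivity)
      _ = _ := by ring
  have g1 := num_g1 hkp0 hkp1 hη0 hv hU0 hhg hp hB hB1 hW t1 t2
  have g2 := num_g2 hη0 hη1 hv hU0 hU1 hhg hp hk hB hW rfl t3 t4 t5
  obtain ⟨Z, hZ⟩ : ∃ Z, Z = 25 * η * W ^ 2 + 11 * b ^ 2 * W * k + 15 * W ^ 2 * hg +
      15 * W * B * p := ⟨_, rfl⟩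
  rw [← hZ] at g2
  have hZ0 : 0 ≤ Z := by rw [hZ]; positivity
  have hk2 : kp ^ 2 ≤ 1 := pow_le_one₀ hkp0 hkp1
  have g3 := (mul_le_mul_of_nonneg_left g2 (show 0 ≤ x * kp ^ 2 by positivity)).trans
    (show x * kp ^ 2 * Z ≤ x * Z by
      calc x * kp ^ 2 * Z = x * Z * kp ^ 2 := by ring
        _ ≤ x * Z := mul_le_of_le_one_right (by positivity) hk2)
  have g4 : x * (15 * W * B * p) ≤ 15 * (B ^ 2 * p) := by
    calc x * (15 * W * B * p) ≤ 1 * (15 * B * B * p) := by gcongr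
      _ = _ := by ring
  have g7 : x * Z = x * (25 * η * W ^ 2 + 11 * b ^ 2 * W * k + 15 * W ^ 2 * hg) +
      x * (15 * W * B * p) := by rw [hZ]; ring
  rw [g7] at g3
  linarith only [g1, g3, g4]

lemma num_l0 {r δ C b a τ R : ℝ} (hr : 0 < r) (hδ : 0 < δ) (ha : a ≤ b ^ 4 * r ^ 2)
    (hτ : |τ| ≤ r ^ 4) (hR : R = 2 * r) :
    H339.Sg.Lx 1 a τ R C δ 0 ≤ 2 / δ * ((192 * C ^ 2 + 32 * b ^ 4 + 4) * r ^ 5) := by
  show 2 / δ * (6 * 1 * C ^ 2 * R ^ 5 + 4 * a * R ^ 3 + 2 * |τ| * R) ≤ _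
  refine mul_le_mul_of_nonneg_left ?_ (by positivity)
  rw [hR]
  calc 6 * 1 * C ^ 2 * (2 * r) ^ 5 + 4 * a * (2 * r) ^ 3 + 2 * |τ| * (2 * r)
      ≤ 6 * 1 * C ^ 2 * (2 * r) ^ 5 + 4 * (b ^ 4 * r ^ 2) * (2 * r) ^ 3 +
        2 * r ^ 4 * (2 * r) := by gcongr
    _ = _ := by ring

lemma num_s1 {I N2 n r j h b : ℝ} (hn : 0 < n) (hr : 0 < r) (hj : 0 ≤ j) (hh : 0 ≤ h)
    (hb : 0 ≤ b) (hI : I ≤ n * r ^ 2 * j ^ 2) (hI0 : 0 ≤ I) (hN2 : N2 ≤ 484 * b ^ 2 * r ^ 2)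
    (hN20 : 0 ≤ N2) (hnh : 1 / √n ≤ h) : √(I + N2) / √n ≤ r * j + 22 * b * (r * h) := by
  have hsn0 : 0 < √n := Real.sqrt_pos.2 hn
  have hsn2 : √n ^ 2 = n := Real.sq_sqrt hn.le
  have h5 : 1 ≤ h * √n := by rwa [div_le_iff₀ hsn0] at hnh
  have h6 : 22 * b * r ≤ 22 * b * r * (h * √n) := le_mul_of_one_le_right (by positivity) h5
  have h7 : I + N2 ≤ (√n * (r * j) + 22 * b * r) ^ 2 := by
    have e : (√n * (r * j) + 22 * b * r) ^ 2 =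
        √n ^ 2 * r ^ 2 * j ^ 2 + 2 * (√n * (r * j)) * (22 * b * r) + 484 * b ^ 2 * r ^ 2 := by
      ring
    rw [e, hsn2]
    have : 0 ≤ 2 * (√n * (r * j)) * (22 * b * r) := by positivity
    linarith only [hI, hN2, this]
  have h8 : √(I + N2) ≤ √n * (r * j) + 22 * b * r :=
    (Real.sqrt_le_sqrt h7).trans (le_of_eq (Real.sqrt_sq (by positivity)))
  rw [div_le_iff₀ hsn0]
  calc √(I + N2) ≤ √n * (r * j) + 22 * b * r := h8
    _ ≤ √n * (r * j) + 22 * b * r * (h * √n) := add_le_add le_rfl h6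
    _ = (r * j + 22 * b * (r * h)) * √n := by ring

lemma num_p3 {r j h b C δ : ℝ} (hr : 0 < r) (hj : 0 ≤ j) (hh : 0 ≤ h) (hb : 0 ≤ b)
    (hδ : 0 < δ) :
    2 / δ * ((192 * C ^ 2 + 32 * b ^ 4 + 4) * r ^ 5) * (r * j + 22 * b * (r * h)) +
      2 / δ * (128 * C * r ^ 6) * (C * j) ≤
      1 / δ * (((640 * C ^ 2 + 64 * b ^ 4 + 8) * (1 + 22 * b)) * r ^ 6 * (j + h)) := by
  have e2 : 2 / δ * ((192 * C ^ 2 + 32 * b ^ 4 + 4) * r ^ 5) * (r * j + 22 * b * (r * h)) +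
      2 / δ * (128 * C * r ^ 6) * (C * j) =
      1 / δ * (((384 * C ^ 2 + 64 * b ^ 4 + 8) * (j + 22 * b * h) + 256 * C ^ 2 * j) *
        r ^ 6) := by ring
  rw [e2]
  refine mul_le_mul_of_nonneg_left ?_ (by positivity)
  have e3 : ((640 * C ^ 2 + 64 * b ^ 4 + 8) * (1 + 22 * b)) * r ^ 6 * (j + h) =
      ((384 * C ^ 2 + 64 * b ^ 4 + 8) * ((1 + 22 * b) * (j + h)) +
        256 * C ^ 2 * ((1 + 22 * b) * (j + h))) * r ^ 6 := by ring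
  rw [e3]
  refine mul_le_mul_of_nonneg_right ?_ (by positivity)
  have bj : 0 ≤ b * j := mul_nonneg hb hj
  have bh : 0 ≤ b * h := mul_nonneg hb hh
  have h1 : j + 22 * b * h ≤ (1 + 22 * b) * (j + h) := by linarith only [bj, hh]
  have h2 : j ≤ (1 + 22 * b) * (j + h) := by linarith only [bj, bh, hh]
  gcongr

/-- the error of the step in numbers -/
lemma rE_num {I K N2 N4 U j h δ C b v a τ R n s : ℝ} (hn : 0 < n) (hs : n ≤ 2 * s)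
    (hU0 : 0 < U) (hj : 0 ≤ j) (hh : 0 ≤ h) (hδ : 0 < δ) (hC : 0 ≤ C) (hb : 1 ≤ b)
    (hv : v ≤ b ^ 2 * U) (ha0 : 0 ≤ a) (ha : a ≤ b ^ 4 * U) (hτ : |τ| ≤ U ^ 2)
    (hI : I ≤ n * U * j ^ 2) (hI0 : 0 ≤ I) (hK : K ≤ C ^ 2 * j ^ 2)
    (hN4 : √N4 ≤ 230 * (b ^ 2 * U + v)) (hN2 : N2 ≤ 230 * (b ^ 2 * U + v)) (hN20 : 0 ≤ N2)
    (hnh : 1 / √n ≤ h) (hR : R = 2 * √U) :
    I / s + 2 * ((H339.Sg.Lx 1 a τ R C δ 0 / √n * √(I + N2) + H339.Sg.Lx 1 a τ R C δ 1 * √K) *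
      √N4) ≤ 2 * U * j ^ 2 +
        (920 * b ^ 2) * ((640 * C ^ 2 + 64 * b ^ 4 + 8) * (1 + 22 * b)) * U ^ 4 * (j + h) / δ := by
  have hsU0 : 0 < √U := Real.sqrt_pos.2 hU0
  have hsU2 : √U ^ 2 = U := Real.sq_sqrt hU0.le
  have hs0 : 0 < s := by linarith only [hn, hs]
  have hb0 : 0 ≤ b := by linarith only [hb]
  have hbU : 0 ≤ b ^ 2 * U := by positivity
  have l0 := num_l0 (r := √U) (δ := δ) (C := C) (b := b) (a := a) (τ := τ) (R := R) hsU0 hδ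
    (by rw [hsU2]; exact ha)
    (by calc |τ| ≤ U ^ 2 := hτ
          _ = (√U ^ 2) ^ 2 := by rw [hsU2]
          _ = √U ^ 4 := by ring) hR
  have l1 : H339.Sg.Lx 1 a τ R C δ 1 ≤ 2 / δ * (128 * C * √U ^ 6) := by
    show 2 / δ * (2 * 1 * C * R ^ 6) ≤ _
    rw [hR]
    refine le_of_eq ?_
    ring
  have hR0 : 0 ≤ R := by rw [hR]; positivity
  have l00 : 0 ≤ H339.Sg.Lx 1 a τ R C δ 0 := by
    show 0 ≤ 2 / δ * (6 * 1 * C ^ 2 * R ^ 5 + 4 * a * R ^ 3 + 2 * |τ| * R)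
    positivity
  have l10 : 0 ≤ H339.Sg.Lx 1 a τ R C δ 1 := by
    show 0 ≤ 2 / δ * (2 * 1 * C * R ^ 6)
    positivity
  have s1 := num_s1 (I := I) (N2 := N2) (n := n) (r := √U) (j := j) (h := h) (b := b) hn hsU0 hj
    hh hb0 (by rw [hsU2]; exact hI) hI0 (by rw [hsU2]; linarith only [hN2, hv, hbU]) hN20 hnh
  have s2 : √K ≤ C * j := by
    refine (Real.sqrt_le_sqrt hK).trans (le_of_eq ?_)
    rw [show C ^ 2 * j ^ 2 = (C * j) ^ 2 by ring]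
    exact Real.sqrt_sq (by positivity)
  have s3 : √N4 ≤ 460 * b ^ 2 * U := hN4.trans (by linarith only [hv])
  have p1 : H339.Sg.Lx 1 a τ R C δ 0 / √n * √(I + N2) ≤
      2 / δ * ((192 * C ^ 2 + 32 * b ^ 4 + 4) * √U ^ 5) * (√U * j + 22 * b * (√U * h)) := by
    have e : H339.Sg.Lx 1 a τ R C δ 0 / √n * √(I + N2) =
        H339.Sg.Lx 1 a τ R C δ 0 * (√(I + N2) / √n) := by ring
    rw [e]
    exact mul_le_mul l0 s1 (by positivity) (by positivity)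
  have p2 : H339.Sg.Lx 1 a τ R C δ 1 * √K ≤ 2 / δ * (128 * C * √U ^ 6) * (C * j) :=
    mul_le_mul l1 s2 (Real.sqrt_nonneg _) (by positivity)
  have p3 := num_p3 (r := √U) (j := j) (h := h) (b := b) (C := C) (δ := δ) hsU0 hj hh hb0 hδ
  have p4 := mul_le_mul ((add_le_add p1 p2).trans p3) s3 (Real.sqrt_nonneg _) (by positivity)
  have p5 : I / s ≤ 2 * U * j ^ 2 := by
    rw [div_le_iff₀ hs0]
    calc I ≤ n * U * j ^ 2 := hI
      _ ≤ (2 * s) * U * j ^ 2 := by gcongr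
      _ = _ := by ring
  refine (add_le_add p5 (mul_le_mul_of_nonneg_left p4 (by norm_num : (0 : ℝ) ≤ 2))).trans
    (le_of_eq ?_)
  have e6 : √U ^ 6 = U ^ 3 := by
    calc √U ^ 6 = (√U ^ 2) ^ 3 := by ring
      _ = U ^ 3 := by rw [hsU2]
  rw [e6]
  ring

end Vale.Agent.P146.H694
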