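import Vale.Agent.P146.H694.K6f
import Vale.Agent.P146.H585.K6Num

/-!
# P146, K6: the size of the number `R3n` on the window
-/

namespace Vale.Agent.P146.H694

open Vale.Agent.P146.H585.Num

set_option linter.all false

section

variable {q K : ℝ} {n : ℕ} {y : ℝ}

/-- the sum of five terms below one monomial -/
lemma sum5 (h10 : (10 : ℝ) ≤ Mo q n y (1 / 100) 0 0) {s a c d : ℝ}
    (hs : s ≤ 5 * Mo q n y a c d) : s ≤ Mo q n y (a + 1 / 100) c d := by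
  refine hs.trans ?_
  have h := mul_le_mul_of_nonneg_right h10 (Mo_pos (q := q) (n := n) (y := y) a c d).le
  rw [Mo_mul] at h
  have e : Mo q n y (1 / 100 + a) (0 + c) (0 + d) = Mo q n y (a + 1 / 100) c d := by
    congr 1 <;> ring
  rw [e] at h
  linarith [Mo_pos (q := q) (n := n) (y := y) a c d]

lemma r3_sum {i0 a1 a2 a3 a4 a5 a6 a7 m τ : ℝ} (h0 : 0 ≤ i0) (h1 : i0 * m ≤ τ) (g1 : a1 ≤ m)
    (g2 : a2 ≤ m) (g3 : a3 ≤ m) (g4 : a4 ≤ m) (g5 : a5 ≤ m) (g6 : a6 ≤ m) (g7 : a7 ≤ m) :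
    i0 * (a1 + a2 + a3 + a4 + a5 + a6 + a7) ≤ 7 * τ := by
  have h2 : a1 + a2 + a3 + a4 + a5 + a6 + a7 ≤ 7 * m := by linarith
  have h3 := mul_le_mul_of_nonneg_left h2 h0
  linarith

lemma r3_fin {c A B τ M : ℝ} (hc : 0 ≤ c) (hA : A ≤ τ) (hB : B ≤ 7 * τ) (h1 : 8 * c ≤ M)
    (hτ : 0 ≤ τ) : c * (A + B) ≤ M * τ := by
  have h2 : A + B ≤ 8 * τ := by linarith
  calc c * (A + B) ≤ c * (8 * τ) := mul_le_mul_of_nonneg_left h2 hc
    _ = 8 * c * τ := by ring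
    _ ≤ _ := mul_le_mul_of_nonneg_right h1 hτ

/-- **The size of `R3n`** on the window. -/
theorem r3_core (h : W6 q K n y) {b T U k j η v p pR hg x k4 : ℝ} (hb : 1 ≤ b)
    (hK : Real.log (10 ^ 15 * b ^ 10) ≤ K)
    (hT0 : 0 ≤ T) (hT : T ≤ Mo q n y (-60) 0 2)
    (hU0 : 0 ≤ U) (hU : U ≤ Mo q n y 37 0 1)
    (hk0 : 0 ≤ k) (hk : k ≤ Mo q n y (-2926) 0 1)
    (hj0 : 0 ≤ j) (hj : j ≤ Mo q n y 56 (-1 / 2) (-1))
    (hη0 : 0 ≤ η) (hη : η ≤ Mo q n y (-2000) 0 0)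
    (hv0 : 0 ≤ v) (hv : v ≤ Mo q n y (-23) 0 3)
    (hp0 : 0 ≤ p) (hp : p ≤ Mo q n y 0 (-1) 0)
    (hpR0 : 0 ≤ pR) (hpR : pR ≤ Mo q n y 0 (-1) 0)
    (hhg0 : 0 ≤ hg) (hhg : hg ≤ Mo q n y (-2940) 0 2)
    (hx0 : 0 ≤ x) (hx : x ≤ Mo q n y 0 0 1)
    (hk40 : 0 ≤ k4) (hk4 : k4 ≤ Mo q n y 148 0 4) :
    R3n b T (Mo q n y (-1483) 0 0) (Mo q n y (-2999) 0 (-1)) (Mo q n y (-2962) 0 0)
      U k j η v p pR hg x k4 ≤ Mo q n y (-1366) 0 3 := by
  have hbig := h.big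
  obtain ⟨n0, y0, L1, qL, cst, lo, hi⟩ := h
  have P : ∀ a c d : ℝ, 0 < Mo q n y a c d := Mo_pos
  have bC : 10 ^ 15 * b ^ 10 ≤ Mo q n y (1 / 100) 0 0 := const_le (by positivity) hK cst
  have b10 : (1 : ℝ) ≤ b ^ 10 := one_le_pow₀ hb
  have h10 : (10 : ℝ) ≤ Mo q n y (1 / 100) 0 0 := by
    refine le_trans ?_ bC
    linarith
  obtain ⟨τ, hτ⟩ : ∃ τ, τ = Mo q n y (-1367) 0 3 := ⟨_, rfl⟩
  have τ0 : 0 < τ := by rw [hτ]; exact P _ _ _
  have i0 : 1 / Mo q n y (-1483) 0 0 = Mo q n y 1483 0 0 := by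
    rw [one_div, Mo_inv]
    congr 1 <;> norm_num
  have i1 : 1 / Mo q n y (-2999) 0 (-1) = Mo q n y 2999 0 1 := by
    rw [one_div, Mo_inv]
    congr 1 <;> norm_num
  have i2 : 1 / Mo q n y (-2962) 0 0 = Mo q n y 2962 0 0 := by
    rw [one_div, Mo_inv]
    congr 1 <;> norm_num
  -- powers
  have U2 : U ^ 2 ≤ Mo q n y 74 0 2 := by
    refine (pow_le_pow_left₀ hU0 hU 2).trans ?_
    rw [Mo_pow]
    refine Mo_le ?_
    push_cast
    linarith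
  have U3 : U ^ 3 ≤ Mo q n y 111 0 3 := by
    refine (pow_le_pow_left₀ hU0 hU 3).trans ?_
    rw [Mo_pow]
    refine Mo_le ?_
    push_cast
    linarith
  have U4 : U ^ 4 ≤ Mo q n y 148 0 4 := by
    refine (pow_le_pow_left₀ hU0 hU 4).trans ?_
    rw [Mo_pow]
    refine Mo_le ?_
    push_cast
    linarith
  have U5 : U ^ 5 ≤ Mo q n y 185 0 5 := by
    refine (pow_le_pow_left₀ hU0 hU 5).trans ?_
    rw [Mo_pow]
    refine Mo_le ?_
    push_cast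
    linarith
  have v2 : v ^ 2 ≤ Mo q n y (-46) 0 6 := by
    refine (pow_le_pow_left₀ hv0 hv 2).trans ?_
    rw [Mo_pow]
    refine Mo_le ?_
    push_cast
    linarith
  have A2 : U ^ 2 + pR ≤ Mo q n y (74 + 1 / 100) 0 2 := by
    refine sum5 h10 ?_
    have h1 : pR ≤ Mo q n y 74 0 2 := hpR.trans (Mo_le (by linarith))
    linarith [P 74 0 2]
  have A3 : U ^ 3 + pR ≤ Mo q n y (111 + 1 / 100) 0 3 := by
    refine sum5 h10 ?_
    have h1 : pR ≤ Mo q n y 111 0 3 := hpR.trans (Mo_le (by linarith))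
    linarith [P 111 0 3]
  have A20 : 0 ≤ U ^ 2 + pR := by positivity
  have A30 : 0 ≤ U ^ 3 + pR := by positivity
  -- the seven groups
  have g1 : (T + Mo q n y (-1483) 0 0) * (U ^ 3 + pR) ≤ τ := by
    have h1 : T + Mo q n y (-1483) 0 0 ≤ Mo q n y (-1483 + 1 / 100) 0 0 := by
      refine sum5 h10 ?_
      have h2 : T ≤ Mo q n y (-1483) 0 0 := hT.trans (Mo_le (by linarith))
      linarith [P (-1483) 0 0]
    refine (mul_le_mul h1 A3 A30 (P _ _ _).le).trans ?_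
    rw [hτ]
    simp only [Mo_mul, Mo_pow]
    refine Mo_le ?_
    push_cast
    linarith
  have g2 : 1 / Mo q n y (-2999) 0 (-1) * (k ^ 2 + η ^ 4 * (U ^ 2 + pR) +
      (U ^ 2 * j ^ 2 + pR) + v ^ 2) ≤ Mo q n y (-2851) 0 3 := by
    have h1 : k ^ 2 ≤ Mo q n y (-5852) 0 2 := by
      refine (pow_le_pow_left₀ hk0 hk 2).trans ?_
      rw [Mo_pow]
      refine Mo_le ?_
      push_cast
      linarith
    have h2 : η ^ 4 * (U ^ 2 + pR) ≤ Mo q n y (-5852) 0 2 := by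
      refine (mul_le_mul (pow_le_pow_left₀ hη0 hη 4) A2 A20 (pow_pos (P _ _ _) 4).le).trans ?_
      simp only [Mo_mul, Mo_pow]
      refine Mo_le ?_
      push_cast
      linarith
    have h3 : U ^ 2 * j ^ 2 ≤ Mo q n y (-5852) 0 2 := by
      refine (mul_le_mul U2 (pow_le_pow_left₀ hj0 hj 2) (sq_nonneg _) (P _ _ _).le).trans ?_
      simp only [Mo_mul, Mo_pow]
      refine Mo_le ?_
      push_cast
      linarith
    have h4 : pR ≤ Mo q n y (-5852) 0 2 := hpR.trans (Mo_le (by linarith))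
    have h5 : v ^ 2 ≤ Mo q n y (-5852) 0 2 := v2.trans (Mo_le (by linarith))
    have h6 : k ^ 2 + η ^ 4 * (U ^ 2 + pR) + (U ^ 2 * j ^ 2 + pR) + v ^ 2 ≤
        Mo q n y (-5852 + 1 / 100) 0 2 := by
      refine sum5 h10 ?_
      linarith
    rw [i1]
    refine (mul_le_mul_of_nonneg_left h6 (P _ _ _).le).trans ?_
    simp only [Mo_mul, Mo_pow]
    refine Mo_le ?_
    push_cast
    linarith
  have g3 : Mo q n y (-2999) 0 (-1) * (U ^ 4 + pR + k4 + v ^ 4) ≤ Mo q n y (-2851 + 1 / 10) 0 3 := by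
    have h1 : pR ≤ Mo q n y 148 0 4 := hpR.trans (Mo_le (by linarith))
    have h2 : v ^ 4 ≤ Mo q n y 148 0 4 := by
      refine (pow_le_pow_left₀ hv0 hv 4).trans ?_
      rw [Mo_pow]
      refine Mo_le ?_
      push_cast
      linarith
    have h3 : U ^ 4 + pR + k4 + v ^ 4 ≤ Mo q n y (148 + 1 / 100) 0 4 := by
      refine sum5 h10 ?_
      linarith [P 148 0 4]
    refine (mul_le_mul_of_nonneg_left h3 (P _ _ _).le).trans ?_
    simp only [Mo_mul, Mo_pow]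
    refine Mo_le ?_
    push_cast
    linarith
  have g4 : Mo q n y (-2962) 0 0 * (U ^ 3 + pR) ≤ Mo q n y (-2851 + 1 / 10) 0 3 := by
    refine (mul_le_mul_of_nonneg_left A3 (P _ _ _).le).trans ?_
    simp only [Mo_mul, Mo_pow]
    refine Mo_le ?_
    push_cast
    linarith
  have g5 : 1 / Mo q n y (-2962) 0 0 * (U ^ 5 + pR + v ^ 2 * (U ^ 3 + pR)) ≤
      Mo q n y (-2851 + 1 / 10) 0 3 := by
    have h1 : pR ≤ Mo q n y 185 0 5 := hpR.trans (Mo_le (by linarith))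
    have h2 : v ^ 2 * (U ^ 3 + pR) ≤ Mo q n y 185 0 5 := by
      refine (mul_le_mul v2 A3 A30 (P _ _ _).le).trans ?_
      simp only [Mo_mul, Mo_pow]
      refine Mo_le ?_
      push_cast
      linarith
    have h3 : U ^ 5 + pR + v ^ 2 * (U ^ 3 + pR) ≤ Mo q n y (185 + 1 / 100) 0 5 := by
      refine sum5 h10 ?_
      linarith [P 185 0 5]
    rw [i2]
    refine (mul_le_mul_of_nonneg_left h3 (P _ _ _).le).trans ?_
    simp only [Mo_mul, Mo_pow]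
    refine Mo_le ?_
    push_cast
    linarith
  have g6 : U * hg ^ 2 + p ^ 2 ≤ Mo q n y (-2851 + 1 / 10) 0 3 := by
    have h1 : U * hg ^ 2 ≤ Mo q n y (-2852) 0 3 := by
      refine (mul_le_mul hU (pow_le_pow_left₀ hhg0 hhg 2) (sq_nonneg _) (P _ _ _).le).trans ?_
      simp only [Mo_mul, Mo_pow]
      refine Mo_le ?_
      push_cast
      linarith
    have h2 : p ^ 2 ≤ Mo q n y (-2852) 0 3 := by
      refine (pow_le_pow_left₀ hp0 hp 2).trans ?_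
      rw [Mo_pow]
      refine Mo_le ?_
      push_cast
      linarith
    have h3 : U * hg ^ 2 + p ^ 2 ≤ Mo q n y (-2852 + 1 / 100) 0 3 := by
      refine sum5 h10 ?_
      linarith [P (-2852) 0 3]
    refine h3.trans (Mo_le ?_)
    linarith
  have g7 : v * (hg + p + η) ^ 2 ≤ Mo q n y (-2851 + 1 / 10) 0 3 := by
    have h1 : hg ≤ Mo q n y (-2000) 0 0 := hhg.trans (Mo_le (by linarith))
    have h2 : p ≤ Mo q n y (-2000) 0 0 := hp.trans (Mo_le (by linarith))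
    have h3 : hg + p + η ≤ Mo q n y (-2000 + 1 / 100) 0 0 := by
      refine sum5 h10 ?_
      linarith [P (-2000) 0 0]
    refine (mul_le_mul hv (pow_le_pow_left₀ (by positivity) h3 2) (sq_nonneg _)
      (P _ _ _).le).trans ?_
    simp only [Mo_mul, Mo_pow]
    refine Mo_le ?_
    push_cast
    linarith
  have g8 : x ^ 2 * (U ^ 2 + pR + v ^ 2) ≤ Mo q n y (-2851 + 1 / 10) 0 3 := by
    have h1 : U ^ 2 + pR + v ^ 2 ≤ Mo q n y (75 + 1 / 100) 0 2 := by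
      refine sum5 h10 ?_
      have h2 : U ^ 2 + pR ≤ Mo q n y 75 0 2 := A2.trans (Mo_le (by linarith))
      have h3 : v ^ 2 ≤ Mo q n y 75 0 2 := v2.trans (Mo_le (by linarith))
      linarith [P 75 0 2]
    refine (mul_le_mul (pow_le_pow_left₀ hx0 hx 2) h1 (by positivity)
      (pow_pos (P _ _ _) 2).le).trans ?_
    simp only [Mo_mul, Mo_pow]
    refine Mo_le ?_
    push_cast
    linarith
  -- the sum of the seven groups
  have g2' : 1 / Mo q n y (-2999) 0 (-1) * (k ^ 2 + η ^ 4 * (U ^ 2 + pR) +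
      (U ^ 2 * j ^ 2 + pR) + v ^ 2) ≤ Mo q n y (-2851 + 1 / 10) 0 3 := g2.trans (Mo_le (by linarith))
  have G : 1 / Mo q n y (-1483) 0 0 * (1 / Mo q n y (-2999) 0 (-1) *
      (k ^ 2 + η ^ 4 * (U ^ 2 + pR) + (U ^ 2 * j ^ 2 + pR) + v ^ 2) +
      Mo q n y (-2999) 0 (-1) * (U ^ 4 + pR + k4 + v ^ 4) +
      Mo q n y (-2962) 0 0 * (U ^ 3 + pR) +
      1 / Mo q n y (-2962) 0 0 * (U ^ 5 + pR + v ^ 2 * (U ^ 3 + pR)) + (U * hg ^ 2 + p ^ 2) +
      v * (hg + p + η) ^ 2 + x ^ 2 * (U ^ 2 + pR + v ^ 2)) ≤ 7 * τ := by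
    have h1 : 1 / Mo q n y (-1483) 0 0 * Mo q n y (-2851 + 1 / 10) 0 3 ≤ τ := by
      rw [i0, hτ, Mo_mul]
      refine Mo_le ?_
      linarith
    have h2 : (0 : ℝ) ≤ 1 / Mo q n y (-1483) 0 0 := by
      rw [i0]
      exact (P _ _ _).le
    exact r3_sum h2 h1 g2' g3 g4 g5 g6 g7 g8
  unfold R3n
  have C0 : 0 ≤ 5 * 10 ^ 12 * b ^ 10 := by positivity
  refine (r3_fin C0 g1 G (by linarith [pow_pos (zero_lt_one.trans_le hb) 10] :
    8 * (5 * 10 ^ 12 * b ^ 10) ≤ 10 ^ 15 * b ^ 10) τ0.le).trans ?_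
  refine (mul_le_mul_of_nonneg_right bC τ0.le).trans ?_
  rw [hτ, Mo_mul]
  refine Mo_le ?_
  linarith

end

end Vale.Agent.P146.H694
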